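import Vale.Agent.P047.Gadget
import Mathlib.Analysis.SpecialFunctions.Log.Base

/-!
Self-amplification: one Boolean function with `∑ fhat{i} > 2 √deg` gives power growth.

Balancing costs one unit of degree and does not lower the linear mass; composition of balanced
functions multiplies the linear mass and at most multiplies the degree.
-/

namespace Vale.Agent.P047

open Finset

/-- There is a balanced Boolean function of degree at most `d` and linear mass at least `s`. -/
def AmpReach (d : ℕ) (s : ℝ) : Prop :=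
  ∃ (n : ℕ) (F : (Fin n → Bool) → Bool),
    fourierCoeff (fun x => pm (F x)) ∅ = 0 ∧
    fourierDeg (fun x => pm (F x)) ≤ d ∧
    s ≤ ∑ i, fourierCoeff (fun x => pm (F x)) {i}

theorem amp_reach_mono {d d' : ℕ} {s : ℝ} (h : AmpReach d s) (hd : d ≤ d') : AmpReach d' s := by
  obtain ⟨n, F, h0, h1, h2⟩ := h
  exact ⟨n, F, h0, h1.trans hd, h2⟩

theorem amp_dictator : AmpReach 1 1 := by
  refine ⟨1, fun x => x 0, ?_, ?_, ?_⟩
  · simp [fourierCoeff, ← (Equiv.funUnique (Fin 1) Bool).symm.sum_comp, pm]
  · rw [gad_deg_le_iff]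
    intro S _
    simpa using card_le_univ S
  · simp [fourierCoeff, ← (Equiv.funUnique (Fin 1) Bool).symm.sum_comp, pm]

/-! ### Balancing -/

/-- Negate every bit. -/
def ampNot {n : ℕ} (x : Fin n → Bool) : Fin n → Bool := fun i => !x i

theorem ampNot_ampNot {n : ℕ} (x : Fin n → Bool) : ampNot (ampNot x) = x := by
  funext i
  simp [ampNot]

/-- The balanced function on one more bit. -/
def ampBalance {n : ℕ} (F : (Fin n → Bool) → Bool) (σ : Bool) (x : Fin (n + 1) → Bool) : Bool :=
  if x 0 = σ then F (Fin.tail x) else !F (ampNot (Fin.tail x))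

/-- The coordinates of a set other than the first one. -/
def ampTail {n : ℕ} (S : Finset (Fin (n + 1))) : Finset (Fin n) :=
  univ.filter fun i => i.succ ∈ S

theorem amp_card_tail {n : ℕ} (S : Finset (Fin (n + 1))) :
    S.card = (if (0 : Fin (n + 1)) ∈ S then 1 else 0) + (ampTail S).card := by
  rw [ampTail, card_filter, ← Fin.sum_univ_succ fun i : Fin (n + 1) => if i ∈ S then 1 else 0]
  simp

theorem amp_balance_coeff {n : ℕ} (F : (Fin n → Bool) → Bool) (σ : Bool)
    (S : Finset (Fin (n + 1))) :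
    fourierCoeff (fun x => pm (ampBalance F σ x)) S =
      fourierCoeff (fun x => pm (F x)) (ampTail S) *
        if (0 : Fin (n + 1)) ∈ S then pm σ * (1 + (-1) ^ (ampTail S).card) / 2
        else (1 - (-1) ^ (ampTail S).card) / 2 := by
  set T := ampTail S with hT
  set u : Bool → ℝ := fun b => if (0 : Fin (n + 1)) ∈ S then pm b else 1 with hu
  have hchi : ∀ (b : Bool) (y : Fin n → Bool),
      ∏ i ∈ S, pm ((Fin.cons b y : Fin (n + 1) → Bool) i) = u b * ∏ i ∈ T, pm (y i) := by
    intro b y
    rw [hT, ampTail, prod_filter]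
    calc ∏ i ∈ S, pm ((Fin.cons b y : Fin (n + 1) → Bool) i)
        = ∏ i, if i ∈ S then pm ((Fin.cons b y : Fin (n + 1) → Bool) i) else 1 := by
          rw [prod_ite_mem, univ_inter]
      _ = _ := by rw [Fin.prod_univ_succ]; simp [hu]
  have hflip : ∑ y, pm (F (ampNot y)) * ∏ i ∈ T, pm (y i) =
      (-1 : ℝ) ^ T.card * ∑ y, pm (F y) * ∏ i ∈ T, pm (y i) := by
    let e : (Fin n → Bool) ≃ (Fin n → Bool) := ⟨ampNot, ampNot, ampNot_ampNot, ampNot_ampNot⟩
    rw [← e.sum_comp, mul_sum]
    refine sum_congr rfl fun y _ => ?_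
    have h : ∏ i ∈ T, pm (ampNot y i) = (-1 : ℝ) ^ T.card * ∏ i ∈ T, pm (y i) := by
      simp [ampNot, gad_pm_not, prod_neg]
    simp only [e, Equiv.coe_fn_mk, ampNot_ampNot, h]
    ring
  have hsum : ∑ x : Fin (n + 1) → Bool, pm (ampBalance F σ x) * ∏ i ∈ S, pm (x i) =
      (u σ - u (!σ) * (-1) ^ T.card) * ∑ y, pm (F y) * ∏ i ∈ T, pm (y i) := by
    rw [← (Fin.consEquiv fun _ => Bool).sum_comp, Fintype.sum_prod_type, Fintype.sum_bool]
    have e1 : ∑ y, pm (ampBalance F σ (Fin.cons σ y)) *
        ∏ i ∈ S, pm ((Fin.cons σ y : Fin (n + 1) → Bool) i) =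
        u σ * ∑ y, pm (F y) * ∏ i ∈ T, pm (y i) := by
      rw [mul_sum]
      refine sum_congr rfl fun y _ => ?_
      simp [ampBalance, hchi]
      ring
    have e2 : ∑ y, pm (ampBalance F σ (Fin.cons (!σ) y)) *
        ∏ i ∈ S, pm ((Fin.cons (!σ) y : Fin (n + 1) → Bool) i) =
        -(u (!σ) * (-1) ^ T.card * ∑ y, pm (F y) * ∏ i ∈ T, pm (y i)) := by
      rw [mul_assoc, ← hflip, mul_sum, ← sum_neg_distrib]
      refine sum_congr rfl fun y _ => ?_
      simp [ampBalance, hchi, gad_pm_not]
      ring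
    simp only [Fin.consEquiv, Equiv.coe_fn_mk]
    cases σ <;> simp only [Bool.not_true, Bool.not_false] at e1 e2 ⊢ <;> linear_combination e1 + e2
  simp only [fourierCoeff, hsum, Fintype.card_fin, pow_succ]
  simp only [hu, gad_pm_not]
  split_ifs <;> field_simp <;> ring

theorem amp_balance {n d : ℕ} (F : (Fin n → Bool) → Bool)
    (hd : fourierDeg (fun x => pm (F x)) ≤ d) :
    AmpReach (d + 1) (∑ i, fourierCoeff (fun x => pm (F x)) {i}) := by
  set σ : Bool := decide (0 ≤ fourierCoeff (fun x => pm (F x)) ∅) with hσ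
  refine ⟨n + 1, ampBalance F σ, ?_, ?_, ?_⟩
  · rw [amp_balance_coeff]
    simp [ampTail]
  · rw [gad_deg_le_iff]
    intro S hS
    rw [amp_balance_coeff] at hS
    have := (gad_deg_le_iff _ _).1 hd _ (left_ne_zero_of_mul hS)
    rw [amp_card_tail S]
    split_ifs <;> omega
  · rw [Fin.sum_univ_succ]
    have h1 : ∀ i : Fin n, fourierCoeff (fun x => pm (ampBalance F σ x)) {i.succ} =
        fourierCoeff (fun x => pm (F x)) {i} := by
      intro i
      have e : ampTail ({i.succ} : Finset (Fin (n + 1))) = {i} := by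
        ext j; simp [ampTail]
      rw [amp_balance_coeff, e]
      simp [(Fin.succ_ne_zero i).symm]
    have h0 : 0 ≤ fourierCoeff (fun x => pm (ampBalance F σ x)) {0} := by
      have e : ampTail ({0} : Finset (Fin (n + 1))) = ∅ := by
        ext j; simp [ampTail, Fin.succ_ne_zero]
      rw [amp_balance_coeff, e]
      simp only [mem_singleton, if_true, card_empty, pow_zero, hσ]
      by_cases hc : 0 ≤ fourierCoeff (fun x => pm (F x)) ∅
      · rw [decide_eq_true hc, show pm true = 1 from rfl]
        linarith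
      · rw [decide_eq_false hc, show pm false = -1 from rfl]
        linarith
    simp only [h1]
    linarith

/-! ### Composition -/

section Comp

variable {n : ℕ} {ι : Type*} [Fintype ι] [DecidableEq ι]

/-- The composed function. -/
def ampComp (F : (Fin n → Bool) → Bool) (G : (ι → Bool) → Bool) (x : Fin n × ι → Bool) : Bool :=
  F fun j => G fun i => x (j, i)

/-- The slice of a set of composed coordinates. -/
def ampSlice (S : Finset (Fin n × ι)) (j : Fin n) : Finset ι :=
  univ.filter fun i => (j, i) ∈ S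

/-- The blocks met by a set of composed coordinates. -/
def ampBlocks (S : Finset (Fin n × ι)) : Finset (Fin n) :=
  univ.filter fun j => (ampSlice S j).Nonempty

theorem amp_ind_coeff (G : (ι → Bool) → Bool) (hG : fourierCoeff (fun x => pm (G x)) ∅ = 0)
    (b : Bool) (T : Finset ι) :
    fourierCoeff (gadInd G b) T =
      (if T.Nonempty then pm b * fourierCoeff (fun x => pm (G x)) T else 1) / 2 := by
  have h : fourierCoeff (gadInd G b) T =
      (fourierCoeff (fun _ : ι → Bool => (1 : ℝ)) T +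
        pm b * fourierCoeff (fun x => pm (G x)) T) / 2 := by
    have key : ∑ x, gadInd G b x * ∏ i ∈ T, pm (x i) =
        (∑ x : ι → Bool, (1 : ℝ) * ∏ i ∈ T, pm (x i) +
          pm b * ∑ x, pm (G x) * ∏ i ∈ T, pm (x i)) / 2 := by
      rw [mul_sum, ← sum_add_distrib, sum_div]
      refine sum_congr rfl fun x _ => ?_
      cases b <;> cases hGx : G x <;> simp [gadInd, pm, hGx]
    simp only [fourierCoeff, key]
    ring
  rw [h]
  split_ifs with hT
  · rw [gad_coeff_one hT, zero_add]
  · rw [not_nonempty_iff_eq_empty.1 hT, hG, mul_zero, add_zero]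
    congr 1
    simp [fourierCoeff]

theorem amp_comp_coeff (F : (Fin n → Bool) → Bool) (G : (ι → Bool) → Bool)
    (hG : fourierCoeff (fun x => pm (G x)) ∅ = 0) (S : Finset (Fin n × ι)) :
    fourierCoeff (fun x => pm (ampComp F G x)) S =
      fourierCoeff (fun x => pm (F x)) (ampBlocks S) *
        ∏ j ∈ ampBlocks S, fourierCoeff (fun x => pm (G x)) (ampSlice S j) := by
  classical
  have htuple : ∀ c : Fin n → Bool,
      fourierCoeff (gadInd (fun (x : Fin n × ι → Bool) j => G fun i => x (j, i)) c) S =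
        ∏ j, fourierCoeff (gadInd G (c j)) (ampSlice S j) := by
    intro c
    simp only [fourierCoeff, gadInd]
    have hind : ∀ x : Fin n × ι → Bool,
        (if (fun j => G fun i => x (j, i)) = c then (1 : ℝ) else 0) =
          ∏ j, if G (fun i => x (j, i)) = c j then (1 : ℝ) else 0 := by
      intro x
      rw [Finset.prod_boole]
      simp only [mem_univ, forall_const]
      exact if_congr funext_iff rfl rfl
    have e : ∀ x : Fin n × ι → Bool,
        (if (fun j => G fun i => x (j, i)) = c then (1 : ℝ) else 0) * ∏ p ∈ S, pm (x p) =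
          ∏ j, ((if G (fun i => x (j, i)) = c j then (1 : ℝ) else 0) *
            ∏ i ∈ ampSlice S j, pm (x (j, i))) := by
      intro x
      rw [hind, prod_mul_distrib]
      congr 1
      simp only [ampSlice, prod_filter]
      rw [← Fintype.prod_prod_type (f := fun p : Fin n × ι => if p ∈ S then pm (x p) else 1),
        prod_ite_mem, univ_inter]
    simp only [e]
    rw [gad_sum_prod fun j y => (if G y = c j then (1 : ℝ) else 0) *
        ∏ i ∈ ampSlice S j, pm (y i), Finset.prod_div_distrib,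
      prod_const, ← pow_mul, gad_card_prod, mul_comm n, card_univ, Fintype.card_fin]
  refine (gad_coeff_comp (fun (x : Fin n × ι → Bool) j => G fun i => x (j, i))
    (fun c => pm (F c)) S).trans ?_
  simp only [htuple, amp_ind_coeff G hG, Finset.prod_div_distrib, prod_const, card_univ,
    Fintype.card_fin]
  simp only [← prod_filter, ← ampBlocks.eq_def, prod_mul_distrib]
  rw [fourierCoeff, Fintype.card_fin, div_mul_eq_mul_div, sum_mul, sum_div]
  exact sum_congr rfl fun c _ => by ring

theorem amp_compose {a b : ℕ} {A B : ℝ} (hA : AmpReach a A) (hB : AmpReach b B) (hA0 : 0 ≤ A)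
    (hB0 : 0 ≤ B) : AmpReach (a * b) (A * B) := by
  obtain ⟨n, F, hF0, hFd, hFs⟩ := hA
  obtain ⟨N, G, hG0, hGd, hGs⟩ := hB
  set e := (finProdFinEquiv : Fin n × Fin N ≃ Fin (n * N))
  refine ⟨n * N, fun x => ampComp F G (x ∘ e), ?_, ?_, ?_⟩
  · rw [gad_coeff_equiv e (fun x => pm (ampComp F G x)), map_empty, amp_comp_coeff F G hG0]
    simp [ampBlocks, ampSlice, hF0]
  · rw [gad_deg_le_iff]
    intro S hS
    rw [gad_coeff_equiv e (fun x => pm (ampComp F G x)), amp_comp_coeff F G hG0] at hS
    rw [← S.card_map e.symm.toEmbedding]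
    set S' := S.map e.symm.toEmbedding
    have h1 := (gad_deg_le_iff _ _).1 hFd _ (left_ne_zero_of_mul hS)
    have h2 : ∀ j ∈ ampBlocks S', (ampSlice S' j).card ≤ b := fun j hj =>
      (gad_deg_le_iff _ _).1 hGd _ (prod_ne_zero_iff.1 (right_ne_zero_of_mul hS) j hj)
    have h3 : S'.card = ∑ j ∈ ampBlocks S', (ampSlice S' j).card := by
      rw [sum_subset (subset_univ _) fun j _ hj => ?_]
      · simp only [ampSlice, card_filter]
        rw [← Fintype.sum_prod_type (f := fun p : Fin n × Fin N => if p ∈ S' then 1 else 0)]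
        simp
      · simpa [ampBlocks, not_nonempty_iff_eq_empty] using hj
    rw [h3]
    exact (sum_le_card_nsmul _ _ b h2).trans (by simpa using Nat.mul_le_mul_right b h1)
  · have h : ∑ p, fourierCoeff (fun x => pm (ampComp F G (x ∘ e))) {p} =
        (∑ j, fourierCoeff (fun x => pm (F x)) {j}) *
          ∑ i, fourierCoeff (fun x => pm (G x)) {i} := by
      rw [sum_mul_sum, ← Fintype.sum_prod_type' (fun j i =>
        fourierCoeff (fun x => pm (F x)) {j} * fourierCoeff (fun x => pm (G x)) {i}),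
        ← e.sum_comp]
      refine sum_congr rfl fun p _ => ?_
      rw [gad_coeff_equiv e (fun x => pm (ampComp F G x)), map_singleton, amp_comp_coeff F G hG0]
      have hsl : ∀ j, ampSlice ({p} : Finset (Fin n × Fin N)) j =
          if j = p.1 then {p.2} else ∅ := by
        intro j
        ext i
        split_ifs with hj <;> simp [ampSlice, Prod.ext_iff, hj]
      have hbl : ampBlocks ({p} : Finset (Fin n × Fin N)) = {p.1} := by
        ext j
        simp only [ampBlocks, hsl, mem_filter, mem_univ, true_and, mem_singleton]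
        split_ifs with hj <;> simp [hj]
      simp [hbl, hsl]
    rw [h]
    exact mul_le_mul hFs hGs hB0 (hA0.trans hFs)

end Comp

/-- Unboundedness of the ratio to `√deg` improves to power growth. -/
theorem power_growth_of_unbounded
    (h : ∀ C : ℝ, ∃ (n : ℕ) (f : (Fin n → Bool) → ℝ), (∀ x, f x = 1 ∨ f x = -1) ∧
      C * Real.sqrt (fourierDeg f) < ∑ i, fourierCoeff f {i}) :
    ∃ α c : ℝ, 0 < α ∧ 0 < c ∧ ∀ d : ℕ, 1 ≤ d →
      ∃ (n : ℕ) (f : (Fin n → Bool) → ℝ), (∀ x, f x = 1 ∨ f x = -1) ∧ fourierDeg f ≤ d ∧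
        c * (d : ℝ) ^ (1 / 2 + α) ≤ ∑ i, fourierCoeff f {i} := by
  obtain ⟨n, f, hf, hlt⟩ := h 2
  have hfF : f = fun x => pm (decide (f x = 1)) := by
    funext x
    rcases hf x with hx | hx <;> simp [hx, pm]
  set d0 := fourierDeg f with hd0
  set s := ∑ i, fourierCoeff f {i} with hs
  have hspos : 0 < s := lt_of_le_of_lt (by positivity) hlt
  have hd1 : 1 ≤ d0 := by
    by_contra hcon
    have hz : ∀ i, fourierCoeff f {i} = 0 := fun i => by
      by_contra hne
      have := (gad_deg_le_iff f d0).1 le_rfl _ hne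
      simp only [card_singleton] at this
      omega
    simp [hs, hz] at hspos
  have hbase : AmpReach (d0 + 1) s := by
    have := amp_balance (d := d0) (fun x => decide (f x = 1)) (by rw [← hfF])
    rwa [← hfF] at this
  set D := d0 + 1 with hD
  have hD1 : 1 < D := by omega
  have hDr : (1 : ℝ) < D := by exact_mod_cast hD1
  have hpow : ∀ k : ℕ, AmpReach (D ^ k) (s ^ k) := by
    intro k
    induction k with
    | zero => simpa using amp_dictator
    | succ k ih =>
      rw [pow_succ, pow_succ]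
      exact amp_compose ih hbase (by positivity) hspos.le
  set α := Real.logb D 2 / 2 with hα
  have hαpos : 0 < α := div_pos (Real.logb_pos hDr (by norm_num)) two_pos
  set β := 1 / 2 + α with hβ
  have hDβpos : (0 : ℝ) < (D : ℝ) ^ β := Real.rpow_pos_of_pos (by linarith) _
  have hDβ : (D : ℝ) ^ β ≤ s := by
    have h2 : ((D : ℝ) ^ β) ^ (2 : ℕ) = D * 2 := by
      rw [← Real.rpow_natCast, ← Real.rpow_mul (by linarith),
        show β * ((2 : ℕ) : ℝ) = 1 + Real.logb D 2 by rw [hβ, hα]; push_cast; ring,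
        Real.rpow_add (by linarith), Real.rpow_one,
        Real.rpow_logb (by linarith) hDr.ne' two_pos]
    have h3 : 4 * (d0 : ℝ) ≤ s ^ 2 := by
      have hnn : 0 ≤ Real.sqrt (d0 : ℝ) := Real.sqrt_nonneg _
      calc 4 * (d0 : ℝ) = (2 * Real.sqrt d0) ^ 2 := by
            rw [mul_pow, Real.sq_sqrt (Nat.cast_nonneg _)]; norm_num
        _ ≤ s ^ 2 := pow_le_pow_left₀ (by positivity) hlt.le 2
    have h4 : (1 : ℝ) ≤ d0 := by exact_mod_cast hd1
    have h5 : (D : ℝ) = d0 + 1 := by rw [hD]; push_cast; ring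
    refine le_of_pow_le_pow_left₀ two_ne_zero hspos.le ?_
    rw [h2, h5]
    linarith
  refine ⟨α, ((D : ℝ) ^ β)⁻¹, hαpos, inv_pos.2 hDβpos, fun d hd => ?_⟩
  set k := Nat.log D d with hk
  obtain ⟨N, F, -, hFd, hFs⟩ :=
    amp_reach_mono (hpow k) (Nat.pow_log_le_self D (by omega : d ≠ 0))
  refine ⟨N, fun x => pm (F x), fun x => ?_, hFd, le_trans ?_ hFs⟩
  · cases hFx : F x <;> simp [pm, hFx]
  rw [inv_mul_le_iff₀ hDβpos]
  have hlt' : (d : ℝ) ≤ (D : ℝ) ^ (k + 1) := by
    exact_mod_cast (Nat.lt_pow_succ_log_self hD1 d).le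
  calc (d : ℝ) ^ β ≤ ((D : ℝ) ^ (k + 1)) ^ β :=
        Real.rpow_le_rpow (Nat.cast_nonneg _) hlt' (by positivity)
    _ = ((D : ℝ) ^ β) ^ (k + 1) := by
        rw [← Real.rpow_natCast (D : ℝ) (k + 1), ← Real.rpow_mul (by linarith), mul_comm,
          Real.rpow_mul (by linarith), Real.rpow_natCast]
    _ = (D : ℝ) ^ β * ((D : ℝ) ^ β) ^ k := pow_succ' _ _
    _ ≤ (D : ℝ) ^ β * s ^ k :=
        mul_le_mul_of_nonneg_left (pow_le_pow_left₀ hDβpos.le hDβ k) hDβpos.le

end Vale.Agent.P047
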