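import Vale.Agent.P047.PrekopaLeindler
import Mathlib.MeasureTheory.Constructions.Pi
import Mathlib.MeasureTheory.Integral.Bochner.Set
import Mathlib.MeasureTheory.Integral.Pi
import Mathlib.MeasureTheory.Measure.Lebesgue.Basic

/-!
Midpoint Prékopa–Leindler inequality.

Proof notes.  One variable: if ∫f = 0 or ∫g = 0 trivial; otherwise scale so that max f = max g = 1;
then h ≥ 1 somewhere and for 0<t<1 the closed superlevel sets A, B are compact nonempty, and
(A+B)/2 ⊆ {h ≥ t}, of length at least (|A|+|B|)/2 (translate so that max A = min B).  Layer cake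
gives ∫h ≥ (∫f+∫g)/2 ≥ sqrt(∫f ∫g).  Several variables: induction with Fubini (the partial
integral of a continuous compactly supported function is again one), then transfer by an
equivalence with Fin d.
-/

namespace Vale.Agent.P047

open MeasureTheory

theorem midpoint_prekopa {ι : Type*} [Fintype ι] (f g h : (ι → ℝ) → ℝ)
    (hf : Continuous f) (hg : Continuous g) (hh : Continuous h)
    (hfs : HasCompactSupport f) (hgs : HasCompactSupport g) (hhs : HasCompactSupport h)
    (hf0 : ∀ x, 0 ≤ f x) (hg0 : ∀ x, 0 ≤ g x) (hh0 : ∀ x, 0 ≤ h x)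
    (hmid : ∀ x y, f x * g y ≤ h ((1 / 2 : ℝ) • (x + y)) ^ 2) :
    (∫ x, f x) * (∫ x, g x) ≤ (∫ x, h x) ^ 2 := by
  obtain ⟨e⟩ : Nonempty (Fin (Fintype.card ι) ≃ ι) := ⟨(Fintype.equivFin ι).symm⟩
  set L : (Fin (Fintype.card ι) → ℝ) → ι → ℝ := fun v i => v (e.symm i) with hL
  have hLc : Continuous L := by fun_prop
  have hmp : MeasurePreserving L volume volume := by
    have h1 := volume_measurePreserving_piCongrLeft (fun _ : ι => ℝ) e
    have h2 : ⇑(MeasurableEquiv.piCongrLeft (fun _ : ι => ℝ) e) = L := by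
      funext v i
      obtain ⟨j, rfl⟩ := e.surjective i
      rw [MeasurableEquiv.piCongrLeft_apply_apply, hL]
      simp
    rwa [h2] at h1
  have key : ∀ u : (ι → ℝ) → ℝ, Continuous u → HasCompactSupport u → (∀ x, 0 ≤ u x) →
      ENNReal.ofReal (∫ x, u x) = ∫⁻ v, ENNReal.ofReal (u (L v)) := by
    intro u hu hus hu0
    rw [ofReal_integral_eq_lintegral_ofReal (hu.integrable_of_hasCompactSupport hus)
      (.of_forall hu0)]
    exact (hmp.lintegral_comp (by fun_prop : Measurable fun x => ENNReal.ofReal (u x))).symm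
  have hpl := pl_midpoint (f := fun v => ENNReal.ofReal (f (L v)))
    (g := fun v => ENNReal.ofReal (g (L v))) (h := fun v => ENNReal.ofReal (h (L v)))
    (by fun_prop) (by fun_prop) (by fun_prop) fun v w => by
      rw [← ENNReal.ofReal_mul (hf0 _), ← ENNReal.ofReal_pow (hh0 _)]
      refine ENNReal.ofReal_le_ofReal ((hmid (L v) (L w)).trans_eq ?_)
      congr 2
      funext i
      simp [hL, mul_add]
  rw [← key f hf hfs hf0, ← key g hg hgs hg0, ← key h hh hhs hh0,
    ← ENNReal.ofReal_mul (integral_nonneg hf0), ← ENNReal.ofReal_pow (integral_nonneg hh0),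
    ENNReal.ofReal_le_ofReal_iff (sq_nonneg _)] at hpl
  exact hpl

end Vale.Agent.P047
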