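import Vale.Agent.P047.WBasic
import Vale.Agent.P047.PL
import Mathlib.Analysis.SpecialFunctions.Trigonometric.Bounds

/-!
The cell bound.

Proof notes.  C = {c : ∀ y, |B c y| ≤ R} is compact convex (hB) and symmetric.  For each u choose
a lift s u of T c0 u with |s u| ≤ π/2 and put u in A when |s u| > 3π/8; there
|cos (s+t)| ≤ (65/100) cos t for |t| ≤ 2R ≤ 1/8, and 65/100 ≤ exp(-(1/8)(π/2)^2).
Otherwise |cos (s+t)| = γ(s+t) q(s+t) with γ y = exp(-y²/2), q y = cos y · exp(y²/2) on
|y| ≤ π/2 and 0 outside (continuous, even).  Let w minimise Φ c = ∑_{u∉A} (s u + T c u)² on C,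
a' = (s + T w)/2; first order optimality gives 1 ≤ exp ⟨a', T(c - w)⟩ on C.  With
y = t + s, y* = T w + s:  -y²/2 + y*(y-y*)/2 = -(y - y*/2)²/2 - 3 y*²/8.
So the integral over C is at most
 exp(-3/8 ∑_{∉A} y*²) · (65/100)^|A| · G 1, where
 G l = ∫ [∏_{∉A} γ(t + l(s-a')) q(t + l s)] [∏_A γ(t) q(t)] [∏_y τ(B c y)] with t = T c and
 τ x = max 0 (min 1 (2 - |x|/R)).
G is even in l; the integrand satisfies the midpoint inequality (γ and τ: elementary; q:
cos a cos b = cos²m - sin²h ≤ cos²m cos²h and cos²h exp(h²) ≤ 1 for a = m+h, b = m-h), so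
G 1 ≤ G 0 by midpoint_prekopa, and G 0 is at most the integral of ∏ cos over the doubled cell.
-/

namespace Vale.Agent.P047

open MeasureTheory

/-- The Gaussian. -/
private noncomputable def cellGam (x : ℝ) : ℝ := Real.exp (-x ^ 2 / 2)

/-- The cosine divided by the Gaussian, zero outside the period. -/
private noncomputable def cellQ (x : ℝ) : ℝ :=
  Real.cos (min |x| (Real.pi / 2)) * Real.exp (x ^ 2 / 2)

/-- The trapezoid cutoff. -/
private noncomputable def cellTau (R x : ℝ) : ℝ := max 0 (min 1 (2 - |x| / R))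

private theorem cellQ_nonneg (x : ℝ) : 0 ≤ cellQ x := by
  refine mul_nonneg (Real.cos_nonneg_of_mem_Icc ⟨?_, min_le_right _ _⟩) (Real.exp_pos _).le
  linarith [le_min (abs_nonneg x) (by linarith [Real.pi_pos] : 0 ≤ Real.pi / 2), Real.pi_pos]

private theorem cellQ_eq {x : ℝ} (h : |x| ≤ Real.pi / 2) :
    cellQ x = Real.cos x * Real.exp (x ^ 2 / 2) := by
  rw [cellQ, min_eq_left h, Real.cos_abs]

private theorem cell_gam_mul_q {x : ℝ} (h : |x| ≤ Real.pi / 2) :
    cellGam x * cellQ x = Real.cos x := by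
  rw [cellQ_eq h, cellGam, mul_left_comm, ← Real.exp_add]
  simp [neg_div]

private theorem cellQ_eq_zero {x : ℝ} (h : Real.pi / 2 ≤ |x|) : cellQ x = 0 := by
  rw [cellQ, min_eq_right h, Real.cos_pi_div_two, zero_mul]

/-- `cos x * exp (x ^ 2 / 2) ≤ 1` on the period. -/
private theorem cell_cos_mul_exp_le {x : ℝ} (hx : |x| ≤ Real.pi / 2) :
    Real.cos x * Real.exp (x ^ 2 / 2) ≤ 1 := by
  have hd : ∀ y : ℝ, HasDerivAt (fun z : ℝ => Real.cos z * Real.exp (z ^ 2 / 2))
      (-Real.sin y * Real.exp (y ^ 2 / 2) + Real.cos y * (Real.exp (y ^ 2 / 2) * y)) y := by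
    intro y
    have h1 : HasDerivAt (fun z : ℝ => z ^ 2 / 2) y y := by
      simpa using (hasDerivAt_pow 2 y).div_const 2
    exact (Real.hasDerivAt_cos y).mul h1.exp
  have anti : AntitoneOn (fun z : ℝ => Real.cos z * Real.exp (z ^ 2 / 2))
      (Set.Icc 0 (Real.pi / 2)) := by
    refine antitoneOn_of_deriv_nonpos (convex_Icc _ _) (by fun_prop)
      (fun y _ => (hd y).differentiableAt.differentiableWithinAt) fun y hy => ?_
    rw [interior_Icc] at hy
    rw [(hd y).deriv]
    have hc : 0 < Real.cos y :=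
      Real.cos_pos_of_mem_Ioo ⟨by linarith [hy.1, Real.pi_pos], hy.2⟩
    have h2 := Real.lt_tan hy.1 hy.2
    rw [Real.tan_eq_sin_div_cos, lt_div_iff₀ hc] at h2
    nlinarith [Real.exp_pos (y ^ 2 / 2)]
  have h := anti ⟨le_rfl, by linarith [Real.pi_pos]⟩ ⟨abs_nonneg x, hx⟩ (abs_nonneg x)
  simpa [Real.cos_abs] using h

private theorem cellGam_mid (a b : ℝ) : cellGam a * cellGam b ≤ cellGam ((a + b) / 2) ^ 2 := by
  rw [cellGam, cellGam, cellGam, sq (Real.exp _), ← Real.exp_add, ← Real.exp_add, Real.exp_le_exp]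
  nlinarith [sq_nonneg (a - b)]

private theorem cellQ_mid (a b : ℝ) : cellQ a * cellQ b ≤ cellQ ((a + b) / 2) ^ 2 := by
  rcases le_or_gt |a| (Real.pi / 2) with ha | ha
  swap
  · rw [cellQ_eq_zero ha.le, zero_mul]; exact sq_nonneg _
  rcases le_or_gt |b| (Real.pi / 2) with hb | hb
  swap
  · rw [cellQ_eq_zero hb.le, mul_zero]; exact sq_nonneg _
  obtain ⟨m, h, rfl, rfl⟩ : ∃ m h, a = m + h ∧ b = m - h :=
    ⟨(a + b) / 2, (a - b) / 2, by ring, by ring⟩
  have ha' := abs_le.1 ha
  have hb' := abs_le.1 hb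
  have hm : |m| ≤ Real.pi / 2 := abs_le.2 ⟨by linarith, by linarith⟩
  have hh : |h| ≤ Real.pi / 2 := abs_le.2 ⟨by linarith, by linarith⟩
  rw [show (m + h + (m - h)) / 2 = m by ring, cellQ_eq ha, cellQ_eq hb, cellQ_eq hm]
  have e1 : Real.exp ((m + h) ^ 2 / 2) * Real.exp ((m - h) ^ 2 / 2) =
      Real.exp (m ^ 2 / 2) ^ 2 * Real.exp (h ^ 2 / 2) ^ 2 := by
    rw [sq (Real.exp (m ^ 2 / 2)), sq (Real.exp (h ^ 2 / 2)), ← Real.exp_add, ← Real.exp_add,
      ← Real.exp_add, ← Real.exp_add]
    congr 1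
    ring
  have e2 : Real.cos (m + h) * Real.cos (m - h) ≤ Real.cos m ^ 2 * Real.cos h ^ 2 := by
    rw [Real.cos_add, Real.cos_sub]
    nlinarith [sq_nonneg (Real.sin m * Real.sin h)]
  have hh0 : 0 ≤ Real.cos h := Real.cos_nonneg_of_mem_Icc (abs_le.1 hh)
  have e3 : (Real.cos h * Real.exp (h ^ 2 / 2)) ^ 2 ≤ 1 :=
    pow_le_one₀ (mul_nonneg hh0 (Real.exp_pos _).le) (cell_cos_mul_exp_le hh)
  calc Real.cos (m + h) * Real.exp ((m + h) ^ 2 / 2) *
        (Real.cos (m - h) * Real.exp ((m - h) ^ 2 / 2))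
      = (Real.cos (m + h) * Real.cos (m - h)) *
          (Real.exp (m ^ 2 / 2) ^ 2 * Real.exp (h ^ 2 / 2) ^ 2) := by rw [← e1]; ring
    _ ≤ (Real.cos m ^ 2 * Real.cos h ^ 2) *
          (Real.exp (m ^ 2 / 2) ^ 2 * Real.exp (h ^ 2 / 2) ^ 2) := by gcongr
    _ = (Real.cos m * Real.exp (m ^ 2 / 2)) ^ 2 *
          (Real.cos h * Real.exp (h ^ 2 / 2)) ^ 2 := by ring
    _ ≤ (Real.cos m * Real.exp (m ^ 2 / 2)) ^ 2 := mul_le_of_le_one_right (sq_nonneg _) e3

private theorem cellTau_mid {R : ℝ} (hR : 0 < R) (a b : ℝ) :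
    cellTau R a * cellTau R b ≤ cellTau R ((a + b) / 2) ^ 2 := by
  rcases le_or_gt (2 - |a| / R) 0 with ha | ha
  · have : cellTau R a = 0 := max_eq_left ((min_le_right _ _).trans ha)
    rw [this, zero_mul]; exact sq_nonneg _
  rcases le_or_gt (2 - |b| / R) 0 with hb | hb
  · have : cellTau R b = 0 := max_eq_left ((min_le_right _ _).trans hb)
    rw [this, mul_zero]; exact sq_nonneg _
  rw [cellTau, cellTau, max_eq_right (le_min zero_le_one ha.le),
    max_eq_right (le_min zero_le_one hb.le)]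
  have hp : 0 ≤ min 1 (2 - |a| / R) := le_min zero_le_one ha.le
  have hq : 0 ≤ min 1 (2 - |b| / R) := le_min zero_le_one hb.le
  have hm : |(a + b) / 2| / R ≤ (|a| / R + |b| / R) / 2 := by
    rw [← add_div, abs_div, abs_two, div_right_comm]
    gcongr
    exact abs_add_le a b
  have key : (min 1 (2 - |a| / R) + min 1 (2 - |b| / R)) / 2 ≤ cellTau R ((a + b) / 2) := by
    refine le_max_of_le_right (le_min ?_ ?_)
    · linarith [min_le_left 1 (2 - |a| / R), min_le_left 1 (2 - |b| / R)]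
    · linarith [min_le_right 1 (2 - |a| / R), min_le_right 1 (2 - |b| / R)]
  calc min 1 (2 - |a| / R) * min 1 (2 - |b| / R)
      ≤ ((min 1 (2 - |a| / R) + min 1 (2 - |b| / R)) / 2) ^ 2 := by
        nlinarith [sq_nonneg (min 1 (2 - |a| / R) - min 1 (2 - |b| / R))]
    _ ≤ _ := pow_le_pow_left₀ (by linarith) key 2

private theorem cell_isCompact {V Y : Type*} [Fintype V] [Fintype Y]
    (B : (V → ℝ) →ₗ[ℝ] (Y → ℝ)) (hB : ∀ v : V, ∃ y : Y, ∀ c : V → ℝ, B c y = c v) (r : ℝ) :
    IsCompact {c : V → ℝ | ∀ y, |B c y| ≤ r} := by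
  refine (isCompact_Icc (a := fun _ : V => -r) (b := fun _ => r)).of_isClosed_subset ?_ ?_
  · have hc : Continuous B := B.continuous_of_finiteDimensional
    simp only [Set.ofPred_forall]
    exact isClosed_iInter fun y => isClosed_le ((continuous_apply y).comp hc).abs continuous_const
  · intro c hc
    refine ⟨fun v => ?_, fun v => ?_⟩ <;> obtain ⟨y, hy⟩ := hB v <;>
      have := abs_le.1 (hc y) <;> rw [hy c] at this
    exacts [this.1, this.2]

/-- First order optimality in the minimisation of a sum of squares over a convex set. -/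
private theorem cell_first_order {U : Type*} [Fintype U] (p d : U → ℝ)
    (h : ∀ θ : ℝ, 0 ≤ θ → θ ≤ 1 → ∑ u, p u ^ 2 ≤ ∑ u, (p u + θ * d u) ^ 2) :
    0 ≤ ∑ u, p u * d u := by
  by_contra hneg
  push Not at hneg
  set S := ∑ u, p u * d u with hS
  set Q := ∑ u, d u ^ 2 with hQ
  have hQ0 : 0 ≤ Q := Finset.sum_nonneg fun u _ => sq_nonneg _
  have hden : 0 < Q + -S := by linarith
  set θ := -S / (Q + -S) with hθ
  have hθ0 : 0 < θ := div_pos (by linarith) hden
  have hθ1 : θ ≤ 1 := (div_le_one hden).2 (by linarith)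
  have he : ∑ u, (p u + θ * d u) ^ 2 = ∑ u, p u ^ 2 + (2 * θ * S + θ ^ 2 * Q) := by
    rw [hS, hQ, Finset.mul_sum, Finset.mul_sum, ← Finset.sum_add_distrib,
      ← Finset.sum_add_distrib]
    exact Finset.sum_congr rfl fun u _ => by ring
  have h1 := h θ hθ0.le hθ1
  rw [he] at h1
  have h2 : θ * Q ≤ -S := by
    rw [hθ, div_mul_eq_mul_div, div_le_iff₀ hden]
    nlinarith
  have h3 : θ ^ 2 * Q ≤ θ * -S := by nlinarith
  nlinarith

theorem cell_bound {V U Y : Type*} [Fintype V] [Fintype U] [Fintype Y]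
    (T : (V → ℝ) →ₗ[ℝ] (U → ℝ)) (B : (V → ℝ) →ₗ[ℝ] (Y → ℝ))
    (hB : ∀ v : V, ∃ y : Y, ∀ c : V → ℝ, B c y = c v)
    (hT : ∀ (r : ℝ) (c : V → ℝ), 0 ≤ r → (∀ y, |B c y| ≤ r) → ∀ u, |T c u| ≤ 2 * r)
    (R : ℝ) (hR : 0 < R) (hR' : R ≤ 1 / 16) (c0 : V → ℝ) :
    ∃ w : V → ℝ, (∀ y, |B w y| ≤ R) ∧
      (∫ c in {c : V → ℝ | ∀ y, |B c y| ≤ R}, ∏ u, |Real.cos (T (c0 + c) u)|) ≤
        Real.exp (-(1 / 8) * ∑ u, dpi (T (c0 + w) u) ^ 2) *
          ∫ c in {c : V → ℝ | ∀ y, |B c y| ≤ 2 * R}, ∏ u, Real.cos (T c u) := by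
  have hpi := Real.pi_gt_d2
  have hpi' := Real.pi_lt_d2
  have hTc : Continuous T := T.continuous_of_finiteDimensional
  have hBc : Continuous B := B.continuous_of_finiteDimensional
  set C : Set (V → ℝ) := {c : V → ℝ | ∀ y, |B c y| ≤ R} with hC
  set C2 : Set (V → ℝ) := {c : V → ℝ | ∀ y, |B c y| ≤ 2 * R} with hC2
  have hCc : IsCompact C := cell_isCompact B hB R
  have hC2c : IsCompact C2 := cell_isCompact B hB (2 * R)
  set k : U → ℤ := fun u => round (T c0 u / Real.pi) with hk
  set s : U → ℝ := fun u => T c0 u - Real.pi * (k u : ℝ) with hs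
  have hs2 : ∀ u, |s u| ≤ Real.pi / 2 := fun u => dpi_le_half_pi (T c0 u)
  classical
  set z : U → ℝ := fun u => if 3 * Real.pi / 8 < |s u| then 0 else 1 with hz
  obtain ⟨w, hw, hmin⟩ := hCc.exists_isMinOn
    (⟨0, fun y => by simp [hR.le]⟩ : C.Nonempty)
    (f := fun c => ∑ u, (z u * (s u + T c u)) ^ 2) (by fun_prop : Continuous _).continuousOn
  set p : U → ℝ := fun u => z u * (s u + T w u) with hp
  -- first order optimality
  have hopt : ∀ c ∈ C, 0 ≤ ∑ u, p u * (T c u - T w u) := by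
    intro c hc
    have h := cell_first_order p (fun u => z u * (T c u - T w u)) fun θ h0 h1 => ?_
    · refine h.trans_eq (Finset.sum_congr rfl fun u _ => ?_)
      simp only [hp, hz]
      split_ifs <;> ring
    · have hmem : (1 - θ) • w + θ • c ∈ C := by
        intro y
        simp only [map_add, map_smul, Pi.add_apply, Pi.smul_apply, smul_eq_mul]
        refine (abs_add_le _ _).trans ?_
        rw [abs_mul, abs_mul, abs_of_nonneg (by linarith : 0 ≤ 1 - θ), abs_of_nonneg h0]
        nlinarith [hw y, hc y]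
      refine (isMinOn_iff.1 hmin _ hmem).trans_eq (Finset.sum_congr rfl fun u _ => ?_)
      simp only [hp, map_add, map_smul, Pi.add_apply, Pi.smul_apply, smul_eq_mul]
      ring
  refine ⟨w, hw, ?_⟩
  set F : ℝ → (V → ℝ) → ℝ := fun l c =>
    (∏ u, cellGam (T c u + l * (z u * (s u - (s u + T w u) / 2))) *
      cellQ (T c u + l * (z u * s u))) * ∏ y, cellTau R (B c y) with hF
  have tau0 : ∀ x, 0 ≤ cellTau R x := fun x => le_max_left _ _
  have hFc : ∀ l, Continuous (F l) := by
    intro l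
    simp only [hF, cellGam, cellQ, cellTau]
    fun_prop
  have hF0 : ∀ l c, 0 ≤ F l c := fun l c =>
    mul_nonneg (Finset.prod_nonneg fun u _ => mul_nonneg (Real.exp_pos _).le (cellQ_nonneg _))
      (Finset.prod_nonneg fun y _ => tau0 _)
  have hFout : ∀ l, ∀ c ∉ C2, F l c = 0 := by
    intro l c hc
    simp only [hC2, Set.mem_ofPred_eq, not_forall, not_le] at hc
    obtain ⟨y, hy⟩ := hc
    have : cellTau R (B c y) = 0 := by
      refine max_eq_left ((min_le_right _ _).trans ?_)
      rw [sub_nonpos, le_div_iff₀ hR]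
      exact hy.le
    simp only [hF]
    rw [Finset.prod_eq_zero (Finset.mem_univ y) this, mul_zero]
  have hFs : ∀ l, HasCompactSupport (F l) := fun l => HasCompactSupport.intro hC2c (hFout l)
  have hFi : ∀ l, Integrable (F l) := fun l => (hFc l).integrable_of_hasCompactSupport (hFs l)
  -- evenness
  have heven : ∫ c, F (-1) c = ∫ c, F 1 c := by
    rw [← integral_neg_eq_self (F 1) volume]
    refine integral_congr_ae (.of_forall fun c => ?_)
    simp only [hF, cellGam, cellQ, cellTau, map_neg, Pi.neg_apply, abs_neg]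
    congr 1
    refine Finset.prod_congr rfl fun u _ => ?_
    have e1 : (T c u + -1 * (z u * (s u - (s u + T w u) / 2))) =
      -(-T c u + 1 * (z u * (s u - (s u + T w u) / 2))) := by ring
    have e2 : (T c u + -1 * (z u * s u)) = -(-T c u + 1 * (z u * s u)) := by ring
    rw [e1, e2, neg_sq, abs_neg, neg_sq]
  have hmidF : ∀ x y, F 1 x * F (-1) y ≤ F 0 ((1 / 2 : ℝ) • (x + y)) ^ 2 := by
    intro x y
    simp only [hF, map_smul, map_add, Pi.smul_apply, Pi.add_apply, smul_eq_mul]
    rw [mul_mul_mul_comm, ← Finset.prod_mul_distrib, ← Finset.prod_mul_distrib, mul_pow,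
      ← Finset.prod_pow, ← Finset.prod_pow]
    refine mul_le_mul (Finset.prod_le_prod ?_ ?_) (Finset.prod_le_prod ?_ ?_)
      (Finset.prod_nonneg fun _ _ => mul_nonneg (tau0 _) (tau0 _))
      (Finset.prod_nonneg fun _ _ => sq_nonneg _)
    · exact fun u _ => mul_nonneg (mul_nonneg (Real.exp_pos _).le (cellQ_nonneg _))
        (mul_nonneg (Real.exp_pos _).le (cellQ_nonneg _))
    · intro u _
      rw [mul_mul_mul_comm, mul_pow]
      refine mul_le_mul ((cellGam_mid _ _).trans_eq ?_) ((cellQ_mid _ _).trans_eq ?_)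
        (mul_nonneg (cellQ_nonneg _) (cellQ_nonneg _)) (sq_nonneg _)
      all_goals
        congr 2
        ring
    · exact fun _ _ => mul_nonneg (tau0 _) (tau0 _)
    · intro v _
      refine (cellTau_mid hR _ _).trans_eq ?_
      congr 2
      ring
  have hG : ∫ c, F 1 c ≤ ∫ c, F 0 c := by
    have h := midpoint_prekopa (F 1) (F (-1)) (F 0) (hFc _) (hFc _) (hFc _) (hFs _) (hFs _)
      (hFs _) (hF0 _) (hF0 _) (hF0 _) hmidF
    rw [heven, ← sq] at h
    exact (pow_le_pow_iff_left₀ (integral_nonneg (hF0 1)) (integral_nonneg (hF0 0))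
      two_ne_zero).1 h
  have hG0 : ∫ c, F 0 c ≤ ∫ c in C2, ∏ u, Real.cos (T c u) := by
    rw [← setIntegral_eq_integral_of_forall_compl_eq_zero (hFout 0)]
    refine setIntegral_mono_on (hFi 0).integrableOn
      ((by fun_prop : Continuous fun c => ∏ u, Real.cos (T c u)).continuousOn.integrableOn_compact
        hC2c) hC2c.measurableSet fun c hc => ?_
    have ht : ∀ u, |T c u| ≤ Real.pi / 2 := fun u =>
      (hT (2 * R) c (by linarith) hc u).trans (by linarith)
    have he : ∀ u, cellGam (T c u + 0 * (z u * (s u - (s u + T w u) / 2))) *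
        cellQ (T c u + 0 * (z u * s u)) = Real.cos (T c u) := fun u => by
      simp [cell_gam_mul_q (ht u)]
    simp only [hF, he]
    exact mul_le_of_le_one_right
      (Finset.prod_nonneg fun u _ => Real.cos_nonneg_of_mem_Icc (abs_le.1 (ht u)))
      (Finset.prod_le_one (fun y _ => tau0 _) fun y _ => max_le zero_le_one (min_le_left _ _))
  -- the pointwise bound on the cell
  set E := Real.exp (-(1 / 8) * ∑ u, dpi (T (c0 + w) u) ^ 2) with hE
  have hpt : ∀ c ∈ C, ∏ u, |Real.cos (T (c0 + c) u)| ≤ E * F 1 c := by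
    intro c hc
    have ht : ∀ u, |T c u| ≤ 1 / 8 := fun u => (hT R c hR.le hc u).trans (by linarith)
    have hone : ∏ y, cellTau R (B c y) = 1 := Finset.prod_eq_one fun y _ => by
      have : |B c y| / R ≤ 1 := (div_le_one hR).2 (hc y)
      rw [cellTau, min_eq_left (by linarith), max_eq_right zero_le_one]
    have hu : ∀ u, |Real.cos (T (c0 + c) u)| ≤ Real.exp (-(1 / 8) * dpi (T (c0 + w) u) ^ 2) *
        (cellGam (T c u + 1 * (z u * (s u - (s u + T w u) / 2))) *
          cellQ (T c u + 1 * (z u * s u))) * Real.exp (-(p u * (T c u - T w u)) / 2) := by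
      intro u
      have htu := abs_le.1 (ht u)
      have hsu := abs_le.1 (hs2 u)
      have habs : |Real.cos (T (c0 + c) u)| = |Real.cos (s u + T c u)| := by
        rw [map_add, Pi.add_apply, show T c0 u + T c u = s u + T c u + (k u : ℝ) * Real.pi by
          simp only [hs]; ring, Real.cos_add_int_mul_pi, abs_mul, abs_zpow, abs_neg, abs_one,
          one_zpow, one_mul]
      rw [habs]
      by_cases hA : 3 * Real.pi / 8 < |s u|
      · have hz0 : z u = 0 := by simp [hz, hA]
        have hp0 : p u = 0 := by simp [hp, hz0]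
        simp only [hz0, hp0, zero_mul, mul_zero, add_zero, neg_zero, zero_div, Real.exp_zero,
          mul_one]
        rw [cell_gam_mul_q ((ht u).trans (by linarith))]
        have hcs : |Real.cos (s u)| ≤ 1 / 2 := by
          rw [← Real.cos_abs (s u), abs_of_nonneg (Real.cos_nonneg_of_mem_Icc
            ⟨by linarith [abs_nonneg (s u)], hs2 u⟩), ← Real.cos_pi_div_three]
          exact Real.cos_le_cos_of_nonneg_of_le_pi (by linarith) (by linarith [hs2 u])
            (by linarith)
        have h1 : |Real.cos (s u + T c u)| ≤ 5 / 8 := by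
          rw [Real.cos_add]
          refine (abs_sub _ _).trans ?_
          rw [abs_mul, abs_mul]
          have : |Real.sin (T c u)| ≤ 1 / 8 := (Real.abs_sin_le_abs (x := T c u)).trans (ht u)
          nlinarith [abs_nonneg (Real.cos (s u)), Real.abs_cos_le_one (T c u),
            Real.abs_sin_le_one (s u), abs_nonneg (Real.sin (T c u))]
        have h2 : 127 / 128 ≤ Real.cos (T c u) := by
          have := Real.one_sub_sq_div_two_le_cos (x := T c u)
          nlinarith
        have h3 : 65 / 100 ≤ Real.exp (-(1 / 8) * dpi (T (c0 + w) u) ^ 2) := by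
          refine le_trans ?_ (Real.add_one_le_exp _)
          have hd : dpi (T (c0 + w) u) ≤ 315 / 200 :=
            (dpi_le_half_pi _).trans (by linarith)
          have hd0 : 0 ≤ dpi (T (c0 + w) u) := dpi_nonneg _
          nlinarith
        calc |Real.cos (s u + T c u)| ≤ 5 / 8 := h1
          _ ≤ 65 / 100 * (127 / 128) := by norm_num
          _ ≤ _ := mul_le_mul h3 h2 (by norm_num) (Real.exp_pos _).le
      · have hz1 : z u = 1 := by simp [hz, hA]
        have hp1 : p u = s u + T w u := by simp [hp, hz1]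
        push Not at hA
        have hA' := abs_le.1 hA
        have hy : |s u + T c u| ≤ Real.pi / 2 := abs_le.2 ⟨by linarith, by linarith⟩
        simp only [hz1, hp1, one_mul]
        rw [abs_of_nonneg (Real.cos_nonneg_of_mem_Icc (abs_le.1 hy)), ← cell_gam_mul_q hy,
          add_comm (T c u) (s u)]
        have hd : dpi (T (c0 + w) u) ^ 2 ≤ (s u + T w u) ^ 2 := by
          rw [← sq_abs (s u + T w u)]
          refine pow_le_pow_left₀ (dpi_nonneg _) ?_ 2
          refine (dpi_le_abs_sub _ (k u)).trans_eq ?_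
          congr 1
          simp only [hs, map_add, Pi.add_apply]
          ring
        rw [← mul_assoc, mul_right_comm _ (cellQ _) (Real.exp _)]
        refine mul_le_mul_of_nonneg_right ?_ (cellQ_nonneg _)
        simp only [cellGam]
        rw [← Real.exp_add, ← Real.exp_add, Real.exp_le_exp]
        nlinarith
    refine (Finset.prod_le_prod (fun u _ => abs_nonneg _) fun u _ => hu u).trans ?_
    rw [Finset.prod_mul_distrib, Finset.prod_mul_distrib, ← Real.exp_sum, ← Real.exp_sum,
      ← Finset.mul_sum, ← hE]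
    have h1 : Real.exp (∑ u, -(p u * (T c u - T w u)) / 2) ≤ 1 := by
      rw [Real.exp_le_one_iff, ← Finset.sum_div, Finset.sum_neg_distrib]
      linarith [hopt c hc]
    simp only [hF, hone, mul_one]
    exact mul_le_of_le_one_right (mul_nonneg (Real.exp_pos _).le
      (Finset.prod_nonneg fun u _ => mul_nonneg (Real.exp_pos _).le (cellQ_nonneg _))) h1
  calc ∫ c in C, ∏ u, |Real.cos (T (c0 + c) u)| ≤ ∫ c in C, E * F 1 c := by
        refine setIntegral_mono_on ?_ ((hFi 1).const_mul E).integrableOn hCc.measurableSet hpt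
        exact (by fun_prop : Continuous fun c => ∏ u, |Real.cos (T (c0 + c) u)|).continuousOn
          |>.integrableOn_compact hCc
    _ ≤ ∫ c, E * F 1 c := setIntegral_le_integral ((hFi 1).const_mul E)
        (.of_forall fun c => mul_nonneg (Real.exp_pos _).le (hF0 1 c))
    _ = E * ∫ c, F 1 c := integral_const_mul _ _
    _ ≤ _ := mul_le_mul_of_nonneg_left (hG.trans hG0) (Real.exp_pos _).le

end Vale.Agent.P047
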