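import Vale.Agent.P047.WBasic
import Mathlib.MeasureTheory.Integral.Pi
import Mathlib.Analysis.SpecialFunctions.Integrals.Basic
import Mathlib.MeasureTheory.Measure.Lebesgue.Basic
import Mathlib.MeasureTheory.Integral.Bochner.Set

/-!
Balanced signings from a positive cube integral.

Proof notes.  2^|U| times the product of the cosines is the sum over the signings e of
cos (∑_v c v · k v), k = the signed column sums, which are even integers; the integral of
exp (i k c) over an interval of length π vanishes for a nonzero even k.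
-/

namespace Vale.Agent.P047

open MeasureTheory

theorem exists_balanced_of_integral_pos {V U : Type*} [Fintype V] [DecidableEq V] [Fintype U]
    (T : (V → ℝ) →ₗ[ℝ] (U → ℝ))
    (hint : ∀ v u, ∃ k : ℤ, T (Pi.single v 1) u = k)
    (heven : ∀ v, ∃ k : ℤ, ∑ u, T (Pi.single v 1) u = 2 * (k : ℝ))
    (hpos : 0 < ∫ c in Set.univ.pi (fun _ : V => Set.Ioc (-(Real.pi / 2)) (Real.pi / 2)),
      ∏ u, Real.cos (T c u)) :
    ∃ e : U → ℝ, (∀ u, e u = 1 ∨ e u = -1) ∧ ∀ c : V → ℝ, ∑ u, e u * T c u = 0 := by
  classical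
  by_contra hno
  push Not at hno
  set sg : Bool → ℝ := fun b => if b then 1 else -1 with hsg
  have hexp : ∀ c : V → ℝ, ((∏ u, Real.cos (T c u) : ℝ) : ℂ) = ∑ ε : U → Bool,
      (2⁻¹ : ℂ) ^ Fintype.card U *
        Complex.exp (((∑ u, sg (ε u) * T c u : ℝ) : ℂ) * Complex.I) := by
    intro c
    rw [Complex.ofReal_prod, ← Finset.mul_sum]
    have hf : ∀ u, ((Real.cos (T c u) : ℝ) : ℂ) =
        2⁻¹ * ∑ b : Bool, Complex.exp (((sg b * T c u : ℝ) : ℂ) * Complex.I) := by
      intro u
      rw [Complex.ofReal_cos, Fintype.sum_bool, Complex.cos]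
      simp only [hsg, if_true, Bool.false_eq_true, if_false, one_mul, neg_mul, Complex.ofReal_neg]
      ring
    rw [Finset.prod_congr rfl fun u _ => hf u, Finset.prod_mul_distrib, Finset.prod_const,
      Fintype.prod_sum, Finset.card_univ]
    congr 1
    refine Finset.sum_congr rfl fun ε _ => ?_
    rw [← Complex.exp_sum, Complex.ofReal_sum, Finset.sum_mul]
  have hcoord : ∀ (c : V → ℝ) u, T c u = ∑ v, c v * T (Pi.single v 1) u := by
    intro c u
    conv_lhs => rw [pi_eq_sum_univ' c]
    simp [map_sum, map_smul, Finset.sum_apply]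
  set Q : Set (V → ℝ) :=
    Set.univ.pi (fun _ : V => Set.Ioc (-(Real.pi / 2)) (Real.pi / 2)) with hQ
  have hint1 : ∀ f : (V → ℝ) → ℂ, Continuous f → IntegrableOn f Q := fun f hf =>
    (hf.continuousOn.integrableOn_compact (isCompact_univ_pi fun _ : V =>
      isCompact_Icc (a := -(Real.pi / 2)) (b := Real.pi / 2))).mono_set
      (Set.pi_mono fun _ _ => Set.Ioc_subset_Icc_self)
  have hzero : ∀ ε : U → Bool,
      ∫ c in Q, Complex.exp (((∑ u, sg (ε u) * T c u : ℝ) : ℂ) * Complex.I) = 0 := by
    intro ε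
    set k : V → ℝ := fun v => ∑ u, sg (ε u) * T (Pi.single v 1) u with hk
    have hlin : ∀ c : V → ℝ, ∑ u, sg (ε u) * T c u = ∑ v, k v * c v := by
      intro c
      simp only [hk, Finset.sum_mul]
      rw [Finset.sum_comm]
      refine Finset.sum_congr rfl fun u _ => ?_
      rw [hcoord c u, Finset.mul_sum]
      exact Finset.sum_congr rfl fun v _ => by ring
    obtain ⟨c, hc⟩ := hno (fun u => sg (ε u))
      (fun u => by cases ε u <;> simp [hsg])
    obtain ⟨v, hv⟩ : ∃ v, k v ≠ 0 := by
      by_contra hall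
      push Not at hall
      exact hc (by rw [hlin c]; simp [hall])
    obtain ⟨j, hj⟩ : ∃ j : ℤ, k v = 2 * (j : ℝ) := by
      choose a ha using hint v
      obtain ⟨b, hb⟩ := heven v
      refine ⟨b - ∑ u, (if ε u then 0 else a u), ?_⟩
      push_cast
      rw [mul_sub, ← hb, Finset.mul_sum, ← Finset.sum_sub_distrib]
      refine Finset.sum_congr rfl fun u _ => ?_
      rw [ha u]
      cases ε u <;> simp [hsg] <;> ring
    have hprod : ∀ c : V → ℝ, Complex.exp (((∑ u, sg (ε u) * T c u : ℝ) : ℂ) * Complex.I) =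
        ∏ i, Complex.exp ((k i : ℂ) * Complex.I * (c i : ℂ)) := by
      intro c
      rw [← Complex.exp_sum, hlin c, Complex.ofReal_sum, Finset.sum_mul]
      refine congrArg _ (Finset.sum_congr rfl fun i _ => ?_)
      push_cast
      ring
    simp only [hprod]
    rw [hQ, volume_pi, Measure.restrict_pi_pi,
      integral_fintype_prod_eq_prod (f := fun i (x : ℝ) => Complex.exp ((k i : ℂ) * Complex.I * (x : ℂ)))]
    refine Finset.prod_eq_zero (Finset.mem_univ v) ?_
    have hj0 : (j : ℂ) ≠ 0 := by
      intro h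
      have : j = 0 := by exact_mod_cast h
      exact hv (by simp [hj, this])
    rw [← intervalIntegral.integral_of_le (by linarith [Real.pi_pos]),
      integral_exp_mul_complex (by simp [hj, hj0])]
    have e : (k v : ℂ) * Complex.I * ((Real.pi / 2 : ℝ) : ℂ) =
        (k v : ℂ) * Complex.I * ((-(Real.pi / 2) : ℝ) : ℂ) +
          (j : ℂ) * (2 * (Real.pi : ℂ) * Complex.I) := by
      rw [hj]; push_cast; ring
    rw [e, Complex.exp_add, Complex.exp_int_mul_two_pi_mul_I, mul_one, sub_self, zero_div]
  have h0 : ((∫ c in Q, ∏ u, Real.cos (T c u) : ℝ) : ℂ) = 0 := by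
    rw [← integral_complex_ofReal]
    simp only [hexp]
    have hTc : Continuous T := T.continuous_of_finiteDimensional
    rw [integral_finsetSum _ fun ε _ => hint1 _ (by fun_prop)]
    refine Finset.sum_eq_zero fun ε _ => ?_
    rw [integral_const_mul, hzero ε, mul_zero]
  exact hpos.ne' (by exact_mod_cast h0)

end Vale.Agent.P047
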