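import Mathlib.Analysis.SpecialFunctions.Trigonometric.Basic
import Mathlib.Analysis.SpecialFunctions.Pow.Real
import Mathlib.Analysis.SpecialFunctions.Log.Basic
import Mathlib.Data.Fin.Tuple.Basic
import Mathlib.Data.Fintype.BigOperators
import Mathlib.Data.Fintype.Powerset
import Mathlib.InformationTheory.Hamming

/-!
Shared definitions for P047 (unboundedness of the linear Fourier mass over the square root of
the degree).  See Proof.md-style description in the module docs of each file.
-/

namespace Vale.Agent.P047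

open Finset

/-- Words of length n over the alphabet Fin K. -/
abbrev Pt (K n : ℕ) := Fin n → Fin K

/-- First-coordinate slice. -/
def slice {K n : ℕ} (w : Pt K (n + 1) → ℝ) (a : Fin K) : Pt K n → ℝ :=
  fun y => w (Fin.cons a y)

/-- The space W(n,m): the orthogonal complement of the functions that are combinations of
functions of at most n - m coordinates (all functions when n < m, zero when m = 0). -/
def InW (K : ℕ) : (n m : ℕ) → (Pt K n → ℝ) → Prop
  | _, 0, w => w = 0
  | 0, _ + 1, _ => True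
  | n + 1, m + 1, w =>
      (∀ a : Fin K, InW K n (m + 1) (slice w a)) ∧ InW K n m (fun y => ∑ a, slice w a y)

/-- Integer valued function. -/
def IsInt {α : Type*} (w : α → ℝ) : Prop := ∀ x, ∃ k : ℤ, w x = k

/-- Integer valued members of W(n,m). -/
def IntW (K n m : ℕ) (w : Pt K n → ℝ) : Prop := InW K n m w ∧ IsInt w

/-- Orthogonal to W(n,m). -/
def Null (K n m : ℕ) (h : Pt K n → ℝ) : Prop :=
  ∀ w, InW K n m w → ∑ x, h x * w x = 0

/-- F depends only on the coordinates in S. -/
def AgreeDep {K n : ℕ} (S : Finset (Fin n)) (F : Pt K n → ℝ) : Prop :=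
  ∀ x y : Pt K n, (∀ i ∈ S, x i = y i) → F x = F y

/-- A sum of functions each of which depends on at most n - m coordinates. -/
def IsLow (K n m : ℕ) (h : Pt K n → ℝ) : Prop :=
  ∃ F : Finset (Fin n) → Pt K n → ℝ,
    (∀ S, AgreeDep S (F S)) ∧ (∀ S, n < S.card + m → F S = 0) ∧ ∀ x, h x = ∑ S, F S x

/-- Distance to the lattice πℤ. -/
noncomputable def dpi (t : ℝ) : ℝ := |t - Real.pi * (round (t / Real.pi) : ℝ)|

/-- The periodic energy. -/
noncomputable def En {α : Type*} [Fintype α] (w : α → ℝ) : ℝ := ∑ x, dpi (w x) ^ 2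

/-- Within ε in sup norm of π times an integer valued member of W(n,m). -/
def Good (K n m : ℕ) (ε : ℝ) (w : Pt K n → ℝ) : Prop :=
  ∃ z, IntW K n m z ∧ ∀ x, |w x - Real.pi * z x| ≤ ε

/-- The information set of W(n,m): words with fewer than m letters equal to 0. -/
def Info (K n m : ℕ) [NeZero K] : Finset (Pt K n) :=
  univ.filter fun x => (univ.filter fun i => x i = 0).card < m

/-- The member of W(n,m) with prescribed values on the information set. -/
def wext (K : ℕ) [NeZero K] : (n m : ℕ) → (Pt K n → ℝ) → (Pt K n → ℝ)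
  | _, 0, _ => 0
  | 0, _ + 1, c => c
  | n + 1, m + 1, c => fun x =>
      if x 0 = 0 then
        wext K n m (fun y => ∑ a, slice c a y) (Fin.tail x)
          - ∑ a ∈ univ.filter (fun a : Fin K => a ≠ 0),
              wext K n (m + 1) (slice c a) (Fin.tail x)
      else wext K n (m + 1) (slice c (x 0)) (Fin.tail x)

/-- Threshold for the weight in the net lemma. -/
noncomputable def FNet (K n m : ℕ) (ε : ℝ) : ℝ :=
  400 * (K : ℝ) ^ 2 * n * (40 * n * K + Real.log (1 / ε)) / ε ^ 2 * (8 * (K : ℝ) * n) ^ m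
    * ((1 - 1 / (K : ℝ)) * (1 + 5 / (4 * (n : ℝ)))) ^ n

/-- Partition sum bound in the net lemma. -/
noncomputable def tauNet (K n : ℕ) : ℝ := ((4 * (K : ℝ) ^ 3) ^ (2 * n))⁻¹

/-- Ball-size bound: number of words within Hamming distance r of a given one. -/
def ballBd (K n r : ℕ) : ℕ := (n * K + 1) ^ r

/-- The signing property relative to a planted set family P: any parity-correct pairing which
contains the pairs (a,0) at the planted points has a balanced signing. -/
def HasSigning (K n m : ℕ) [NeZero K] (P : Fin K → Finset (Pt K n)) : Prop :=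
  ∀ (U : Type) [Fintype U] (px : U → Pt K n) (pa pb : U → Fin K),
    (∀ u, pa u ≠ pb u) →
    (∀ a z, IntW K n m z →
      ∃ k : ℤ, (∑ u, if pa u = a then z (px u) else 0)
        + (∑ u, if pb u = a then z (px u) else 0) = 2 * (k : ℝ)) →
    (∀ a, a ≠ 0 → ∀ x ∈ P a, ∃ u, px u = x ∧ pa u = a ∧ pb u = 0) →
    ∃ e : U → ℝ, (∀ u, e u = 1 ∨ e u = -1) ∧
      ∀ a, Null K n m (fun x => ∑ u, if px u = x then
        e u * ((if pa u = a then 1 else 0) - (if pb u = a then 1 else 0)) else 0)

/-- Product weight of a word. -/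
def wt {K n : ℕ} (mu : Fin K → ℝ) (x : Pt K n) : ℝ := ∏ i, mu (x i)

/-- The sum of the values of the letters. -/
def TT {K n : ℕ} (v : Fin K → ℝ) (x : Pt K n) : ℝ := ∑ i, v (x i)

/-- The moment hypotheses satisfied by the letters coming from a gadget on b bits. -/
structure Moments (K n : ℕ) (b : ℝ) (mu v : Fin K → ℝ) : Prop where
  b_pos : 1 ≤ b
  mu_nn : ∀ a, 0 ≤ mu a
  mu_sum : ∑ a, mu a = 1
  mean : ∑ a, mu a * v a = 0
  second : ∑ a, mu a * v a ^ 2 ≤ b
  eighth : ∑ a, mu a * v a ^ 8 ≤ 105 * b ^ 4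
  second_sum : ∑ x : Pt K n, wt mu x * TT v x ^ 2 ≤ n * b
  eighth_sum : ∑ x : Pt K n, wt mu x * TT v x ^ 8 ≤ 105 * ((n : ℝ) * b) ^ 4

/-- One composition level with relative loss θ. -/
def StepOK (K n m : ℕ) (θ : ℝ) : Prop :=
  ∀ (b : ℝ) (mu v : Fin K → ℝ), Moments K n b mu v →
    ∃ (f : Pt K n → Fin K) (z : Fin K → ℝ),
      (∀ a, Null K n m (fun x => if f x = a then 1 else 0)) ∧
      ∑ x, wt mu x * (TT v x - z (f x)) ^ 2 ≤ θ * n * b

end Vale.Agent.P047
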