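import Mathlib.Data.Real.Basic
import Mathlib.Data.Fintype.BigOperators
import Mathlib.Data.Fintype.Powerset
import Mathlib.Algebra.BigOperators.Field

/-!
Fourier coefficients on the discrete cube, for P047.
-/

namespace Vale.Agent.P047

open Finset

variable {ι : Type*} [Fintype ι] [DecidableEq ι]

/-- The bit as a sign: true is 1, false is -1. -/
def pm (b : Bool) : ℝ := if b then 1 else -1

/-- The Fourier coefficient of f at S, for uniform measure on the cube. -/
noncomputable def fourierCoeff (f : (ι → Bool) → ℝ) (S : Finset ι) : ℝ :=
  (∑ x, f x * ∏ i ∈ S, pm (x i)) / 2 ^ Fintype.card ι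

/-- The Fourier degree: the largest size of a set with nonzero coefficient (0 if there is none). -/
noncomputable def fourierDeg (f : (ι → Bool) → ℝ) : ℕ :=
  open Classical in (univ.filter fun S : Finset ι => fourierCoeff f S ≠ 0).sup Finset.card

end Vale.Agent.P047
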