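import Vale.Agent.P047.Defs
import Mathlib.LinearAlgebra.Pi

/-!
Basic facts about W(n,m), its information set and the low functions.

Everything is by induction on n, generalising m (use `Fin.consEquiv` to split sums).
-/

namespace Vale.Agent.P047

open Finset

variable {K n m : ℕ}

theorem sum_pt_succ (f : Pt K (n + 1) → ℝ) :
    ∑ x, f x = ∑ a : Fin K, ∑ y : Pt K n, f (Fin.cons a y) := by
  rw [← Fintype.sum_prod_type']
  exact (Equiv.sum_comp (Fin.consEquiv fun _ => Fin K) f).symm

theorem inW_m_zero {w : Pt K n → ℝ} : InW K n 0 w ↔ w = 0 := by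
  cases n <;> simp [InW]

theorem inW_n_zero {w : Pt K 0 → ℝ} : InW K 0 (m + 1) w := by simp [InW]

theorem inW_succ_succ {w : Pt K (n + 1) → ℝ} :
    InW K (n + 1) (m + 1) w ↔
      (∀ a : Fin K, InW K n (m + 1) (slice w a)) ∧ InW K n m (fun y => ∑ a, slice w a y) := by
  simp [InW]

theorem inW_zero : InW K n m (0 : Pt K n → ℝ) := by
  induction n generalizing m with
  | zero => cases m with
    | zero => exact inW_m_zero.2 rfl
    | succ m => exact inW_n_zero
  | succ n ih => cases m with
    | zero => exact inW_m_zero.2 rfl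
    | succ m =>
      refine inW_succ_succ.2 ⟨fun a => ?_, ?_⟩
      · exact ih
      · have : (fun y : Pt K n => ∑ a, slice (0 : Pt K (n + 1) → ℝ) a y) = 0 := by
          funext y; simp [slice]
        rw [this]; exact ih

theorem inW_add {w w' : Pt K n → ℝ} (h : InW K n m w) (h' : InW K n m w') :
    InW K n m (w + w') := by
  induction n generalizing m with
  | zero => cases m with
    | zero => rw [inW_m_zero] at *; simp [h, h']
    | succ m => exact inW_n_zero
  | succ n ih => cases m with
    | zero => rw [inW_m_zero] at *; simp [h, h']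
    | succ m =>
      rw [inW_succ_succ] at *
      refine ⟨fun a => ih (h.1 a) (h'.1 a), ?_⟩
      have : (fun y : Pt K n => ∑ a, slice (w + w') a y)
          = (fun y => ∑ a, slice w a y) + fun y => ∑ a, slice w' a y := by
        funext y; simp [slice, sum_add_distrib]
      rw [this]; exact ih h.2 h'.2

theorem inW_smul {w : Pt K n → ℝ} (c : ℝ) (h : InW K n m w) : InW K n m (c • w) := by
  induction n generalizing m with
  | zero => cases m with
    | zero => rw [inW_m_zero] at *; simp [h]
    | succ m => exact inW_n_zero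
  | succ n ih => cases m with
    | zero => rw [inW_m_zero] at *; simp [h]
    | succ m =>
      rw [inW_succ_succ] at *
      refine ⟨fun a => ih (h.1 a), ?_⟩
      have : (fun y : Pt K n => ∑ a, slice (c • w) a y) = c • fun y => ∑ a, slice w a y := by
        funext y; simp [slice, mul_sum]
      rw [this]; exact ih h.2

theorem inW_sub {w w' : Pt K n → ℝ} (h : InW K n m w) (h' : InW K n m w') :
    InW K n m (w - w') := by
  have := inW_add h (inW_smul (-1) h')
  rwa [neg_one_smul, ← sub_eq_add_neg] at this

theorem inW_sum {α : Type*} (s : Finset α) (w : α → Pt K n → ℝ)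
    (h : ∀ i ∈ s, InW K n m (w i)) : InW K n m (∑ i ∈ s, w i) := by
  classical
  induction s using Finset.induction_on with
  | empty => simpa using inW_zero
  | insert a s ha ih =>
    rw [sum_insert ha]
    exact inW_add (h a (mem_insert_self a s)) (ih fun i hi => h i (mem_insert_of_mem hi))

theorem inW_succ {w : Pt K n → ℝ} (h : InW K n m w) : InW K n (m + 1) w := by
  induction n generalizing m with
  | zero => exact inW_n_zero
  | succ n ih => cases m with
    | zero => rw [inW_m_zero.1 h]; exact inW_zero
    | succ m =>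
      rw [inW_succ_succ] at *
      exact ⟨fun a => ih (h.1 a), ih h.2⟩

/-- W(n,m) as a submodule. -/
def WSub (K n m : ℕ) : Submodule ℝ (Pt K n → ℝ) where
  carrier := {w | InW K n m w}
  add_mem' := fun h h' => inW_add h h'
  zero_mem' := inW_zero
  smul_mem' := fun c _ h => inW_smul c h

theorem intW_zero : IntW K n m (0 : Pt K n → ℝ) := ⟨inW_zero, fun _ => ⟨0, by simp⟩⟩

theorem intW_add {z z' : Pt K n → ℝ} (h : IntW K n m z) (h' : IntW K n m z') :
    IntW K n m (z + z') := by
  refine ⟨inW_add h.1 h'.1, fun x => ?_⟩
  obtain ⟨k, hk⟩ := h.2 x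
  obtain ⟨k', hk'⟩ := h'.2 x
  exact ⟨k + k', by simp [hk, hk']⟩

theorem intW_neg {z : Pt K n → ℝ} (h : IntW K n m z) : IntW K n m (-z) := by
  refine ⟨?_, fun x => ?_⟩
  · have := inW_smul (-1) h.1; rwa [neg_one_smul] at this
  · obtain ⟨k, hk⟩ := h.2 x
    exact ⟨-k, by simp [hk]⟩

theorem intW_sub {z z' : Pt K n → ℝ} (h : IntW K n m z) (h' : IntW K n m z') :
    IntW K n m (z - z') := by
  rw [sub_eq_add_neg]; exact intW_add h (intW_neg h')

theorem intW_succ {z : Pt K n → ℝ} (h : IntW K n m z) : IntW K n (m + 1) z :=
  ⟨inW_succ h.1, h.2⟩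

/-- The pairing of W(n,m) with a function of at most n - m coordinates vanishes. -/
theorem agreeDep_null (S : Finset (Fin n)) (F : Pt K n → ℝ) (hF : AgreeDep S F)
    (hS : S.card + m ≤ n) {w : Pt K n → ℝ} (hw : InW K n m w) : ∑ x, F x * w x = 0 := by
  induction n generalizing m with
  | zero => cases m with
    | zero => simp [inW_m_zero.1 hw]
    | succ m => omega
  | succ n ih => cases m with
    | zero => simp [inW_m_zero.1 hw]
    | succ m =>
      rw [inW_succ_succ] at hw
      set S' : Finset (Fin n) := univ.filter fun i => i.succ ∈ S with hS'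
      have hmap : S'.map (Fin.succEmb n) = S.erase 0 := by
        ext i
        cases i using Fin.cases with
        | zero => simp [Fin.succ_ne_zero]
        | succ j => simp [hS', Fin.succ_ne_zero]
      have hcard : S'.card = (S.erase 0).card := by rw [← hmap, card_map]
      rw [sum_pt_succ]
      by_cases h0 : (0 : Fin (n + 1)) ∈ S
      · refine sum_eq_zero fun a _ => ?_
        refine ih S' (fun y => F (Fin.cons a y)) (fun x y hxy => hF _ _ fun i hi => ?_) ?_ (hw.1 a)
        · cases i using Fin.cases with
          | zero => simp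
          | succ j => simp [hxy j (by simp [hS', hi])]
        · rw [hcard, card_erase_of_mem h0]
          have : 1 ≤ S.card := card_pos.2 ⟨0, h0⟩
          omega
      · rw [sum_comm]
        by_cases hK : IsEmpty (Fin K)
        · exact sum_eq_zero fun y _ => by simp
        obtain ⟨a0⟩ := not_isEmpty_iff.1 hK
        have hind : ∀ a y, F (Fin.cons a y) = F (Fin.cons a0 y) := fun a y =>
          hF _ _ fun i hi => by
            cases i using Fin.cases with
            | zero => exact absurd hi h0
            | succ j => simp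
        have := ih S' (fun y => F (Fin.cons a0 y)) (fun x y hxy => hF _ _ fun i hi => by
          cases i using Fin.cases with
          | zero => exact absurd hi h0
          | succ j => simp [hxy j (by simp [hS', hi])])
          (by rw [hcard, erase_eq_of_notMem h0]; omega) hw.2
        rw [← this]
        refine sum_congr rfl fun y _ => ?_
        rw [mul_sum]
        exact sum_congr rfl fun a _ => by rw [hind a y]; rfl

theorem isLow_null {h : Pt K n → ℝ} (hh : IsLow K n m h) : Null K n m h := by
  obtain ⟨F, hF, hzero, heq⟩ := hh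
  intro w hw
  simp only [heq, sum_mul]
  rw [sum_comm]
  refine sum_eq_zero fun S _ => ?_
  by_cases hS : n < S.card + m
  · simp [hzero S hS]
  · exact agreeDep_null S (F S) (hF S) (not_lt.1 hS) hw

theorem isLow_single (S : Finset (Fin n)) (F : Pt K n → ℝ) (hF : AgreeDep S F)
    (hS : S.card + m ≤ n) : IsLow K n m F := by
  classical
  refine ⟨fun S' => if S' = S then F else 0, fun S' => ?_, fun S' h' => ?_, fun x => ?_⟩
  · by_cases h : S' = S
    · subst h; simpa using hF
    · simp [h, AgreeDep]
  · have : S' ≠ S := by rintro rfl; omega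
    simp [this]
  · simp [ite_apply]

theorem isLow_const (hm : m ≤ n) (c : ℝ) : IsLow K n m (fun _ => c) :=
  isLow_single ∅ _ (fun _ _ _ => rfl) (by simpa using hm)

theorem isLow_add {h h' : Pt K n → ℝ} (hh : IsLow K n m h) (hh' : IsLow K n m h') :
    IsLow K n m (h + h') := by
  obtain ⟨F, hF, hz, he⟩ := hh
  obtain ⟨F', hF', hz', he'⟩ := hh'
  refine ⟨F + F', fun S x y hxy => ?_, fun S hS => ?_, fun x => ?_⟩
  · simp [hF S x y hxy, hF' S x y hxy]
  · simp [hz S hS, hz' S hS]
  · simp [he x, he' x, sum_add_distrib]

theorem isLow_smul {h : Pt K n → ℝ} (c : ℝ) (hh : IsLow K n m h) : IsLow K n m (c • h) := by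
  obtain ⟨F, hF, hz, he⟩ := hh
  refine ⟨c • F, fun S x y hxy => ?_, fun S hS => ?_, fun x => ?_⟩
  · simp [hF S x y hxy]
  · simp [hz S hS]
  · simp [he x, mul_sum]

theorem isLow_sum {α : Type*} (s : Finset α) (h : α → Pt K n → ℝ)
    (hh : ∀ i ∈ s, IsLow K n m (h i)) : IsLow K n m (∑ i ∈ s, h i) := by
  classical
  induction s using Finset.induction_on with
  | empty =>
    exact ⟨0, fun S x y _ => rfl, fun S _ => rfl, fun x => by simp⟩
  | insert a s ha ih =>
    rw [sum_insert ha]
    exact isLow_add (hh a (mem_insert_self a s)) (ih fun i hi => hh i (mem_insert_of_mem hi))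

theorem inW_prod (psi : Fin n → Fin K → ℝ)
    (hcnt : n < m + (univ.filter fun i => ∑ a, psi i a = 0).card) :
    InW K n m (fun x => ∏ i, psi i (x i)) := by
  induction n generalizing m with
  | zero => cases m with
    | zero => simp at hcnt
    | succ m => exact inW_n_zero
  | succ n ih => cases m with
    | zero =>
      exfalso
      have := card_filter_le (univ : Finset (Fin (n + 1))) (fun i => ∑ a, psi i a = 0)
      simp at this
      omega
    | succ m =>
      set rest : Pt K n → ℝ := fun y => ∏ i, psi i.succ (y i) with hrest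
      have hsl : ∀ a, slice (fun x => ∏ i, psi i (x i)) a = psi 0 a • rest := by
        intro a; funext y; simp [slice, Fin.prod_univ_succ, hrest]
      set c' := (univ.filter fun i : Fin n => ∑ a, psi i.succ a = 0).card with hc'
      have hsplit : (univ.filter fun i : Fin (n + 1) => ∑ a, psi i a = 0).card
          = (if ∑ a, psi 0 a = 0 then 1 else 0) + c' := by
        rw [hc', Fin.card_filter_univ_succ']
      rw [hsplit] at hcnt
      refine inW_succ_succ.2 ⟨fun a => ?_, ?_⟩
      · rw [hsl]
        refine inW_smul _ (ih (fun i => psi i.succ) ?_)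
        rw [← hc']
        split_ifs at hcnt <;> omega
      · have heq : (fun y => ∑ a, slice (fun x => ∏ i, psi i (x i)) a y)
            = (∑ a, psi 0 a) • rest := by
          funext y; simp [hsl, sum_mul]
        rw [heq]
        by_cases h0 : ∑ a, psi 0 a = 0
        · rw [h0, zero_smul]; exact inW_zero
        · refine inW_smul _ (ih (fun i => psi i.succ) ?_)
          rw [← hc']
          rw [if_neg h0] at hcnt
          omega

variable [NeZero K]

theorem wext_m_zero (c : Pt K n → ℝ) : wext K n 0 c = 0 := by
  cases n <;> simp [wext]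

theorem wext_n_zero (c : Pt K 0 → ℝ) : wext K 0 (m + 1) c = c := by simp [wext]

theorem wext_cons (c : Pt K (n + 1) → ℝ) (a : Fin K) (y : Pt K n) :
    wext K (n + 1) (m + 1) c (Fin.cons a y) =
      if a = 0 then
        wext K n m (fun y => ∑ b, slice c b y) y
          - ∑ b ∈ univ.filter (fun b : Fin K => b ≠ 0), wext K n (m + 1) (slice c b) y
      else wext K n (m + 1) (slice c a) y := by
  simp [wext]

theorem wext_slice_sum (c : Pt K (n + 1) → ℝ) :
    (fun y => ∑ a, slice (wext K (n + 1) (m + 1) c) a y) =
      wext K n m (fun y => ∑ b, slice c b y) := by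
  funext y
  rw [← add_sum_erase univ _ (mem_univ (0 : Fin K))]
  have he : (univ : Finset (Fin K)).erase 0 = univ.filter fun b => b ≠ 0 := by
    ext; simp
  rw [he, sum_congr rfl (g := fun b => wext K n (m + 1) (slice c b) y)]
  · simp only [slice, wext_cons, if_pos]
    ring
  · intro b hb
    simp only [mem_filter] at hb
    simp only [slice, wext_cons, if_neg hb.2]

theorem wext_inW (c : Pt K n → ℝ) : InW K n m (wext K n m c) := by
  induction n generalizing m with
  | zero => cases m with
    | zero => rw [wext_m_zero]; exact inW_zero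
    | succ m => exact inW_n_zero
  | succ n ih => cases m with
    | zero => rw [wext_m_zero]; exact inW_zero
    | succ m =>
      refine inW_succ_succ.2 ⟨fun a => ?_, ?_⟩
      · by_cases ha : a = 0
        · have : slice (wext K (n + 1) (m + 1) c) a = wext K n m (fun y => ∑ b, slice c b y)
              - ∑ b ∈ univ.filter (fun b : Fin K => b ≠ 0), wext K n (m + 1) (slice c b) := by
            funext y; simp [slice, wext_cons, ha]
          rw [this]
          exact inW_sub (inW_succ (ih _)) (inW_sum _ _ fun b _ => ih _)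
        · have : slice (wext K (n + 1) (m + 1) c) a = wext K n (m + 1) (slice c a) := by
            funext y; simp [slice, wext_cons, ha]
          rw [this]; exact ih _
      · rw [wext_slice_sum]; exact ih _

theorem info_cons (a : Fin K) (y : Pt K n) :
    (univ.filter fun i => (Fin.cons a y : Pt K (n + 1)) i = 0).card
      = (if a = 0 then 1 else 0) + (univ.filter fun i => y i = 0).card := by
  rw [Fin.card_filter_univ_succ']
  simp

theorem mem_info {x : Pt K n} :
    x ∈ Info K n m ↔ (univ.filter fun i => x i = 0).card < m := by simp [Info]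

theorem info_cons_of_sum {y : Pt K n} (hy : y ∈ Info K n m) (a : Fin K) :
    Fin.cons a y ∈ Info K (n + 1) (m + 1) := by
  rw [mem_info, info_cons] at *
  split_ifs <;> omega

theorem info_cons_of_slice {y : Pt K n} (hy : y ∈ Info K n (m + 1)) {a : Fin K} (ha : a ≠ 0) :
    Fin.cons a y ∈ Info K (n + 1) (m + 1) := by
  rw [mem_info, info_cons, if_neg ha] at *
  omega

theorem wext_eq_on_info (c : Pt K n → ℝ) {x : Pt K n} (hx : x ∈ Info K n m) :
    wext K n m c x = c x := by
  induction n generalizing m with
  | zero => cases m with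
    | zero => simp [mem_info] at hx
    | succ m => rw [wext_n_zero]
  | succ n ih => cases m with
    | zero => simp [mem_info] at hx
    | succ m =>
      obtain ⟨a, y, rfl⟩ : ∃ a y, x = Fin.cons a y := ⟨x 0, Fin.tail x, (Fin.cons_self_tail x).symm⟩
      rw [mem_info, info_cons] at hx
      rw [wext_cons]
      by_cases ha : a = 0
      · rw [if_pos ha] at hx ⊢
        have hy : y ∈ Info K n m := mem_info.2 (by omega)
        have hy' : y ∈ Info K n (m + 1) := mem_info.2 (by omega)
        rw [ih _ hy, sum_congr rfl fun b _ => ih (slice c b) hy']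
        have he : (univ : Finset (Fin K)).erase 0 = univ.filter fun b => b ≠ 0 := by
          ext; simp
        rw [← add_sum_erase univ _ (mem_univ (0 : Fin K)), he, ha]
        simp [slice]
      · rw [if_neg ha] at hx ⊢
        exact ih _ (mem_info.2 (by omega))

theorem wext_congr {c c' : Pt K n → ℝ} (h : ∀ x ∈ Info K n m, c x = c' x) :
    wext K n m c = wext K n m c' := by
  induction n generalizing m with
  | zero => cases m with
    | zero => simp [wext_m_zero]
    | succ m =>
      simp only [wext_n_zero]
      funext x; exact h x (by simp [mem_info])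
  | succ n ih => cases m with
    | zero => simp [wext_m_zero]
    | succ m =>
      funext x
      rw [← Fin.cons_self_tail x, wext_cons, wext_cons]
      have h1 : wext K n m (fun y => ∑ b, slice c b y) = wext K n m (fun y => ∑ b, slice c' b y) :=
        ih fun y hy => sum_congr rfl fun b _ => h _ (info_cons_of_sum hy b)
      have h2 : ∀ b : Fin K, b ≠ 0 →
          wext K n (m + 1) (slice c b) = wext K n (m + 1) (slice c' b) := fun b hb =>
        ih fun y hy => h _ (info_cons_of_slice hy hb)
      split_ifs with ha
      · rw [h1, sum_congr rfl fun b hb => by rw [h2 b (mem_filter.1 hb).2]]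
      · rw [h2 _ ha]

theorem wext_of_inW {w : Pt K n → ℝ} (h : InW K n m w) : wext K n m w = w := by
  induction n generalizing m with
  | zero => cases m with
    | zero => rw [wext_m_zero, inW_m_zero.1 h]
    | succ m => rw [wext_n_zero]
  | succ n ih => cases m with
    | zero => rw [wext_m_zero, inW_m_zero.1 h]
    | succ m =>
      rw [inW_succ_succ] at h
      funext x
      rw [← Fin.cons_self_tail x, wext_cons, ih h.2]
      simp only [ih (h.1 _)]
      have he : (univ : Finset (Fin K)).erase 0 = univ.filter fun b => b ≠ 0 := by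
        ext; simp
      split_ifs with ha
      · rw [← he, sum_erase_eq_sub (mem_univ _), ha]; simp [slice]
      · simp [slice]

theorem wext_add (c c' : Pt K n → ℝ) :
    wext K n m (c + c') = wext K n m c + wext K n m c' := by
  rw [← wext_of_inW (inW_add (wext_inW c) (wext_inW c'))]
  exact wext_congr fun x hx => by simp [wext_eq_on_info _ hx]

theorem wext_smul (r : ℝ) (c : Pt K n → ℝ) : wext K n m (r • c) = r • wext K n m c := by
  rw [← wext_of_inW (inW_smul r (wext_inW c))]
  exact wext_congr fun x hx => by simp [wext_eq_on_info _ hx]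

theorem wext_isInt {c : Pt K n → ℝ} (h : IsInt c) : IsInt (wext K n m c) := by
  induction n generalizing m with
  | zero => cases m with
    | zero => rw [wext_m_zero]; exact fun _ => ⟨0, by simp⟩
    | succ m => rw [wext_n_zero]; exact h
  | succ n ih => cases m with
    | zero => rw [wext_m_zero]; exact fun _ => ⟨0, by simp⟩
    | succ m =>
      intro x
      rw [← Fin.cons_self_tail x, wext_cons]
      have hs : ∀ b, IsInt (slice c b) := fun b y => h _
      have hsum : IsInt (fun y => ∑ b, slice c b y) := fun y => by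
        choose k hk using fun b => hs b y
        exact ⟨∑ b, k b, by simp [hk]⟩
      split_ifs
      · obtain ⟨k, hk⟩ := ih (m := m) hsum (Fin.tail x)
        choose k' hk' using fun b => ih (m := m + 1) (hs b) (Fin.tail x)
        exact ⟨k - ∑ b ∈ univ.filter (fun b : Fin K => b ≠ 0), k' b, by simp [hk, hk']⟩
      · exact ih (hs _) _

theorem inW_eq_zero_of_info {w : Pt K n → ℝ} (h : InW K n m w)
    (h0 : ∀ x ∈ Info K n m, w x = 0) : w = 0 := by
  rw [← wext_of_inW h, wext_congr (c' := 0) (by simpa using h0)]
  exact wext_of_inW inW_zero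

theorem dpi_nonneg (t : ℝ) : 0 ≤ dpi t := abs_nonneg _

theorem dpi_eq_mul (t : ℝ) :
    dpi t = Real.pi * |t / Real.pi - (round (t / Real.pi) : ℝ)| := by
  have h : t - Real.pi * (round (t / Real.pi) : ℝ)
      = Real.pi * (t / Real.pi - (round (t / Real.pi) : ℝ)) := by
    field_simp
  rw [dpi, h, abs_mul, abs_of_pos Real.pi_pos]

theorem dpi_le_abs_sub (t : ℝ) (k : ℤ) : dpi t ≤ |t - Real.pi * k| := by
  have h : t - Real.pi * (k : ℝ) = Real.pi * (t / Real.pi - (k : ℝ)) := by field_simp
  rw [dpi_eq_mul, h, abs_mul, abs_of_pos Real.pi_pos]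
  exact mul_le_mul_of_nonneg_left (round_le _ _) Real.pi_pos.le

theorem dpi_le_abs (t : ℝ) : dpi t ≤ |t| := by simpa using dpi_le_abs_sub t 0

theorem dpi_le_half_pi (t : ℝ) : dpi t ≤ Real.pi / 2 := by
  rw [dpi_eq_mul]
  calc Real.pi * |t / Real.pi - (round (t / Real.pi) : ℝ)| ≤ Real.pi * (1 / 2) :=
        mul_le_mul_of_nonneg_left (abs_sub_round _) Real.pi_pos.le
    _ = _ := by ring

theorem dpi_exists (t : ℝ) : ∃ k : ℤ, dpi t = |t - Real.pi * k| := ⟨_, rfl⟩

theorem dpi_add_int (t : ℝ) (k : ℤ) : dpi (t + Real.pi * k) = dpi t := by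
  apply le_antisymm
  · obtain ⟨j, hj⟩ := dpi_exists t
    rw [hj]
    refine le_trans (dpi_le_abs_sub _ (j + k)) (le_of_eq ?_)
    push_cast; ring_nf
  · obtain ⟨j, hj⟩ := dpi_exists (t + Real.pi * k)
    rw [hj]
    refine le_trans (dpi_le_abs_sub _ (j - k)) (le_of_eq ?_)
    push_cast; ring_nf

theorem dpi_neg (t : ℝ) : dpi (-t) = dpi t := by
  have key : ∀ s, dpi (-s) ≤ dpi s := fun s => by
    obtain ⟨j, hj⟩ := dpi_exists s
    rw [hj, ← abs_neg (s - _)]
    refine le_trans (dpi_le_abs_sub _ (-j)) (le_of_eq ?_)
    push_cast; ring_nf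
  exact le_antisymm (key t) (by simpa using key (-t))

theorem dpi_add_le (s t : ℝ) : dpi (s + t) ≤ dpi s + dpi t := by
  obtain ⟨j, hj⟩ := dpi_exists s
  obtain ⟨k, hk⟩ := dpi_exists t
  rw [hj, hk]
  refine le_trans (dpi_le_abs_sub _ (j + k)) (le_trans (le_of_eq ?_) (abs_add_le _ _))
  push_cast; ring_nf

theorem dpi_of_abs_le {t : ℝ} (h : |t| ≤ Real.pi / 2) : dpi t = |t| := by
  refine le_antisymm (dpi_le_abs t) ?_
  obtain ⟨k, hk⟩ := dpi_exists t
  rw [hk]
  by_cases hk0 : k = 0
  · simp [hk0]
  · have h1 : (1 : ℝ) ≤ |(k : ℝ)| := by exact_mod_cast Int.one_le_abs hk0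
    have h2 : Real.pi * |(k : ℝ)| = |Real.pi * (k : ℝ)| := by
      rw [abs_mul, abs_of_pos Real.pi_pos]
    have h3 := abs_sub_abs_le_abs_sub (Real.pi * (k : ℝ)) t
    have h4 : Real.pi ≤ Real.pi * |(k : ℝ)| := le_mul_of_one_le_right Real.pi_pos.le h1
    rw [abs_sub_comm]
    linarith

end Vale.Agent.P047
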