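import Vale.Agent.P047.GadgetAux1
import Vale.Agent.P047.WBasic

/-!
Composition of gadgets: law, conditional mean and Fourier degree.
-/

namespace Vale.Agent.P047

open Finset

/-- The indicator of a fibre. -/
def gadInd {ι α : Type*} [DecidableEq α] (q : (ι → Bool) → α) (a : α) (x : ι → Bool) : ℝ :=
  if q x = a then 1 else 0

theorem gad_deg_le_iff {ι : Type*} [Fintype ι] [DecidableEq ι] (f : (ι → Bool) → ℝ) (d : ℕ) :
    fourierDeg f ≤ d ↔ ∀ S, fourierCoeff f S ≠ 0 → S.card ≤ d := by
  classical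
  simp [fourierDeg, Finset.sup_le_iff]

theorem gad_coeff_comp {ι α : Type*} [Fintype ι] [DecidableEq ι] [Fintype α] [DecidableEq α]
    (q : (ι → Bool) → α) (g : α → ℝ) (S : Finset ι) :
    fourierCoeff (fun x => g (q x)) S = ∑ a, g a * fourierCoeff (gadInd q a) S := by
  simp only [fourierCoeff, mul_div_assoc', ← sum_div, mul_sum]
  rw [sum_comm]
  congr 1
  refine sum_congr rfl fun x _ => ?_
  simp only [gadInd, ← mul_assoc, mul_ite, mul_one, mul_zero, ← sum_mul, sum_ite_eq,
    mem_univ, if_true]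

theorem gad_coeff_one {ι : Type*} [Fintype ι] [DecidableEq ι] {S : Finset ι} (hS : S.Nonempty) :
    fourierCoeff (fun _ : ι → Bool => (1 : ℝ)) S = 0 := by
  obtain ⟨a, ha⟩ := hS
  let e : (ι → Bool) ≃ (ι → Bool) :=
    ⟨gadFlip a, gadFlip a, gadFlip_flip a, gadFlip_flip a⟩
  have h : ∑ x : ι → Bool, ∏ i ∈ S, pm (x i) = -∑ x : ι → Bool, ∏ i ∈ S, pm (x i) := by
    conv_lhs => rw [← e.sum_comp fun x => ∏ i ∈ S, pm (x i)]
    rw [← sum_neg_distrib]
    refine sum_congr rfl fun x _ => ?_
    rw [← mul_prod_erase S _ ha, ← mul_prod_erase S (fun i => pm (x i)) ha, ← neg_mul]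
    congr 1
    · simp [e, gadFlip, gad_pm_not]
    · refine prod_congr rfl fun i hi => ?_
      simp [e, gadFlip, (mem_erase.1 hi).1]
  simp only [fourierCoeff, one_mul]
  rw [show ∑ x : ι → Bool, ∏ i ∈ S, pm (x i) = 0 by linarith, zero_div]

theorem gad_coeff_ind_sum {ι α : Type*} [Fintype ι] [DecidableEq ι] [Fintype α] [DecidableEq α]
    (q : (ι → Bool) → α) {S : Finset ι} (hS : S.Nonempty) :
    ∑ a, fourierCoeff (gadInd q a) S = 0 := by
  rw [← gad_coeff_one hS]
  simpa using (gad_coeff_comp q (fun _ => (1 : ℝ)) S).symm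

variable {K n : ℕ}

theorem gad_wt_cons (mu : Fin K → ℝ) (a : Fin K) (y : Pt K n) :
    wt mu (Fin.cons a y) = mu a * wt mu y := by
  simp [wt, Fin.prod_univ_succ]

theorem gad_TT_cons (v : Fin K → ℝ) (a : Fin K) (y : Pt K n) :
    TT v (Fin.cons a y) = v a + TT v y := by
  simp [TT, Fin.sum_univ_succ]

theorem gad_wt_moments (mu v : Fin K → ℝ) (h1 : ∑ a, mu a = 1) (h0 : ∑ a, mu a * v a = 0) :
    ∀ n : ℕ, ∑ x : Pt K n, wt mu x = 1 ∧ ∑ x : Pt K n, wt mu x * TT v x = 0 ∧
      ∑ x : Pt K n, wt mu x * TT v x ^ 2 = n * ∑ a, mu a * v a ^ 2 := by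
  intro n
  induction n with
  | zero => simp [wt, TT]
  | succ n ih =>
    obtain ⟨i1, i2, i3⟩ := ih
    simp only [sum_pt_succ, gad_wt_cons, gad_TT_cons]
    refine ⟨?_, ?_, ?_⟩
    · simp only [← mul_sum, i1, mul_one, h1]
    · have e : ∀ a : Fin K, ∀ y : Pt K n, mu a * wt mu y * (v a + TT v y) =
          (mu a * v a) * wt mu y + mu a * (wt mu y * TT v y) := fun a y => by ring
      simp only [e, sum_add_distrib, ← mul_sum, i1, i2, mul_zero, mul_one, h0, sum_const_zero,
        add_zero]
    · have e : ∀ a : Fin K, ∀ y : Pt K n, mu a * wt mu y * (v a + TT v y) ^ 2 =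
          (mu a * v a ^ 2) * wt mu y + 2 * (mu a * v a) * (wt mu y * TT v y) +
            mu a * (wt mu y * TT v y ^ 2) := fun a y => by ring
      simp only [e, sum_add_distrib, ← mul_sum, i1, i2, i3, mul_zero, mul_one, sum_const_zero,
        add_zero]
      rw [← sum_mul, h1]
      push_cast
      ring

variable {ι : Type*} [Fintype ι] [DecidableEq ι]

/-- The product of n copies of a map. -/
def gadTuple (n : ℕ) (q : (ι → Bool) → Fin K) : (Fin n × ι → Bool) → Pt K n :=
  fun x j => q fun i => x (j, i)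

theorem gad_sum_prod (φ : Fin n → (ι → Bool) → ℝ) :
    ∑ x : Fin n × ι → Bool, ∏ j, φ j (fun i => x (j, i)) = ∏ j, ∑ y, φ j y := by

  rw [Finset.prod_univ_sum]
  refine Finset.sum_bij' (fun x _ => fun j i => x (j, i)) (fun y _ => fun p => y p.1 p.2)
    (fun x _ => by simp) (fun y _ => by simp) (fun x _ => rfl) (fun y _ => rfl) fun x _ => rfl

theorem gad_tuple_ind (q : (ι → Bool) → Fin K) (c : Pt K n) (x : Fin n × ι → Bool) :
    (if gadTuple n q x = c then (1 : ℝ) else 0) =
      ∏ j, if q (fun i => x (j, i)) = c j then (1 : ℝ) else 0 := by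
  rw [Finset.prod_boole]
  simp only [mem_univ, forall_const]
  exact if_congr funext_iff rfl rfl

theorem gad_card_prod : Fintype.card (Fin n × ι) = n * Fintype.card ι := by simp

theorem gad_tuple_mu (q : (ι → Bool) → Fin K) (c : Pt K n) :
    gadMu (gadTuple n q) c = wt (gadMu q) c := by
  simp only [gadMu, gadAvg, gad_tuple_ind, wt]
  rw [gad_sum_prod fun j y => if q y = c j then (1 : ℝ) else 0, Finset.prod_div_distrib,
    prod_const, ← pow_mul, gad_card_prod, mul_comm n, card_univ, Fintype.card_fin]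

theorem gad_tuple_muV (q : (ι → Bool) → Fin K) (c : Pt K n) :
    gadMu (gadTuple n q) c * gadV (gadTuple n q) c = wt (gadMu q) c * TT (gadV q) c := by
  classical
  rw [gadMu_mul_V, TT, mul_sum]
  have e : (fun x => if gadTuple n q x = c then gadZ x else 0) =
      fun x => ∑ k : Fin n, ∏ j, ((if q (fun i => x (j, i)) = c j then (1 : ℝ) else 0) *
        if j = k then gadZ (fun i => x (j, i)) else 1) := by
    funext x
    simp only [prod_mul_distrib, ← gad_tuple_ind, ← mul_sum, prod_ite_eq', mem_univ, if_true]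
    split_ifs
    · simp [gadZ, Fintype.sum_prod_type]
    · simp
  rw [e, gadAvg_sum]
  refine sum_congr rfl fun k _ => ?_
  rw [gadAvg, gad_sum_prod fun j y => (if q y = c j then (1 : ℝ) else 0) *
    if j = k then gadZ y else 1]
  have e2 : ((2 : ℝ) ^ Fintype.card (Fin n × ι)) = ∏ _j : Fin n, (2 : ℝ) ^ Fintype.card ι := by
    rw [prod_const, ← pow_mul, gad_card_prod, mul_comm n, card_univ, Fintype.card_fin]
  rw [e2, ← Finset.prod_div_distrib, wt, ← mul_prod_erase univ _ (mem_univ k),
    ← mul_prod_erase univ (fun j => gadMu q (c j)) (mem_univ k), mul_right_comm]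
  congr 1
  · rw [gadMu_mul_V, gadAvg]
    simp
  · refine prod_congr rfl fun j hj => ?_
    simp [gadMu, gadAvg, (mem_erase.1 hj).1]

theorem gad_tuple_comp_coeff (q : (ι → Bool) → Fin K) (g : Pt K n → ℝ)
    (S : Finset (Fin n × ι)) :
    fourierCoeff (fun x => g (gadTuple n q x)) S = ∑ c, g c *
      ∏ j, fourierCoeff (gadInd q (c j)) (univ.filter fun i => (j, i) ∈ S) := by
  classical
  rw [gad_coeff_comp]
  refine sum_congr rfl fun c _ => ?_
  congr 1
  simp only [fourierCoeff, gadInd, gad_tuple_ind]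
  have e : ∀ x : Fin n × ι → Bool,
      (∏ j, if q (fun i => x (j, i)) = c j then (1 : ℝ) else 0) * ∏ p ∈ S, pm (x p) =
        ∏ j, ((if q (fun i => x (j, i)) = c j then (1 : ℝ) else 0) *
          ∏ i ∈ univ.filter (fun i => (j, i) ∈ S), pm (x (j, i))) := by
    intro x
    rw [prod_mul_distrib]
    congr 1
    simp only [prod_filter]
    rw [← Fintype.prod_prod_type (f := fun p : Fin n × ι => if p ∈ S then pm (x p) else 1),
      prod_ite_mem, univ_inter]
  simp only [e]
  rw [gad_sum_prod fun j y => (if q y = c j then (1 : ℝ) else 0) *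
      ∏ i ∈ univ.filter (fun i => (j, i) ∈ S), pm (y i), Finset.prod_div_distrib,
    prod_const, ← pow_mul, gad_card_prod, mul_comm n, card_univ, Fintype.card_fin]

theorem gad_tuple_comp_deg {m d : ℕ} (q : (ι → Bool) → Fin K)
    (hq : ∀ a, fourierDeg (gadInd q a) ≤ d) (g : Pt K n → ℝ) (hg : Null K n m g) :
    fourierDeg (fun x => g (gadTuple n q x)) ≤ (n - m) * d := by
  classical
  rw [gad_deg_le_iff]
  intro S hS
  by_contra hlt
  rw [not_le] at hlt
  refine hS ?_
  set T : Fin n → Finset ι := fun j => univ.filter fun i => (j, i) ∈ S with hT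
  have hcard : S.card = ∑ j, (T j).card := by
    simp only [hT, card_filter]
    rw [← Fintype.sum_prod_type (f := fun p : Fin n × ι => if p ∈ S then 1 else 0)]
    simp
  rw [gad_tuple_comp_coeff]
  change ∑ c, g c * ∏ j, fourierCoeff (gadInd q (c j)) (T j) = 0
  by_cases hbig : ∃ j, d < (T j).card
  · obtain ⟨j, hj⟩ := hbig
    refine sum_eq_zero fun c _ => ?_
    rw [prod_eq_zero (mem_univ j), mul_zero]
    by_contra hne
    exact absurd ((gad_deg_le_iff _ _).1 (hq (c j)) _ hne) (not_le.2 hj)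
  · push Not at hbig
    refine hg _ (inW_prod (fun j a => fourierCoeff (gadInd q a) (T j)) ?_)
    set A : Finset (Fin n) := univ.filter fun j => (T j).Nonempty with hA
    have hle : S.card ≤ A.card * d := by
      have e : ∑ j, (T j).card = ∑ j ∈ A, (T j).card := by
        refine (sum_subset (subset_univ A) fun j _ hj => ?_).symm
        simpa [hA, Finset.not_nonempty_iff_eq_empty] using hj
      rw [hcard, e]
      refine (sum_le_card_nsmul A _ d fun j _ => hbig j).trans ?_
      simp
    have hAlt : n < m + A.card := by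
      by_contra hcon
      rw [not_lt] at hcon
      have : A.card * d ≤ (n - m) * d := Nat.mul_le_mul_right d (by omega)
      omega
    refine lt_of_lt_of_le hAlt (Nat.add_le_add_left (card_le_card fun j hj => ?_) m)
    simp only [hA, mem_filter, mem_univ, true_and] at hj ⊢
    exact gad_coeff_ind_sum q hj

end Vale.Agent.P047
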