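import Vale.Agent.P047.WBasic
import Vale.Agent.P047.FourierDefs
import Vale.Agent.P047.GadgetAux2

/-!
Gadgets, composition and the iteration.

Proof notes.  A gadget: q : (ι → Bool) → Fin K with all indicators of degree ≤ d; μ, v = law and
conditional mean of Z = ∑ signs; loss = |ι| - ∑ μ v².  Composition with f whose indicators are
null: the coefficient at S is ∑_x 1[f x = a] ∏_i ψ_i(x_i), ψ_i = coefficient of the indicators at
the i-th piece of S, zero-sum when the piece is nonempty, so inW_prod kills |S| > (n-m) d.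
loss' ≤ n loss + ∑ wt (T - z∘f)².  Moments by Jensen from E Z^8 ≤ 105 b^4 (induction on b).
Start: one bit.  End: sign v∘q; (E|v|)² ≥ (E v²)³/E v⁴ ≥ b/24.
-/

namespace Vale.Agent.P047

open Finset

theorem gad_coeff_equiv {ι κ : Type*} [Fintype ι] [DecidableEq ι] [Fintype κ] [DecidableEq κ]
    (e : ι ≃ κ) (f : (ι → Bool) → ℝ) (S : Finset κ) :
    fourierCoeff (fun x : κ → Bool => f (x ∘ e)) S =
      fourierCoeff f (S.map e.symm.toEmbedding) := by
  simp only [fourierCoeff, Finset.prod_map, Fintype.card_congr e]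
  congr 1
  refine Fintype.sum_equiv (e.symm.arrowCongr (Equiv.refl Bool)) _ _ fun x => ?_
  simp [Equiv.arrowCongr, Function.comp_def]

/-- The iteration of the composition. -/
theorem exists_gadget (K n m : ℕ) (θ : ℝ) (hK : 2 ≤ K) (hn : 1 ≤ n)
    (hstep : StepOK K n m θ) :
    ∀ k : ℕ, ∃ (ι : Type) (_ : Fintype ι) (_ : DecidableEq ι) (q : (ι → Bool) → Fin K),
      Fintype.card ι = n ^ k ∧ (∀ a, fourierDeg (gadInd q a) ≤ (n - m) ^ k) ∧
      (Fintype.card ι : ℝ) - ∑ a, gadMu q a * gadV q a ^ 2 ≤ k * θ * (n : ℝ) ^ k := by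
  intro k
  induction k with
  | zero =>
    set q : (Fin 1 → Bool) → Fin K :=
      fun x => if x 0 then ⟨1, by omega⟩ else ⟨0, by omega⟩ with hq
    refine ⟨Fin 1, inferInstance, inferInstance, q, by simp, fun a => ?_, ?_⟩
    · rw [gad_deg_le_iff]
      intro S _
      simpa using card_le_univ S
    · set h : Fin K → ℝ := fun a => if a.val = 1 then 1 else -1 with hh
      have hz : ∀ x : Fin 1 → Bool, gadZ x - h (q x) = 0 := fun x => by
        cases hx : x 0 <;> simp [gadZ, pm, hq, hh, hx]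
      have e := gad_sq_err q h
      have e0 : gadAvg (fun x : Fin 1 → Bool => (gadZ x - h (q x)) ^ 2) = 0 := by
        simp [hz, gadAvg]
      rw [e0] at e
      have hnn : 0 ≤ ∑ a, gadMu q a * (gadV q a - h a) ^ 2 :=
        sum_nonneg fun a _ => mul_nonneg (gadMu_nonneg q a) (sq_nonneg _)
      simp only [Nat.cast_zero, zero_mul]
      linarith
  | succ k ih =>
    obtain ⟨ι, _, _, q, hcard, hdeg, hloss⟩ := ih
    set mu := gadMu q with hmu
    set v := gadV q with hv
    set b : ℝ := (Fintype.card ι : ℝ) with hb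
    set Q := gadTuple n q with hQ
    have hw := gad_wt_moments mu v (gadMu_sum q) (gad_mean q) n
    have hb1 : 1 ≤ b := by
      rw [hb, hcard]
      exact_mod_cast Nat.one_le_pow k n hn
    have hTV : ∀ c, gadMu Q c ≠ 0 → gadV Q c = TT v c := fun c hc => by
      have := gad_tuple_muV q c
      rw [← gad_tuple_mu] at this
      exact mul_left_cancel₀ hc this
    have hpow : ∀ (p : ℕ) (c : Pt K n), gadMu Q c * gadV Q c ^ p = wt mu c * TT v c ^ p := by
      intro p c
      rw [← gad_tuple_mu q c]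
      by_cases hc : gadMu Q c = 0
      · rw [show gadMu (gadTuple n q) c = 0 from hc]
        simp
      · rw [hTV c hc]
    have hcardQ : (Fintype.card (Fin n × ι) : ℝ) = (n : ℝ) * b := by
      rw [gad_card_prod, hb]; push_cast; ring
    have hmom : Moments K n b mu v :=
      { b_pos := hb1
        mu_nn := gadMu_nonneg q
        mu_sum := gadMu_sum q
        mean := gad_mean q
        second := gad_second q
        eighth := gad_eighth q
        second_sum := by
          rw [hw.2.2]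
          exact mul_le_mul_of_nonneg_left (gad_second q) (Nat.cast_nonneg n)
        eighth_sum := by
          have h8 := gad_eighth Q
          rw [hcardQ, sum_congr rfl fun c _ => hpow 8 c] at h8
          exact h8 }
    obtain ⟨f, z, hnull, hcost⟩ := hstep b mu v hmom
    refine ⟨Fin n × ι, inferInstance, inferInstance, fun x => f (Q x), ?_, fun a => ?_, ?_⟩
    · rw [gad_card_prod, hcard, pow_succ']
    · rw [pow_succ']
      exact (gad_tuple_comp_deg q hdeg _ (hnull a)).trans (le_of_eq rfl)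
    · have e1 := gad_sq_err (fun x => f (Q x)) z
      have e2 := gad_sq_err Q fun c => z (f c)
      rw [e1, sum_congr rfl fun c _ => hpow 2 c, hw.2.2] at e2
      have e3 : ∑ c, gadMu Q c * (gadV Q c - z (f c)) ^ 2 =
          ∑ c, wt mu c * (TT v c - z (f c)) ^ 2 := by
        refine sum_congr rfl fun c _ => ?_
        rw [← gad_tuple_mu q c]
        by_cases hc : gadMu Q c = 0
        · rw [show gadMu (gadTuple n q) c = 0 from hc]
          simp
        · rw [hTV c hc]
      have hnn : 0 ≤ ∑ a, gadMu (fun x => f (Q x)) a * (gadV (fun x => f (Q x)) a - z a) ^ 2 :=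
        sum_nonneg fun a _ => mul_nonneg (gadMu_nonneg _ a) (sq_nonneg _)
      rw [e3, hcardQ] at e2
      rw [hcardQ]
      have hbk : b = (n : ℝ) ^ k := by rw [hb, hcard]; push_cast; ring
      have h1 : (n : ℝ) * (b - ∑ a, mu a * v a ^ 2) ≤ (n : ℝ) * (k * θ * (n : ℝ) ^ k) :=
        mul_le_mul_of_nonneg_left hloss (Nat.cast_nonneg n)
      have h2 : θ * n * b = θ * (n : ℝ) ^ (k + 1) := by rw [hbk]; ring
      push_cast
      rw [pow_succ'] at *
      nlinarith

theorem exists_function_of_step (K n m L : ℕ) (θ : ℝ) (hK : 2 ≤ K) (hn : 1 ≤ n) (hm : m ≤ n)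
    (hθ : 0 ≤ θ) (hstep : StepOK K n m θ) (hL : (L : ℝ) * θ ≤ 1 / 2) :
    ∃ (N : ℕ) (f : (Fin N → Bool) → ℝ), (∀ x, f x = 1 ∨ f x = -1) ∧
      fourierDeg f ≤ (n - m) ^ L ∧ 0 ≤ ∑ i, fourierCoeff f {i} ∧
      ((n : ℝ) ^ L) / 24 ≤ (∑ i, fourierCoeff f {i}) ^ 2 := by
  obtain ⟨ι, _, _, q, hcard, hdeg, hloss⟩ := exists_gadget K n m θ hK hn hstep L
  set e := Fintype.equivFin ι
  set h : Fin K → ℝ := fun a => if 0 ≤ gadV q a then 1 else -1 with hh
  set g : (ι → Bool) → ℝ := fun x => h (q x) with hg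
  refine ⟨Fintype.card ι, fun x => g (x ∘ e), fun x => ?_, ?_, ?_⟩
  · simp only [hg, hh]
    split_ifs <;> simp
  · rw [gad_deg_le_iff]
    intro S hS
    rw [gad_coeff_equiv e g] at hS
    rw [← S.card_map e.symm.toEmbedding]
    by_contra hlt
    rw [not_le] at hlt
    refine hS ?_
    rw [hg, gad_coeff_comp]
    refine sum_eq_zero fun a _ => ?_
    by_contra hne
    exact absurd ((gad_deg_le_iff _ _).1 (hdeg a) _ (right_ne_zero_of_mul hne)) (not_le.2 hlt)
  set A := ∑ a, gadMu q a * |gadV q a| with hA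
  have hsum : ∑ i, fourierCoeff (fun x : Fin (Fintype.card ι) → Bool => g (x ∘ e)) {i} = A := by
    rw [← e.sum_comp]
    simp only [gad_coeff_equiv, map_singleton, Equiv.coe_toEmbedding, Equiv.symm_apply_apply]
    have e1 : ∑ i, fourierCoeff g {i} = gadAvg fun x => gadZ x * h (q x) := by
      simp only [fourierCoeff, prod_singleton, gadAvg, gadZ, ← sum_div, hg, sum_mul]
      rw [sum_comm]
      congr 1
      exact sum_congr rfl fun x _ => sum_congr rfl fun i _ => mul_comm _ _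
    rw [e1, gadAvg_Z_mul_comp, hA]
    refine sum_congr rfl fun a _ => ?_
    simp only [hh]
    split_ifs with ha
    · rw [abs_of_nonneg ha, mul_one]
    · rw [abs_of_neg (not_le.1 ha)]; ring
  rw [hsum]
  have hA0 : 0 ≤ A := sum_nonneg fun a _ => mul_nonneg (gadMu_nonneg q a) (abs_nonneg _)
  refine ⟨hA0, ?_⟩
  set s2 := ∑ a, gadMu q a * gadV q a ^ 2 with hs2
  set s3 := ∑ a, gadMu q a * |gadV q a| ^ 3 with hs3
  set s4 := ∑ a, gadMu q a * gadV q a ^ 4 with hs4
  have hc1 : s2 ^ 2 ≤ A * s3 := by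
    rw [hA, hs2, hs3]
    refine sum_sq_le_sum_mul_sum_of_sq_eq_mul _ (fun a _ => mul_nonneg (gadMu_nonneg q a)
      (abs_nonneg _)) (fun a _ => mul_nonneg (gadMu_nonneg q a) (pow_nonneg (abs_nonneg _) 3))
      fun a _ => ?_
    rw [← sq_abs (gadV q a)]; ring
  have hc2 : s3 ^ 2 ≤ s2 * s4 := by
    rw [hs2, hs3, hs4]
    refine sum_sq_le_sum_mul_sum_of_sq_eq_mul _ (fun a _ => mul_nonneg (gadMu_nonneg q a)
      (sq_nonneg _)) (fun a _ => mul_nonneg (gadMu_nonneg q a) (by positivity)) fun a _ => ?_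
    have h6 : (|gadV q a| ^ 3) ^ 2 = gadV q a ^ 6 := by
      rw [show (|gadV q a| ^ 3) ^ 2 = (|gadV q a| ^ 2) ^ 3 by ring, sq_abs]; ring
    rw [mul_pow, h6]; ring
  have hb : (Fintype.card ι : ℝ) = (n : ℝ) ^ L := by rw [hcard]; push_cast; ring
  have hbpos : 0 < (n : ℝ) ^ L := pow_pos (by exact_mod_cast hn) L
  have h4 : s4 ≤ 3 * ((n : ℝ) ^ L) ^ 2 := by rw [← hb]; exact gad_fourth q
  have hlow : (n : ℝ) ^ L / 2 ≤ s2 := by
    have h' := mul_le_mul_of_nonneg_right hL hbpos.le
    rw [hb] at hloss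
    nlinarith
  have hs2pos : 0 < s2 := lt_of_lt_of_le (by positivity) hlow
  have hchain : s2 ^ 4 ≤ A ^ 2 * (s2 * s4) := by
    calc s2 ^ 4 = (s2 ^ 2) ^ 2 := by ring
      _ ≤ (A * s3) ^ 2 := pow_le_pow_left₀ (sq_nonneg _) hc1 2
      _ = A ^ 2 * s3 ^ 2 := by ring
      _ ≤ A ^ 2 * (s2 * s4) := mul_le_mul_of_nonneg_left hc2 (sq_nonneg A)
  have h5 : s2 ^ 3 ≤ A ^ 2 * s4 := le_of_mul_le_mul_left (by linarith) hs2pos
  have h6 : ((n : ℝ) ^ L / 2) ^ 3 ≤ A ^ 2 * (3 * ((n : ℝ) ^ L) ^ 2) :=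
    (pow_le_pow_left₀ (by positivity) hlow 3).trans
      (h5.trans (mul_le_mul_of_nonneg_left h4 (sq_nonneg A)))
  refine le_of_mul_le_mul_left ?_ (show 0 < 3 * ((n : ℝ) ^ L) ^ 2 by positivity)
  nlinarith [h6]

end Vale.Agent.P047
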