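import Vale.Agent.P047.FourierDefs
import Mathlib.Tactic.Ring
import Mathlib.Tactic.Linarith
import Mathlib.Tactic.FieldSimp
import Mathlib.Data.Fintype.Pi
import Mathlib.Algebra.Order.BigOperators.Ring.Finset
import Mathlib.Tactic.Positivity

/-!
The cube: moments of the sum of the signs, and conditional means given a map.
-/

namespace Vale.Agent.P047

open Finset

variable {ι : Type*} [Fintype ι] [DecidableEq ι]

/-- Average over the cube. -/
noncomputable def gadAvg (g : (ι → Bool) → ℝ) : ℝ := (∑ x, g x) / 2 ^ Fintype.card ι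

/-- The sum of all signs. -/
def gadZ (x : ι → Bool) : ℝ := ∑ i, pm (x i)

/-- The law of a map on the cube. -/
noncomputable def gadMu {α : Type*} [DecidableEq α] (q : (ι → Bool) → α) (a : α) : ℝ :=
  gadAvg fun x => if q x = a then 1 else 0

/-- The conditional mean of the sum of signs given a map. -/
noncomputable def gadV {α : Type*} [DecidableEq α] (q : (ι → Bool) → α) (a : α) : ℝ :=
  gadAvg (fun x => if q x = a then gadZ x else 0) / gadMu q a

theorem gad_card_cube : ((univ : Finset (ι → Bool)).card : ℝ) = 2 ^ Fintype.card ι := by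
  rw [card_univ, Fintype.card_fun, Fintype.card_bool]
  push_cast
  rfl

theorem gadAvg_const (c : ℝ) : gadAvg (fun _ : ι → Bool => c) = c := by
  rw [gadAvg, sum_const, nsmul_eq_mul, gad_card_cube]
  field_simp

theorem gadAvg_add (g g' : (ι → Bool) → ℝ) :
    gadAvg (fun x => g x + g' x) = gadAvg g + gadAvg g' := by
  simp only [gadAvg, sum_add_distrib, add_div]

theorem gadAvg_sub (g g' : (ι → Bool) → ℝ) :
    gadAvg (fun x => g x - g' x) = gadAvg g - gadAvg g' := by
  simp only [gadAvg, sum_sub_distrib, sub_div]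

theorem gadAvg_mul_left (c : ℝ) (g : (ι → Bool) → ℝ) :
    gadAvg (fun x => c * g x) = c * gadAvg g := by
  simp only [gadAvg, ← mul_sum, mul_div_assoc]

theorem gadAvg_sum {α : Type*} (s : Finset α) (g : α → (ι → Bool) → ℝ) :
    gadAvg (fun x => ∑ a ∈ s, g a x) = ∑ a ∈ s, gadAvg (g a) := by
  simp only [gadAvg, ← sum_div]
  rw [sum_comm]

theorem gadAvg_mono {g g' : (ι → Bool) → ℝ} (h : ∀ x, g x ≤ g' x) : gadAvg g ≤ gadAvg g' :=
  div_le_div_of_nonneg_right (sum_le_sum fun x _ => h x) (by positivity)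

theorem gadAvg_nonneg {g : (ι → Bool) → ℝ} (h : ∀ x, 0 ≤ g x) : 0 ≤ gadAvg g :=
  div_nonneg (sum_nonneg fun x _ => h x) (by positivity)

theorem gadMu_nonneg {α : Type*} [DecidableEq α] (q : (ι → Bool) → α) (a : α) : 0 ≤ gadMu q a :=
  gadAvg_nonneg fun x => by split_ifs <;> norm_num

/-- Flipping one bit. -/
def gadFlip (a : ι) (x : ι → Bool) : ι → Bool := Function.update x a (!x a)

theorem gadFlip_flip (a : ι) (x : ι → Bool) : gadFlip a (gadFlip a x) = x := by
  funext i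
  by_cases h : i = a
  · subst h; simp [gadFlip]
  · simp [gadFlip, h]

theorem gad_pm_not (b : Bool) : pm (!b) = -pm b := by cases b <;> simp [pm]

theorem gadAvg_insert (a : ι) (s : Finset ι) (ha : a ∉ s) (k : ℕ) :
    gadAvg (fun x => (∑ i ∈ insert a s, pm (x i)) ^ k) =
      gadAvg (fun x => (((∑ i ∈ s, pm (x i)) + 1) ^ k + ((∑ i ∈ s, pm (x i)) - 1) ^ k) / 2) := by
  let e : (ι → Bool) ≃ (ι → Bool) :=
    ⟨gadFlip a, gadFlip a, gadFlip_flip a, gadFlip_flip a⟩
  have h1 : gadAvg (fun x => (∑ i ∈ insert a s, pm (x i)) ^ k) =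
      gadAvg (fun x => ((∑ i ∈ s, pm (x i)) - pm (x a)) ^ k) := by
    simp only [gadAvg]
    congr 1
    rw [← e.sum_comp fun x => (∑ i ∈ insert a s, pm (x i)) ^ k]
    refine sum_congr rfl fun x _ => ?_
    rw [sum_insert ha]
    have e1 : pm (e x a) = -pm (x a) := by
      simp [e, gadFlip, gad_pm_not]
    have e2 : ∑ i ∈ s, pm (e x i) = ∑ i ∈ s, pm (x i) := sum_congr rfl fun i hi => by
      have : i ≠ a := fun h => ha (h ▸ hi)
      simp [e, gadFlip, this]
    rw [e1, e2]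
    ring
  have h2 : gadAvg (fun x => (∑ i ∈ insert a s, pm (x i)) ^ k) =
      gadAvg (fun x => ((∑ i ∈ s, pm (x i)) + pm (x a)) ^ k) := by
    congr 1
    funext x
    rw [sum_insert ha, add_comm]
  have h3 : gadAvg (fun x => (((∑ i ∈ s, pm (x i)) + 1) ^ k +
      ((∑ i ∈ s, pm (x i)) - 1) ^ k) / 2) =
      gadAvg (fun x => (((∑ i ∈ s, pm (x i)) + pm (x a)) ^ k +
        ((∑ i ∈ s, pm (x i)) - pm (x a)) ^ k) / 2) := by
    congr 1
    funext x
    cases x a <;> simp only [pm, if_true, if_false, Bool.false_eq_true] <;> ring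
  have h4 : ∀ P M : (ι → Bool) → ℝ,
      gadAvg (fun x => (P x + M x) / 2) = (gadAvg P + gadAvg M) / 2 := fun P M => by
    have : (fun x => (P x + M x) / 2) = fun x => (1 / 2) * (P x + M x) := by funext x; ring
    rw [this, gadAvg_mul_left, gadAvg_add]
    ring
  rw [h3, h4, ← h1, ← h2]
  ring

/-- The first moments of a sum of independent signs. -/
theorem gad_moments (s : Finset ι) :
    gadAvg (fun x => (∑ i ∈ s, pm (x i)) ^ 1) = 0 ∧
    gadAvg (fun x => (∑ i ∈ s, pm (x i)) ^ 2) = s.card ∧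
    gadAvg (fun x => (∑ i ∈ s, pm (x i)) ^ 4) ≤ 3 * (s.card : ℝ) ^ 2 ∧
    gadAvg (fun x => (∑ i ∈ s, pm (x i)) ^ 6) ≤ 15 * (s.card : ℝ) ^ 3 ∧
    gadAvg (fun x => (∑ i ∈ s, pm (x i)) ^ 8) ≤ 105 * (s.card : ℝ) ^ 4 := by
  induction s using Finset.induction_on with
  | empty => simp [gadAvg]
  | insert a s ha ih =>
    obtain ⟨h1, h2, h4, h6, h8⟩ := ih
    rw [card_insert_of_notMem ha]
    push_cast
    set Z := fun x : ι → Bool => ∑ i ∈ s, pm (x i) with hZ
    have e1 : (fun x => ((Z x + 1) ^ 1 + (Z x - 1) ^ 1) / 2) = fun x => Z x ^ 1 := by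
      funext x; ring
    have e2 : (fun x => ((Z x + 1) ^ 2 + (Z x - 1) ^ 2) / 2) = fun x => Z x ^ 2 + 1 := by
      funext x; ring
    have e4 : (fun x => ((Z x + 1) ^ 4 + (Z x - 1) ^ 4) / 2) =
        fun x => Z x ^ 4 + 6 * Z x ^ 2 + 1 := by funext x; ring
    have e6 : (fun x => ((Z x + 1) ^ 6 + (Z x - 1) ^ 6) / 2) =
        fun x => Z x ^ 6 + 15 * Z x ^ 4 + 15 * Z x ^ 2 + 1 := by funext x; ring
    have e8 : (fun x => ((Z x + 1) ^ 8 + (Z x - 1) ^ 8) / 2) =
        fun x => Z x ^ 8 + 28 * Z x ^ 6 + 70 * Z x ^ 4 + 28 * Z x ^ 2 + 1 := by funext x; ring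
    have hk : (0 : ℝ) ≤ s.card := Nat.cast_nonneg _
    refine ⟨?_, ?_, ?_, ?_, ?_⟩
    · rw [gadAvg_insert a s ha, e1]; exact h1
    · rw [gadAvg_insert a s ha, e2, gadAvg_add, gadAvg_const, h2]
    · rw [gadAvg_insert a s ha, e4]
      simp only [gadAvg_add, gadAvg_const, gadAvg_mul_left, h2]
      nlinarith
    · rw [gadAvg_insert a s ha, e6]
      simp only [gadAvg_add, gadAvg_const, gadAvg_mul_left, h2]
      nlinarith
    · rw [gadAvg_insert a s ha, e8]
      simp only [gadAvg_add, gadAvg_const, gadAvg_mul_left, h2]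
      nlinarith

theorem gadAvg_Z : gadAvg (gadZ : (ι → Bool) → ℝ) = 0 := by
  have h := (gad_moments (univ : Finset ι)).1
  simp only [pow_one] at h
  exact h

theorem gadAvg_Z_sq : gadAvg (fun x : ι → Bool => gadZ x ^ 2) = Fintype.card ι :=
  (gad_moments (univ : Finset ι)).2.1

theorem gadAvg_Z_four :
    gadAvg (fun x : ι → Bool => gadZ x ^ 4) ≤ 3 * (Fintype.card ι : ℝ) ^ 2 :=
  (gad_moments (univ : Finset ι)).2.2.1

theorem gadAvg_Z_eight :
    gadAvg (fun x : ι → Bool => gadZ x ^ 8) ≤ 105 * (Fintype.card ι : ℝ) ^ 4 :=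
  (gad_moments (univ : Finset ι)).2.2.2.2

section Law

variable {α : Type*} [Fintype α] [DecidableEq α] (q : (ι → Bool) → α)

theorem gadMu_mul_V (a : α) :
    gadMu q a * gadV q a = gadAvg (fun x => if q x = a then gadZ x else 0) := by
  by_cases h : gadMu q a = 0
  · have hz : ∀ x, q x ≠ a := by
      intro x hx
      have h1 : (1 : ℝ) ≤ ∑ y, if q y = a then (1 : ℝ) else 0 :=
        le_trans (by simp [hx]) (single_le_sum (f := fun y => if q y = a then (1 : ℝ) else 0)
          (fun y _ => by split_ifs <;> norm_num) (mem_univ x))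
      rw [gadMu, gadAvg, div_eq_zero_iff] at h
      rcases h with h | h
      · linarith
      · exact absurd h (by positivity)
    rw [h, zero_mul]
    simp [gadAvg, hz]
  · rw [gadV, mul_div_cancel₀ _ h]

theorem gadAvg_comp (h : α → ℝ) : gadAvg (fun x => h (q x)) = ∑ a, gadMu q a * h a := by
  have e : (fun x => h (q x)) = fun x => ∑ a, h a * (if q x = a then (1 : ℝ) else 0) := by
    funext x; simp
  rw [e, gadAvg_sum]
  exact sum_congr rfl fun a _ => by rw [gadAvg_mul_left, gadMu, mul_comm]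

theorem gadAvg_Z_mul_comp (h : α → ℝ) :
    gadAvg (fun x => gadZ x * h (q x)) = ∑ a, gadMu q a * gadV q a * h a := by
  have e : (fun x => gadZ x * h (q x)) =
      fun x => ∑ a, h a * (if q x = a then gadZ x else 0) := by
    funext x; simp [mul_comm]
  rw [e, gadAvg_sum]
  exact sum_congr rfl fun a _ => by rw [gadAvg_mul_left, gadMu_mul_V, mul_comm]

theorem gadMu_sum : ∑ a, gadMu q a = 1 := by
  simpa [gadAvg_const] using (gadAvg_comp q fun _ => (1 : ℝ)).symm

theorem gad_mean : ∑ a, gadMu q a * gadV q a = 0 := by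
  simpa [gadAvg_Z] using (gadAvg_Z_mul_comp q fun _ => (1 : ℝ)).symm

theorem gad_sq_err (h : α → ℝ) :
    gadAvg (fun x => (gadZ x - h (q x)) ^ 2) =
      (Fintype.card ι - ∑ a, gadMu q a * gadV q a ^ 2) +
        ∑ a, gadMu q a * (gadV q a - h a) ^ 2 := by
  have e : (fun x => (gadZ x - h (q x)) ^ 2) =
      fun x => (gadZ x ^ 2 - 2 * (gadZ x * h (q x))) + (fun a => h a ^ 2) (q x) := by
    funext x; ring
  rw [e, gadAvg_add, gadAvg_sub, gadAvg_mul_left, gadAvg_comp q (fun a => h a ^ 2),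
    gadAvg_Z_mul_comp, gadAvg_Z_sq]
  have e2 : ∀ a, gadMu q a * (gadV q a - h a) ^ 2 = gadMu q a * gadV q a ^ 2 -
      2 * (gadMu q a * gadV q a * h a) + gadMu q a * h a ^ 2 := fun a => by ring
  simp only [e2, sum_add_distrib, sum_sub_distrib, ← mul_sum]
  ring

/-- Conditional Jensen, in the form: a tangent line lies below the power. -/
theorem gad_jensen (k : ℕ) (htan : ∀ z v : ℝ, v ^ k + k * v ^ (k - 1) * (z - v) ≤ z ^ k) :
    ∑ a, gadMu q a * gadV q a ^ k ≤ gadAvg fun x : ι → Bool => gadZ x ^ k := by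
  have h := gadAvg_mono (ι := ι) fun x : ι → Bool => htan (gadZ x) (gadV q (q x))
  have e : (fun x => gadV q (q x) ^ k + k * gadV q (q x) ^ (k - 1) * (gadZ x - gadV q (q x))) =
      fun x => ((fun a => gadV q a ^ k - k * gadV q a ^ (k - 1) * gadV q a) (q x)) +
        k * (gadZ x * (fun a => gadV q a ^ (k - 1)) (q x)) := by
    funext x; ring
  rw [e, gadAvg_add, gadAvg_mul_left, gadAvg_comp q (fun a => gadV q a ^ k -
    k * gadV q a ^ (k - 1) * gadV q a),
    gadAvg_Z_mul_comp q (fun a => gadV q a ^ (k - 1)), mul_sum, ← sum_add_distrib] at h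
  refine le_trans (le_of_eq (sum_congr rfl fun a _ => ?_)) h
  ring

theorem gad_second : ∑ a, gadMu q a * gadV q a ^ 2 ≤ Fintype.card ι := by
  refine (gad_jensen q 2 fun z v => ?_).trans_eq gadAvg_Z_sq
  norm_num
  nlinarith [sq_nonneg (z - v)]

theorem gad_fourth : ∑ a, gadMu q a * gadV q a ^ 4 ≤ 3 * (Fintype.card ι : ℝ) ^ 2 := by
  refine (gad_jensen q 4 fun z v => ?_).trans gadAvg_Z_four
  norm_num
  nlinarith [mul_nonneg (sq_nonneg (z - v)) (sq_nonneg (z + v)),
    mul_nonneg (sq_nonneg (z - v)) (sq_nonneg v)]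

theorem gad_eighth : ∑ a, gadMu q a * gadV q a ^ 8 ≤ 105 * (Fintype.card ι : ℝ) ^ 4 := by
  refine (gad_jensen q 8 fun z v => ?_).trans gadAvg_Z_eight
  norm_num
  have h1 : 4 * v ^ 3 * (z - v) ≤ z ^ 4 - v ^ 4 := by
    nlinarith [mul_nonneg (sq_nonneg (z - v)) (sq_nonneg (z + v)),
      mul_nonneg (sq_nonneg (z - v)) (sq_nonneg v)]
  have h2 : 0 ≤ v ^ 4 := by positivity
  nlinarith [mul_le_mul_of_nonneg_left h1 h2, sq_nonneg (z ^ 4 - v ^ 4)]

end Law

end Vale.Agent.P047
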