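import Vale.Agent.P047.WBasic
import Mathlib.Algebra.BigOperators.Ring.Finset
import Mathlib.Algebra.Order.BigOperators.Group.Finset
import Mathlib.Data.Fintype.Pi
import Mathlib.Data.Fintype.Powerset
import Mathlib.Data.Nat.Choose.Sum

/-!
Spread null vectors around a point and the integer distribution of a correction over them.
-/

namespace Vale.Agent.P047.JunkAux

open Finset

/-- Tuples of five-element sets, one for each group. -/
abbrev Tuple (m g : ℕ) : Type := Fin m → {S : Finset (Fin g) // S.card = 5}

variable {K n m g : ℕ} (e : Fin m × Fin g ≃ Fin n)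

theorem card_tuple : Fintype.card (Tuple m g) = g.choose 5 ^ m := by
  rw [Fintype.card_fun, Fintype.card_finset_len, Fintype.card_fin, Fintype.card_fin]

/-- The coordinates of the group `j` at which two words differ. -/
def diffSet (x y : Pt K n) (j : Fin m) : Finset (Fin g) :=
  univ.filter fun i => y (e (j, i)) ≠ x (e (j, i))

/-- The spread vector at `x` for the tuple `R`, as an integer valued function. -/
def spread (x : Pt K n) (R : Tuple m g) (y : Pt K n) : ℤ :=
  if ∀ j, diffSet e x y j = ∅ ∨ diffSet e x y j = (R j).1 then 1 else 0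

theorem diffSet_self (x : Pt K n) (j : Fin m) : diffSet e x x j = ∅ := by
  simp [diffSet]

theorem spread_self (x : Pt K n) (R : Tuple m g) : spread e x R x = 1 := by
  simp [spread, diffSet_self]

/-- Agreement at a coordinate, as a real number. -/
def agree (x y : Pt K n) (q : Fin n) : ℝ := if y q = x q then 1 else 0

theorem diffSet_eq_iff (x y : Pt K n) (j : Fin m) (S : Finset (Fin g)) :
    (if diffSet e x y j = S then (1 : ℝ) else 0) =
      (∏ i ∈ S, (1 - agree x y (e (j, i)))) * ∏ i ∈ univ \ S, agree x y (e (j, i)) := by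
  by_cases h : diffSet e x y j = S
  · rw [if_pos h, prod_eq_one, prod_eq_one, one_mul]
    · intro i hi
      rw [mem_sdiff, ← h] at hi
      have : y (e (j, i)) = x (e (j, i)) := by simpa [diffSet] using hi.2
      simp [agree, this]
    · intro i hi
      rw [← h] at hi
      have : y (e (j, i)) ≠ x (e (j, i)) := by simpa [diffSet] using hi
      simp [agree, this]
  · rw [if_neg h]
    obtain ⟨i, hi⟩ : ∃ i, ¬(i ∈ diffSet e x y j ↔ i ∈ S) := by
      by_contra hc
      exact h (Finset.ext fun i => not_not.1 fun hh => hc ⟨i, hh⟩)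
    by_cases hS : i ∈ S
    · have : y (e (j, i)) = x (e (j, i)) := by simpa [diffSet, hS] using hi
      rw [prod_eq_zero hS (by simp [agree, this]), zero_mul]
    · have : y (e (j, i)) ≠ x (e (j, i)) := by simpa [diffSet, hS] using hi
      rw [prod_eq_zero (s := univ \ S) (i := i) (by simp [hS]) (by simp [agree, this]), mul_zero]

/-- The factor of a group has no term of full degree, as five is odd. -/
theorem factor_expand (x y : Pt K n) (j : Fin m) (S : {S : Finset (Fin g) // S.card = 5}) :
    (if diffSet e x y j = ∅ ∨ diffSet e x y j = S.1 then (1 : ℝ) else 0) =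
      ∑ T ∈ S.1.powerset.erase S.1, (-1 : ℝ) ^ T.card *
        ∏ i ∈ T ∪ (univ \ S.1), agree x y (e (j, i)) := by
  have hne : S.1 ≠ ∅ := fun h0 => by simpa [h0] using S.2
  have hsplit : (if diffSet e x y j = ∅ ∨ diffSet e x y j = S.1 then (1 : ℝ) else 0) =
      (if diffSet e x y j = ∅ then 1 else 0) + (if diffSet e x y j = S.1 then 1 else 0) := by
    by_cases h1 : diffSet e x y j = ∅
    · rw [if_pos (Or.inl h1), if_pos h1, if_neg (fun h2 => hne (h2.symm.trans h1)), add_zero]
    · by_cases h2 : diffSet e x y j = S.1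
      · rw [if_pos (Or.inr h2), if_neg h1, if_pos h2, zero_add]
      · rw [if_neg (by tauto), if_neg h1, if_neg h2, zero_add]
  have hterm : ∀ T ∈ S.1.powerset,
      (∏ i ∈ T, -agree x y (e (j, i))) * (∏ i ∈ S.1 \ T, (1 : ℝ)) *
          ∏ i ∈ univ \ S.1, agree x y (e (j, i)) =
        (-1 : ℝ) ^ T.card * ∏ i ∈ T ∪ (univ \ S.1), agree x y (e (j, i)) := by
    intro T hT
    rw [mem_powerset] at hT
    rw [Finset.prod_neg, prod_const_one, mul_one, mul_assoc, ← prod_union]
    exact disjoint_left.2 fun i hi hi' => (mem_sdiff.1 hi').2 (hT hi)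
  have hexp : (∏ i ∈ S.1, (1 - agree x y (e (j, i)))) *
      ∏ i ∈ univ \ S.1, agree x y (e (j, i)) =
      ∑ T ∈ S.1.powerset, (-1 : ℝ) ^ T.card * ∏ i ∈ T ∪ (univ \ S.1), agree x y (e (j, i)) := by
    have h1 : ∀ i, (1 : ℝ) - agree x y (e (j, i)) = -agree x y (e (j, i)) + 1 := fun i => by ring
    simp only [h1]
    rw [prod_add, sum_mul]
    exact sum_congr rfl hterm
  have hfull : (if diffSet e x y j = ∅ then (1 : ℝ) else 0) =
      ∏ i ∈ S.1 ∪ (univ \ S.1), agree x y (e (j, i)) := by
    rw [diffSet_eq_iff, prod_empty, one_mul, sdiff_empty,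
      union_sdiff_of_subset (subset_univ _)]
  rw [hsplit, diffSet_eq_iff e x y j S.1, hexp,
    ← add_sum_erase _ _ (mem_powerset_self S.1), hfull, S.2]
  ring

/-- The spread vectors are low. -/
theorem spread_isLow (hg : 1 ≤ g) (hn : m * g = n) (x : Pt K n) (R : Tuple m g) :
    IsLow K n m (fun y => (spread e x R y : ℝ)) := by
  have heq : (fun y => (spread e x R y : ℝ)) =
      ∑ p ∈ Fintype.piFinset fun j => (R j).1.powerset.erase (R j).1,
        fun y => ∏ j, ((-1 : ℝ) ^ (p j).card *
          ∏ i ∈ p j ∪ (univ \ (R j).1), agree x y (e (j, i))) := by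
    funext y
    have h1 : (spread e x R y : ℝ) =
        ∏ j, (if diffSet e x y j = ∅ ∨ diffSet e x y j = (R j).1 then (1 : ℝ) else 0) := by
      rw [Fintype.prod_boole, spread]
      split_ifs <;> simp
    rw [h1, Finset.sum_apply, prod_congr rfl fun j _ => factor_expand e x y j (R j),
      prod_univ_sum]
  rw [heq]
  refine isLow_sum _ _ fun p hp => ?_
  rw [Fintype.mem_piFinset] at hp
  refine isLow_single (univ.biUnion fun j => (p j ∪ (univ \ (R j).1)).image fun i => e (j, i)) _
    (fun y y' hyy => ?_) ?_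
  · refine prod_congr rfl fun j _ => ?_
    congr 1
    refine prod_congr rfl fun i hi => ?_
    rw [agree, agree, hyy (e (j, i)) (mem_biUnion.2 ⟨j, mem_univ j, mem_image.2 ⟨i, hi, rfl⟩⟩)]
  · have hj : ∀ j, (p j ∪ (univ \ (R j).1)).card ≤ g - 1 := fun j => by
      obtain ⟨hne, hsub⟩ := mem_erase.1 (hp j)
      rw [mem_powerset] at hsub
      obtain ⟨i, hiR, hiT⟩ := exists_of_ssubset (Finset.ssubset_iff_subset_ne.2 ⟨hsub, hne⟩)
      have h2 : (p j ∪ (univ \ (R j).1)) ⊆ univ.erase i := fun k hk => by
        refine mem_erase.2 ⟨?_, mem_univ k⟩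
        rintro rfl
        rcases mem_union.1 hk with h | h
        · exact hiT h
        · exact (mem_sdiff.1 h).2 hiR
      simpa using card_le_card h2
    have hsum : (univ.biUnion fun j => (p j ∪ (univ \ (R j).1)).image fun i => e (j, i)).card ≤
        m * (g - 1) := by
      refine card_biUnion_le.trans ((sum_le_sum fun j _ => card_image_le.trans (hj j)).trans ?_)
      simp
    have : m * (g - 1) + m = m * g := by
      rw [← Nat.mul_succ]; congr 1; omega
    omega

theorem spread_cases (x y : Pt K n) (R : Tuple m g) : spread e x R y = 0 ∨ spread e x R y = 1 := by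
  rw [spread]
  split_ifs
  · exact Or.inr rfl
  · exact Or.inl rfl

/-- The support is near `x`. -/
theorem hammingDist_le_of_spread {x y : Pt K n} {R : Tuple m g} (h : spread e x R y ≠ 0) :
    hammingDist x y ≤ 5 * m := by
  have hd : ∀ j, (diffSet e x y j).card ≤ 5 := by
    intro j
    have hall : ∀ j, diffSet e x y j = ∅ ∨ diffSet e x y j = (R j).1 := by
      by_contra hc
      exact h (by rw [spread, if_neg hc])
    rcases hall j with hj | hj <;> rw [hj]
    · simp
    · exact (R j).2.le
  have hsub : (univ.filter fun q => x q ≠ y q) ⊆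
      univ.biUnion fun j => (diffSet e x y j).image fun i => e (j, i) := by
    intro q hq
    refine mem_biUnion.2 ⟨(e.symm q).1, mem_univ _, mem_image.2 ⟨(e.symm q).2, ?_, by simp⟩⟩
    rw [diffSet, mem_filter]
    refine ⟨mem_univ _, ?_⟩
    simpa [eq_comm] using (mem_filter.1 hq).2
  refine (le_trans (le_of_eq ?_) (card_le_card hsub)).trans (card_biUnion_le.trans
    ((sum_le_sum fun j _ => card_image_le.trans (hd j)).trans (by simp [mul_comm])))
  simp [hammingDist]

/-- Away from `x` few tuples see a given point. -/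
theorem card_spread_le {x y : Pt K n} (hxy : y ≠ x) :
    (univ.filter fun R : Tuple m g => spread e x R y ≠ 0).card * g.choose 5 ≤ g.choose 5 ^ m := by
  obtain ⟨q, hq⟩ : ∃ q, y q ≠ x q := Function.ne_iff.1 hxy
  set j := (e.symm q).1
  set i := (e.symm q).2
  have hi : i ∈ diffSet e x y j := by simp [diffSet, j, i, hq]
  have hsub : (univ.filter fun R : Tuple m g => spread e x R y ≠ 0) ⊆
      univ.filter fun R : Tuple m g => (R j).1 = diffSet e x y j := by
    intro R hR
    refine mem_filter.2 ⟨mem_univ R, ?_⟩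
    have hall : ∀ j, diffSet e x y j = ∅ ∨ diffSet e x y j = (R j).1 := by
      by_contra hc
      exact (mem_filter.1 hR).2 (by rw [spread, if_neg hc])
    rcases hall j with h | h
    · rw [h] at hi; exact absurd hi (notMem_empty i)
    · exact h.symm
  refine (Nat.mul_le_mul_right _ (card_le_card hsub)).trans ?_
  have hc5 : (univ : Finset {S : Finset (Fin g) // S.card = 5}).card = g.choose 5 := by
    simp [Fintype.card_finset_len]
  rw [← card_tuple, ← hc5, ← card_univ (α := Tuple m g), ← card_product]
  refine card_le_card_of_injOn (fun P => Function.update P.1 j P.2) (fun _ _ => mem_univ _) ?_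
  intro P hP P' hP' hPP
  simp only [coe_product, Set.mem_prod, coe_filter, mem_univ, true_and] at hP hP'
  refine Prod.ext (funext fun k => ?_) ?_
  · by_cases hk : k = j
    · subst hk
      exact Subtype.ext (hP.1.trans hP'.1.symm)
    · simpa [hk] using congrFun hPP k
  · simpa using congrFun hPP j

/-! ### Distributing an integer over the tuples -/

theorem exists_split (T : Type*) [Fintype T] [Nonempty T] (D : ℤ) :
    ∃ E : T → ℤ, ∑ R, E R = D ∧
      ∀ R, |(E R : ℝ)| ≤ |(D : ℝ)| / Fintype.card T + 1 := by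
  classical
  set c := Fintype.card T
  have hc : 0 < c := Fintype.card_pos
  obtain ⟨S, -, hS⟩ := exists_subset_card_eq
    (show (D % c).toNat ≤ (univ : Finset T).card by
      have := Int.emod_lt_of_pos D (by exact_mod_cast hc : (0 : ℤ) < c)
      rw [card_univ]
      omega)
  have hnn : 0 ≤ D % c := Int.emod_nonneg D (by exact_mod_cast hc.ne')
  refine ⟨fun R => D / c + if R ∈ S then 1 else 0, ?_, fun R => ?_⟩
  · rw [sum_add_distrib, sum_const, card_univ, sum_boole, Finset.filter_univ_mem, hS]
    simp only [nsmul_eq_mul]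
    rw [show ((D % c).toNat : ℤ) = D % c from Int.toNat_of_nonneg hnn]
    exact Int.mul_ediv_add_emod D c
  · have hcR : (0 : ℝ) < c := by exact_mod_cast hc
    have hlt : D % c < c := Int.emod_lt_of_pos D (by exact_mod_cast hc)
    have heq : ((c : ℤ) * (D / c) + D % c : ℤ) = D := Int.mul_ediv_add_emod D c
    have heqR : (c : ℝ) * ((D / c : ℤ) : ℝ) + ((D % c : ℤ) : ℝ) = D := by exact_mod_cast heq
    have h0 : (0 : ℝ) ≤ ((D % c : ℤ) : ℝ) := by exact_mod_cast hnn
    have h1 : ((D % c : ℤ) : ℝ) + 1 ≤ c := by exact_mod_cast hlt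
    rw [div_add_one hcR.ne', le_div_iff₀ hcR]
    push_cast
    rw [← abs_of_pos hcR, ← abs_mul, abs_of_pos hcR, abs_le]
    have hd := le_abs_self (D : ℝ)
    have hd' := neg_abs_le (D : ℝ)
    split_ifs <;> constructor <;> linarith

end Vale.Agent.P047.JunkAux
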