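import Vale.Agent.P047.WBasic
import Vale.Agent.P047.JunkAux
import Mathlib.Algebra.BigOperators.Field

/-!
Integer start of the rounding: floors of the junta terms, then the planted patterns are imposed
by means of spread null vectors.

Proof notes.  Split Fin n into m groups of g coordinates; for a tuple R of 5-sets (one per group)
and a point x the vector is ∏_j (1[no coordinate of group j differs] + 1[exactly R_j differs]),
a low function as 5 is odd.  Distribute the corrections over all C(g,5)^m tuples as integers with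
zero sum over letters for each tuple.  A point y ≠ x receives from one x only (isolation), at most
(total)/C(g,5) + C(g,5)^m per letter (times K for the root).
-/

namespace Vale.Agent.P047

open Finset

/-- Integer low tables close to 2^s h with the correct row sums. -/
theorem junk_rounded (K n m s : ℕ) [NeZero K] (hmn : m ≤ n) (h : Pt K n → Fin K → ℝ)
    (hsum : ∀ x, ∑ a, h x a = 1) (hlow : ∀ a, IsLow K n m (fun x => h x a)) :
    ∃ G : Pt K n → Fin K → ℤ, (∀ x, ∑ a, G x a = 2 ^ s) ∧
      (∀ a, IsLow K n m (fun x => (G x a : ℝ))) ∧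
      ∀ x a, |(G x a : ℝ) - 2 ^ s * h x a| ≤ (K : ℝ) * 2 ^ n := by
  classical
  choose F hdep hzero hF using hlow
  set G₁ : Pt K n → Fin K → ℤ := fun x a => ∑ S, ⌊(2 : ℝ) ^ s * F a S x⌋ with hG₁
  set G : Pt K n → Fin K → ℤ := fun x a =>
    if a = 0 then 2 ^ s - ∑ b ∈ univ.erase 0, G₁ x b else G₁ x a with hG
  have hlow1 : ∀ a, IsLow K n m (fun x => (G₁ x a : ℝ)) := fun a => by
    have : (fun x => (G₁ x a : ℝ)) = ∑ S, fun x => ((⌊(2 : ℝ) ^ s * F a S x⌋ : ℤ) : ℝ) := by
      funext x; simp [hG₁, Finset.sum_apply]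
    rw [this]
    refine isLow_sum _ _ fun S _ => ?_
    by_cases hS : S.card + m ≤ n
    · exact isLow_single S _ (fun x y hxy => by simp only [hdep a S x y hxy]) hS
    · refine ⟨fun _ _ => 0, fun _ => fun _ _ _ => rfl, fun _ _ => rfl, fun x => ?_⟩
      simp [hzero a S (by omega)]
  have herr : ∀ x a, |(G₁ x a : ℝ) - 2 ^ s * h x a| ≤ 2 ^ n := fun x a => by
    rw [show h x a = _ from hF a x, mul_sum, hG₁, Int.cast_sum, ← sum_sub_distrib]
    refine (abs_sum_le_sum_abs _ _).trans ((sum_le_sum fun S _ => ?_).trans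
      (le_of_eq (by simp : ∑ _S : Finset (Fin n), (1 : ℝ) = 2 ^ n)))
    rw [abs_sub_comm, abs_of_nonneg (sub_nonneg.2 (Int.floor_le _))]
    have := Int.lt_floor_add_one ((2 : ℝ) ^ s * F a S x)
    linarith
  refine ⟨G, fun x => ?_, fun a => ?_, fun x a => ?_⟩
  · rw [← add_sum_erase _ _ (mem_univ (0 : Fin K)), hG]
    simp only [if_true]
    rw [sum_congr rfl fun b hb => if_neg (mem_erase.1 hb).1]
    ring
  · by_cases ha : a = 0
    · have : (fun x => (G x a : ℝ)) = (fun _ => (2 : ℝ) ^ s) +
          (-1 : ℝ) • ∑ b ∈ univ.erase 0, fun x => (G₁ x b : ℝ) := by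
        funext x
        simp [hG, ha, Finset.sum_apply]
        ring
      rw [this]
      exact isLow_add (isLow_const hmn _) (isLow_smul _ (isLow_sum _ _ fun b _ => hlow1 b))
    · simpa [hG, ha] using hlow1 a
  · have hK : (1 : ℝ) ≤ K := by exact_mod_cast Nat.one_le_iff_ne_zero.2 (NeZero.ne K)
    by_cases ha : a = 0
    · subst ha
      have h1 : (G x 0 : ℝ) - 2 ^ s * h x 0 =
          -∑ b ∈ univ.erase 0, ((G₁ x b : ℝ) - 2 ^ s * h x b) := by
        have h2 := hsum x
        rw [← add_sum_erase _ _ (mem_univ (0 : Fin K))] at h2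
        simp only [hG, if_true, sum_sub_distrib, ← mul_sum]
        push_cast
        linear_combination (-(2 : ℝ) ^ s) * h2
      rw [h1, abs_neg]
      refine (abs_sum_le_sum_abs _ _).trans ((sum_le_sum fun b _ => herr x b).trans ?_)
      rw [sum_const, nsmul_eq_mul]
      refine mul_le_mul_of_nonneg_right ?_ (by positivity)
      have h3 : (univ.erase (0 : Fin K)).card ≤ K := by simp
      exact_mod_cast h3
    · simp only [hG, if_neg ha]
      exact (herr x a).trans (le_mul_of_one_le_left (by positivity) hK)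

theorem exists_initial (K n m g s : ℕ) [NeZero K] (hK : 2 ≤ K) (hm : 1 ≤ m) (hg : 5 ≤ g)
    (hn : m * g = n) (delta : ℝ) (h : Pt K n → Fin K → ℝ)
    (hpos : ∀ x a, delta ≤ h x a) (hsum : ∀ x, ∑ a, h x a = 1)
    (hlow : ∀ a, IsLow K n m (fun x => h x a))
    (hC : 4 ≤ delta * (g.choose 5 : ℝ)) (hs : 4 * (K : ℝ) * 2 ^ n ≤ delta * 2 ^ s)
    (col : Pt K n → Option (Fin K × Fin s))
    (hiso : ∀ x y, (col x).isSome → (col y).isSome → x ≠ y → 10 * m < hammingDist x y) :
    ∃ H : Pt K n → Fin K → ℕ,
      (∀ a, Null K n m (fun x => (H x a : ℝ))) ∧ (∀ x, ∑ a, H x a = 2 ^ s) ∧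
      (∀ x a l, col x = some (a, l) → ∀ b, H x b = 2 ^ (s - (l.val + 1)) *
          ((if b = a then 1 else 0) + (if b = 0 then 2 ^ (l.val + 1) - 1 else 0))) ∧
      ∀ x a, col x = none → (H x a : ℝ) ≤ 2 ^ s * (h x a + delta) := by
  classical
  have hmn : m ≤ n := hn ▸ Nat.le_mul_of_pos_right m (by omega)
  obtain ⟨G, hGsum, hGlow, hGerr⟩ := junk_rounded K n m s hmn h hsum hlow
  set C := g.choose 5 with hCdef
  have hC0 : 0 < C := Nat.choose_pos hg
  have hCR : (0 : ℝ) < C := by exact_mod_cast hC0
  have h2s : (0 : ℝ) < 2 ^ s := by positivity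
  have hdelta : 0 < delta := by
    by_contra hd
    have : delta * (C : ℝ) ≤ 0 := mul_nonpos_of_nonpos_of_nonneg (not_lt.1 hd) hCR.le
    linarith
  have hGnn : ∀ x a, 0 ≤ G x a := fun x a => by
    have h1 := (abs_le.1 (hGerr x a)).1
    have h2 := mul_le_mul_of_nonneg_left (hpos x a) h2s.le
    have h3 : (0 : ℝ) ≤ (G x a : ℝ) := by nlinarith
    exact_mod_cast h3
  let e : Fin m × Fin g ≃ Fin n := finProdFinEquiv.trans (finCongr hn)
  -- the targets
  let tg : Fin K × Fin s → Fin K → ℕ := fun al b => 2 ^ (s - (al.2.val + 1)) *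
    ((if b = al.1 then 1 else 0) + (if b = 0 then 2 ^ (al.2.val + 1) - 1 else 0))
  have htg : ∀ al, ∑ b, tg al b = 2 ^ s := fun al => by
    simp only [tg]
    rw [← mul_sum, sum_add_distrib, sum_ite_eq', sum_ite_eq', if_pos (mem_univ _),
      if_pos (mem_univ _), Nat.add_sub_cancel' Nat.one_le_two_pow, ← pow_add]
    congr 1
    have := al.2.isLt
    omega
  let D : Pt K n → Fin K → ℤ := fun x b =>
    match col x with
    | none => 0
    | some al => (tg al b : ℤ) - G x b
  have hDsome : ∀ x al, col x = some al → ∀ b, D x b = (tg al b : ℤ) - G x b :=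
    fun x al hx b => by simp only [D, hx]
  have hDsum : ∀ x, ∑ b, D x b = 0 := fun x => by
    cases hx : col x with
    | none => simp [D, hx]
    | some al =>
      simp only [hDsome x al hx, sum_sub_distrib, hGsum]
      rw [← Nat.cast_sum, htg]
      simp
  have hDabs : ∀ x, ∑ b, |(D x b : ℝ)| ≤ 2 * 2 ^ s := fun x => by
    cases hx : col x with
    | none => simp [D, hx]
    | some al =>
      refine (sum_le_sum (g := fun b => (tg al b : ℝ) + (G x b : ℝ)) fun b _ => ?_).trans
        (le_of_eq ?_)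
      · rw [hDsome x al hx b, Int.cast_sub, Int.cast_natCast]
        refine (abs_sub _ _).trans (le_of_eq ?_)
        rw [abs_of_nonneg (Nat.cast_nonneg _), abs_of_nonneg (by exact_mod_cast hGnn x b)]
      · rw [sum_add_distrib, ← Nat.cast_sum, htg, ← Int.cast_sum, hGsum]
        push_cast
        ring
  -- distribute the corrections
  have : Nonempty (JunkAux.Tuple m g) := Fintype.card_pos_iff.1 (by
    rw [JunkAux.card_tuple]; exact pow_pos hC0 m)
  choose E₁ hE₁sum hE₁ using fun x b => JunkAux.exists_split (JunkAux.Tuple m g) (D x b)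
  let E : Pt K n → Fin K → JunkAux.Tuple m g → ℤ := fun x b R =>
    if b = 0 then -∑ c ∈ univ.erase 0, E₁ x c R else E₁ x b R
  have hEsum : ∀ x b, ∑ R, E x b R = D x b := fun x b => by
    by_cases hb : b = 0
    · subst hb
      simp only [E, if_true, sum_neg_distrib]
      rw [sum_comm, sum_congr rfl fun c _ => hE₁sum x c]
      have := hDsum x
      rw [← add_sum_erase _ _ (mem_univ (0 : Fin K))] at this
      linarith
    · simp only [E, if_neg hb, hE₁sum]
  have hErow : ∀ x R, ∑ b, E x b R = 0 := fun x R => by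
    rw [← add_sum_erase _ _ (mem_univ (0 : Fin K))]
    simp only [E, if_true]
    rw [sum_congr rfl fun b hb => if_neg (mem_erase.1 hb).1]
    ring
  set B : ℝ := 2 * 2 ^ s / ((C : ℝ) ^ m) + K with hB
  have hEle : ∀ x b R, |(E x b R : ℝ)| ≤ B := fun x b R => by
    have hcard : ((Fintype.card (JunkAux.Tuple m g) : ℕ) : ℝ) = (C : ℝ) ^ m := by
      rw [JunkAux.card_tuple]; push_cast; rfl
    have hone : ∀ c, |(E₁ x c R : ℝ)| ≤ |(D x c : ℝ)| / (C : ℝ) ^ m + 1 := fun c => by
      rw [← hcard]; exact hE₁ x c R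
    have hall : ∑ c, (|(D x c : ℝ)| / (C : ℝ) ^ m + 1) ≤ B := by
      rw [sum_add_distrib, ← sum_div, sum_const, card_univ, Fintype.card_fin, nsmul_one]
      have := div_le_div_of_nonneg_right (hDabs x) (pow_nonneg hCR.le m)
      linarith
    have hnn : ∀ c ∈ (univ : Finset (Fin K)), (0 : ℝ) ≤ |(D x c : ℝ)| / (C : ℝ) ^ m + 1 :=
      fun c _ => add_nonneg (div_nonneg (abs_nonneg _) (pow_nonneg hCR.le m)) zero_le_one
    by_cases hb : b = 0
    · simp only [E, if_pos hb]
      push_cast
      rw [abs_neg]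
      exact (abs_sum_le_sum_abs _ _).trans ((sum_le_sum fun c _ => hone c).trans
        ((sum_le_sum_of_subset_of_nonneg (erase_subset _ _) fun c hc _ => hnn c hc).trans hall))
    · simp only [E, if_neg hb]
      exact (hone b).trans ((single_le_sum hnn (mem_univ b)).trans hall)
  -- the correction
  set P := (univ : Finset (Pt K n)).filter fun x => (col x).isSome
  let Jc : Pt K n → Fin K → ℤ := fun y b =>
    ∑ x ∈ P, ∑ R, E x b R * JunkAux.spread e x R y
  have hnear : ∀ x ∈ P, ∀ y R, JunkAux.spread e x R y ≠ 0 → hammingDist x y ≤ 5 * m :=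
    fun x _ y R hR => JunkAux.hammingDist_le_of_spread e hR
  have honly : ∀ y b x, x ∈ P → hammingDist x y ≤ 5 * m →
      Jc y b = ∑ R, E x b R * JunkAux.spread e x R y := fun y b x hx hxy => by
    refine sum_eq_single_of_mem x hx fun x' hx' hne => sum_eq_zero fun R _ => ?_
    by_contra hc
    have h1 := hnear x' hx' y R (right_ne_zero_of_mul hc)
    have h2 := hiso x' x (mem_filter.1 hx').2 (mem_filter.1 hx).2 hne
    have h3 := hammingDist_triangle x' y x
    rw [hammingDist_comm y x] at h3
    omega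
  have hJplant : ∀ x al, col x = some al → ∀ b, Jc x b = D x b := fun x al hx b => by
    rw [honly x b x (mem_filter.2 ⟨mem_univ x, by simp [hx]⟩) (by simp)]
    simp only [JunkAux.spread_self, mul_one, hEsum]
  have hJle : ∀ y b, col y = none → |(Jc y b : ℝ)| ≤ 3 / 4 * delta * 2 ^ s := fun y b hy => by
    by_cases hex : ∃ x ∈ P, hammingDist x y ≤ 5 * m
    · obtain ⟨x, hx, hxy⟩ := hex
      have hyx : y ≠ x := fun hh => by
        have := (mem_filter.1 hx).2
        rw [← hh, hy] at this
        simp at this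
      set S := univ.filter fun R : JunkAux.Tuple m g => JunkAux.spread e x R y ≠ 0
      have hsumS : (Jc y b : ℝ) = ∑ R ∈ S, (E x b R : ℝ) := by
        rw [honly y b x hx hxy, Int.cast_sum, sum_filter]
        refine sum_congr rfl fun R _ => ?_
        rcases JunkAux.spread_cases e x y R with h0 | h1
        · simp [h0]
        · simp [h1]
      have hcardS : (S.card : ℝ) * C ≤ (C : ℝ) ^ m := by
        exact_mod_cast JunkAux.card_spread_le e hyx
      have hS1 : (S.card : ℝ) * C * B ≤ 2 * 2 ^ s + (C : ℝ) ^ m * K := by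
        calc (S.card : ℝ) * C * B ≤ (C : ℝ) ^ m * B := by
              refine mul_le_mul_of_nonneg_right hcardS ?_
              rw [hB]; positivity
          _ = 2 * 2 ^ s + (C : ℝ) ^ m * K := by
              rw [hB]; field_simp
      have hCm : (C : ℝ) ^ m * K ≤ (C : ℝ) * (delta * 2 ^ s / 4) := by
        have h1 : C ^ m ≤ 2 ^ n := by
          rw [← hn, mul_comm, pow_mul]
          exact Nat.pow_le_pow_left (Nat.choose_le_two_pow g 5) m
        have h2 : (C : ℝ) ^ m * K ≤ delta * 2 ^ s / 4 := by
          have : (C : ℝ) ^ m ≤ 2 ^ n := by exact_mod_cast h1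
          nlinarith [(Nat.cast_nonneg K : (0 : ℝ) ≤ K)]
        refine h2.trans (le_mul_of_one_le_left (by positivity) ?_)
        exact_mod_cast hC0
      rw [hsumS]
      refine (abs_sum_le_sum_abs _ _).trans ((sum_le_sum fun R _ => hEle x b R).trans ?_)
      rw [sum_const, nsmul_eq_mul]
      refine le_of_mul_le_mul_left ?_ hCR
      nlinarith
    · push Not at hex
      have : Jc y b = 0 := sum_eq_zero fun x hx => sum_eq_zero fun R _ => by
        by_contra hc
        exact absurd (hnear x hx y R (right_ne_zero_of_mul hc)) (not_le.2 (hex x hx))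
      rw [this]
      simp only [Int.cast_zero, abs_zero]
      positivity
  -- assemble
  have hclose : ∀ y b, col y = none →
      |((G y b + Jc y b : ℤ) : ℝ) - 2 ^ s * h y b| ≤ delta * 2 ^ s := fun y b hy => by
    have h1 := abs_le.1 (hGerr y b)
    have h2 := abs_le.1 (hJle y b hy)
    rw [Int.cast_add, abs_le]
    constructor <;> linarith
  have hnn : ∀ y b, 0 ≤ G y b + Jc y b := fun y b => by
    cases hy : col y with
    | none =>
      have h1 := (abs_le.1 (hclose y b hy)).1
      have h2 := mul_le_mul_of_nonneg_left (hpos y b) h2s.le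
      have h3 : (0 : ℝ) ≤ ((G y b + Jc y b : ℤ) : ℝ) := by linarith
      exact_mod_cast h3
    | some al =>
      rw [hJplant y al hy b, hDsome y al hy b, add_sub_cancel]
      exact Int.natCast_nonneg _
  refine ⟨fun y b => (G y b + Jc y b).toNat, fun b => ?_, fun y => ?_, fun x a l hx b => ?_,
    fun y b hy => ?_⟩
  · refine isLow_null ?_
    have : (fun y => (((G y b + Jc y b).toNat : ℕ) : ℝ)) = (fun y => (G y b : ℝ)) +
        ∑ x ∈ P, ∑ R, (E x b R : ℝ) • fun y => (JunkAux.spread e x R y : ℝ) := by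
      funext y
      rw [← Int.cast_natCast, Int.toNat_of_nonneg (hnn y b)]
      simp [Jc, Finset.sum_apply]
    rw [this]
    exact isLow_add (hGlow b) (isLow_sum _ _ fun x _ => isLow_sum _ _ fun R _ =>
      isLow_smul _ (JunkAux.spread_isLow e (by omega) hn x R))
  · have h1 : ∑ b, (G y b + Jc y b) = ((2 ^ s : ℕ) : ℤ) := by
      have : ∑ b, Jc y b = 0 := by
        simp only [Jc]
        rw [sum_comm]
        refine sum_eq_zero fun x _ => ?_
        rw [sum_comm]
        exact sum_eq_zero fun R _ => by rw [← sum_mul, hErow, zero_mul]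
      rw [sum_add_distrib, hGsum, this, add_zero]
      simp
    have h2 : ((∑ b, (G y b + Jc y b).toNat : ℕ) : ℤ) = ((2 ^ s : ℕ) : ℤ) := by
      rw [Nat.cast_sum, ← h1]
      exact sum_congr rfl fun b _ => Int.toNat_of_nonneg (hnn y b)
    exact_mod_cast h2
  · simp only [hJplant x _ hx b, hDsome x _ hx b, add_sub_cancel, Int.toNat_natCast, tg]
  · show (((G y b + Jc y b).toNat : ℕ) : ℝ) ≤ _
    rw [← Int.cast_natCast, Int.toNat_of_nonneg (hnn y b)]
    have := (abs_le.1 (hclose y b hy)).2
    linarith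

end Vale.Agent.P047
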