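import Vale.Agent.P047.WBasic
import Mathlib.Analysis.SpecialFunctions.Trigonometric.Bounds
import Mathlib.RingTheory.RootsOfUnity.Complex
import Mathlib.Data.Nat.Choose.Central
import Mathlib.Data.Nat.Choose.Sum
import Mathlib.Algebra.BigOperators.Field

/-! Trigonometric and moment lemmas for the smooth rounding kernel of P047. -/

namespace Vale.Agent.P047.KernelAux

open Finset

/-- The frequency of the `j`-th term of `cos ^ (2 M)`. -/
def freq (M j : ℕ) : ℝ := 2 * (j : ℝ) - 2 * M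

theorem cos_pow_expand (M : ℕ) (θ : ℝ) :
    ((Real.cos θ ^ (2 * M) : ℝ) : ℂ) = (∑ j ∈ range (2 * M + 1),
      ((2 * M).choose j : ℂ) * Complex.exp ((freq M j * θ : ℝ) * Complex.I)) / 4 ^ M := by
  rw [Complex.ofReal_pow, Complex.ofReal_cos, Complex.cos, div_pow, add_pow]
  have h4 : (2 : ℂ) ^ (2 * M) = 4 ^ M := by rw [pow_mul]; norm_num
  rw [h4]
  congr 1
  refine sum_congr rfl fun j hj => ?_
  have hj' : j ≤ 2 * M := Nat.lt_succ_iff.1 (mem_range.1 hj)
  rw [← Complex.exp_nat_mul, ← Complex.exp_nat_mul, ← Complex.exp_add, mul_comm]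
  congr 2
  simp only [freq]
  push_cast [Nat.cast_sub hj']
  ring

theorem sum_exp_nodes (M P j : ℕ) (hMP : M < P) (hj : j ≤ 2 * M) (φ : ℝ) :
    ∑ p ∈ range P, Complex.exp ((freq M j * (φ - Real.pi * p / P) : ℝ) * Complex.I) =
      if j = M then (P : ℂ) else 0 := by
  have hP0 : P ≠ 0 := by omega
  have hP : (P : ℂ) ≠ 0 := Nat.cast_ne_zero.2 hP0
  split_ifs with h
  · subst h
    simp [freq]
  · set e := P + M - j with he
    set ω := Complex.exp (2 * Real.pi * Complex.I / P) with hω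
    have hterm : ∀ p : ℕ, Complex.exp ((freq M j * (φ - Real.pi * p / P) : ℝ) * Complex.I) =
        Complex.exp ((freq M j * φ : ℝ) * Complex.I) * (ω ^ e) ^ p := by
      intro p
      rw [hω, ← pow_mul, ← Complex.exp_nat_mul, ← Complex.exp_add]
      have hsplit : (freq M j * φ : ℝ) * Complex.I +
          ((e * p : ℕ) : ℂ) * (2 * Real.pi * Complex.I / P) =
          (freq M j * (φ - Real.pi * p / P) : ℝ) * Complex.I +
            ((p : ℤ) : ℂ) * (2 * Real.pi * Complex.I) := by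
        rw [he]
        simp only [freq]
        push_cast [Nat.cast_sub (show j ≤ P + M by omega)]
        field_simp
        ring
      rw [hsplit, Complex.exp_add, Complex.exp_int_mul_two_pi_mul_I, mul_one]
    simp only [hterm, ← mul_sum]
    have hprim := Complex.isPrimitiveRoot_exp P hP0
    rw [← hω] at hprim
    have hne : ω ^ e ≠ 1 := by
      intro h1
      obtain ⟨t, ht⟩ := (hprim.pow_eq_one_iff_dvd e).1 h1
      rcases Nat.lt_or_ge t 2 with ht2 | ht2
      · interval_cases t <;> omega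
      · have : P * 2 ≤ e := ht ▸ Nat.mul_le_mul_left P ht2
        omega
    have hone : (ω ^ e) ^ P = 1 := by
      rw [← pow_mul, mul_comm, pow_mul, hprim.pow_eq_one, one_pow]
    rw [geom_sum_eq hne, hone, sub_self, zero_div, mul_zero]

theorem sum_cos_pow (M P : ℕ) (hMP : M < P) (φ : ℝ) :
    ∑ p ∈ range P, Real.cos (φ - Real.pi * p / P) ^ (2 * M) =
      P * (Nat.centralBinom M : ℝ) / 4 ^ M := by
  apply Complex.ofReal_injective
  rw [Complex.ofReal_sum]
  simp only [cos_pow_expand, ← sum_div]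
  rw [sum_comm]
  simp only [← mul_sum]
  rw [sum_congr rfl fun j hj => by
    rw [sum_exp_nodes M P j hMP (Nat.lt_succ_iff.1 (mem_range.1 hj)) φ]]
  simp only [mul_ite, mul_zero, sum_ite_eq', mem_range]
  rw [if_pos (by omega)]
  simp [Nat.centralBinom, mul_comm]

/-- The normalised kernel. -/
noncomputable def kker (M P : ℕ) (t : ℝ) : ℝ :=
  Real.cos t ^ (2 * M) / ((P : ℝ) * Nat.centralBinom M / 4 ^ M)

theorem kker_nonneg (M P : ℕ) (t : ℝ) : 0 ≤ kker M P t :=
  div_nonneg ((even_two_mul M).pow_nonneg _) (by positivity)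

theorem sum_kker (M P : ℕ) (hMP : M < P) (φ : ℝ) :
    ∑ p ∈ range P, kker M P (φ - Real.pi * p / P) = 1 := by
  simp only [kker, ← sum_div]
  rw [sum_cos_pow M P hMP φ]
  have : (0 : ℝ) < Nat.centralBinom M := Nat.cast_pos.2 (Nat.centralBinom_pos M)
  have hP : (0 : ℝ) < P := Nat.cast_pos.2 (by omega)
  exact div_self (by positivity)

theorem sum_kker_sin_sq (M P : ℕ) (hMP : M + 1 < P) (φ : ℝ) :
    ∑ p ∈ range P, kker M P (φ - Real.pi * p / P) * Real.sin (φ - Real.pi * p / P) ^ 2 =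
      1 / (2 * M + 2) := by
  have e : ∀ t : ℝ, kker M P t * Real.sin t ^ 2 =
      (Real.cos t ^ (2 * M) - Real.cos t ^ (2 * (M + 1))) /
        ((P : ℝ) * Nat.centralBinom M / 4 ^ M) := fun t => by
    rw [kker, Real.sin_sq]
    ring
  simp only [e, ← sum_div, sum_sub_distrib]
  rw [sum_cos_pow M P (by omega) φ, sum_cos_pow (M + 1) P hMP φ]
  have hb : (0 : ℝ) < Nat.centralBinom M := Nat.cast_pos.2 (Nat.centralBinom_pos M)
  have hP : (0 : ℝ) < P := Nat.cast_pos.2 (by omega)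
  have h := congrArg (fun k : ℕ => (k : ℝ)) (Nat.succ_mul_centralBinom_succ M)
  push_cast at h
  have h1 : (Nat.centralBinom (M + 1) : ℝ) = 2 * (2 * M + 1) * Nat.centralBinom M / (M + 1) := by
    rw [eq_div_iff (by positivity)]
    linarith
  rw [h1]
  field_simp
  ring

theorem four_pow_div_le (M : ℕ) : (4 : ℝ) ^ M / Nat.centralBinom M ≤ 2 * M + 1 := by
  rw [div_le_iff₀ (Nat.cast_pos.2 (Nat.centralBinom_pos M))]
  have h := Nat.four_pow_le_two_mul_add_one_mul_central_binom M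
  exact_mod_cast h

/-- Periodic distance against the squared sine. -/
theorem sq_le_sin (Lam T' x : ℝ) (hL : 0 < Lam) (hT : |T'| ≤ Lam / 4) (hx : |x| ≤ Lam / 2) :
    (T' - x) ^ 2 ≤ 2 * Lam ^ 2 * Real.sin (Real.pi * (T' - x) / Lam) ^ 2 := by
  set θ := Real.pi * (T' - x) / Lam with hθ
  have hd : |T' - x| ≤ 3 * Lam / 4 := by
    have := abs_sub T' x
    linarith
  have habs : |θ| = Real.pi * |T' - x| / Lam := by
    rw [hθ, abs_div, abs_mul, abs_of_pos Real.pi_pos, abs_of_pos hL]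
  have hpi := Real.pi_pos
  rcases le_total |θ| (Real.pi / 2) with h | h
  · have h1 := Real.mul_abs_le_abs_sin h
    have e : 2 / Real.pi * |θ| = 2 * |T' - x| / Lam := by
      rw [habs]; field_simp
    rw [e, div_le_iff₀ hL] at h1
    have h2 := pow_le_pow_left₀ (by positivity) h1 2
    rw [mul_pow, mul_pow, sq_abs, sq_abs] at h2
    nlinarith [sq_nonneg (T' - x)]
  · have hle : |θ| ≤ 3 * Real.pi / 4 := by
      rw [habs, div_le_iff₀ hL]
      nlinarith [mul_le_mul_of_nonneg_left hd hpi.le]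
    have hc : Real.cos (Real.pi / 4) ≤ Real.cos (|θ| - Real.pi / 2) :=
      Real.cos_le_cos_of_nonneg_of_le_pi (by linarith) (by linarith) (by linarith)
    rw [Real.cos_sub_pi_div_two, Real.cos_pi_div_four] at hc
    have hs : (1 / 2 : ℝ) ≤ Real.sin |θ| ^ 2 := by
      have h2 := pow_le_pow_left₀ (by positivity) hc 2
      rw [div_pow, Real.sq_sqrt (by norm_num)] at h2
      linarith
    have hss : Real.sin |θ| ^ 2 = Real.sin θ ^ 2 := by
      rcases abs_choice θ with h0 | h0 <;> simp [h0]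
    rw [hss] at hs
    have h3 : (T' - x) ^ 2 ≤ (3 * Lam / 4) ^ 2 := sq_le_sq' (abs_le.1 hd).1 (abs_le.1 hd).2
    nlinarith [mul_le_mul_of_nonneg_left hs (sq_nonneg Lam)]

/-- Pointwise control of the distance to a node. -/
theorem node_sq_le (Lam T T' x : ℝ) (hL : 0 < Lam) (hx : |x| ≤ Lam / 2) :
    (T' - x) ^ 2 ≤ 2 * Lam ^ 2 * Real.sin (Real.pi * (T' - x) / Lam) ^ 2 +
      36 * (T - T') ^ 2 + 18 * 8 ^ 6 * (T ^ 8 / Lam ^ 6) := by
  have hT8 : 0 ≤ T ^ 8 / Lam ^ 6 := div_nonneg (Even.pow_nonneg (by decide) _) (by positivity)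
  have hsin : 0 ≤ 2 * Lam ^ 2 * Real.sin (Real.pi * (T' - x) / Lam) ^ 2 := by positivity
  rcases le_or_gt |T'| (Lam / 4) with h | h
  · nlinarith [sq_le_sin Lam T' x hL h hx, sq_nonneg (T - T')]
  · have hTT : T ^ 2 ≤ 8 ^ 6 * (T ^ 8 / Lam ^ 6) + (T - T') ^ 2 := by
      rcases le_or_gt (Lam / 8) |T| with h8 | h8
      · have h6 := pow_le_pow_left₀ (by positivity) h8 6
        rw [Even.pow_abs (by decide), div_pow, div_le_iff₀ (by positivity)] at h6
        have : T ^ 2 ≤ 8 ^ 6 * (T ^ 8 / Lam ^ 6) := by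
          rw [mul_div_assoc', le_div_iff₀ (by positivity)]
          nlinarith [mul_le_mul_of_nonneg_left h6 (sq_nonneg T)]
        nlinarith [sq_nonneg (T - T')]
      · have h1 : |T| ≤ |T - T'| := by
          have h3 : |T'| - |T| ≤ |T - T'| := by rw [abs_sub_comm]; exact abs_sub_abs_le_abs_sub _ _
          linarith
        have := sq_le_sq.2 h1
        linarith
    have h2 : (T' - x) ^ 2 ≤ 9 * T' ^ 2 := by
      have : |T' - x| ≤ 3 * |T'| := by
        have := abs_sub T' x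
        linarith
      have := pow_le_pow_left₀ (abs_nonneg _) this 2
      rw [mul_pow, sq_abs, sq_abs] at this
      linarith
    nlinarith [sq_nonneg (T + (T - T'))]

variable {K : ℕ}

theorem sum_pt_cons {n : ℕ} (F : Pt K (n + 1) → ℝ) :
    ∑ x, F x = ∑ a : Fin K, ∑ y : Pt K n, F (Fin.cons a y) := by
  rw [← (Fin.consEquiv fun _ : Fin (n + 1) => Fin K).sum_comp, Fintype.sum_prod_type]
  rfl

theorem sum_wt (mu : Fin K → ℝ) (hsum : ∑ a, mu a = 1) (n : ℕ) : ∑ x : Pt K n, wt mu x = 1 := by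
  simp only [wt]
  rw [← Fintype.prod_sum (fun (_ : Fin n) a => mu a)]
  simp [hsum]

theorem moment_sum (mu w : Fin K → ℝ) (hsum : ∑ a, mu a = 1) :
    ∀ n : ℕ, ∑ x : Pt K n, wt mu x * TT w x = n * ∑ a, mu a * w a ∧
      ∑ x : Pt K n, wt mu x * TT w x ^ 2 =
        n * ∑ a, mu a * w a ^ 2 + n * (n - 1) * (∑ a, mu a * w a) ^ 2
  | 0 => by simp [TT]
  | n + 1 => by
    obtain ⟨h1, h2⟩ := moment_sum mu w hsum n
    have hw : ∀ a (y : Pt K n), wt mu (Fin.cons a y) = mu a * wt mu y := fun a y => by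
      simp [wt, Fin.prod_univ_succ]
    have hT : ∀ a (y : Pt K n), TT w (Fin.cons a y) = w a + TT w y := fun a y => by
      simp [TT, Fin.sum_univ_succ]
    have h0 := sum_wt mu hsum n
    constructor
    · rw [sum_pt_cons]
      simp only [hw, hT, mul_add, mul_assoc, sum_add_distrib, ← mul_sum]
      rw [h1]
      simp only [← sum_mul, h0, hsum, one_mul]
      push_cast
      ring
    · rw [sum_pt_cons]
      have e : ∀ a (y : Pt K n), wt mu (Fin.cons a y) * TT w (Fin.cons a y) ^ 2 =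
          mu a * w a ^ 2 * wt mu y + 2 * (mu a * w a) * (wt mu y * TT w y) +
            mu a * (wt mu y * TT w y ^ 2) := fun a y => by
        rw [hw, hT]; ring
      simp only [e, sum_add_distrib, ← mul_sum, ← sum_mul, h0, h1, h2, hsum]
      push_cast
      ring

theorem clip_tail (s v : ℝ) (hs : 0 < s) :
    (v - max (-s) (min s v)) ^ 2 * s ^ 6 ≤ v ^ 8 ∧ |v - max (-s) (min s v)| * s ^ 7 ≤ v ^ 8 := by
  have h8 : (0 : ℝ) ≤ v ^ 8 := Even.pow_nonneg (by decide) v
  rcases le_or_gt |v| s with h | h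
  · obtain ⟨h1, h2⟩ := abs_le.1 h
    rw [min_eq_right h2, max_eq_right h1]
    simp [h8]
  · have hw : |v - max (-s) (min s v)| ≤ |v| := by
      rcases lt_abs.1 h with hv | hv
      · rw [min_eq_left hv.le, max_eq_right (by linarith), abs_of_nonneg (by linarith),
          abs_of_nonneg (by linarith)]
        linarith
      · rw [min_eq_right (by linarith), max_eq_left (by linarith), abs_of_nonpos (by linarith),
          abs_of_nonpos (by linarith)]
        linarith
    have e : v ^ 8 = |v| ^ 8 := (Even.pow_abs (by decide) v).symm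
    constructor
    · rw [e, ← sq_abs (v - _), show |v| ^ 8 = |v| ^ 2 * |v| ^ 6 by ring]
      exact mul_le_mul (pow_le_pow_left₀ (abs_nonneg _) hw 2) (pow_le_pow_left₀ hs.le h.le 6)
        (by positivity) (by positivity)
    · rw [e, show |v| ^ 8 = |v| * |v| ^ 7 by ring]
      exact mul_le_mul hw (pow_le_pow_left₀ hs.le h.le 7) (by positivity) (by positivity)

/-- Cost of clipping the letters at level `A √b`. -/
theorem clip_moment (n : ℕ) (b : ℝ) (mu v : Fin K → ℝ) (hM : Moments K n b mu v) (A : ℝ)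
    (hA : 0 < A) :
    ∑ x : Pt K n, wt mu x *
        TT (fun a => v a - max (-(A * Real.sqrt b)) (min (A * Real.sqrt b) (v a))) x ^ 2 ≤
      (105 / A ^ 6 + 105 ^ 2 * n / A ^ 14) * (n * b) := by
  have hb : 0 < b := lt_of_lt_of_le zero_lt_one hM.b_pos
  set s := A * Real.sqrt b with hs
  have hs0 : 0 < s := mul_pos hA (Real.sqrt_pos.2 hb)
  set w := fun a => v a - max (-s) (min s (v a)) with hw
  have h2 : (∑ a, mu a * w a ^ 2) ≤ 105 * b ^ 4 / s ^ 6 := by
    rw [le_div_iff₀ (by positivity), sum_mul]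
    refine le_trans (sum_le_sum fun a _ => ?_) hM.eighth
    rw [mul_assoc]
    exact mul_le_mul_of_nonneg_left (clip_tail s (v a) hs0).1 (hM.mu_nn a)
  have h1 : |∑ a, mu a * w a| ≤ 105 * b ^ 4 / s ^ 7 := by
    rw [le_div_iff₀ (by positivity)]
    refine le_trans (mul_le_mul_of_nonneg_right (abs_sum_le_sum_abs _ _) (by positivity)) ?_
    rw [sum_mul]
    refine le_trans (sum_le_sum fun a _ => ?_) hM.eighth
    rw [abs_mul, abs_of_nonneg (hM.mu_nn a), mul_assoc]
    exact mul_le_mul_of_nonneg_left (clip_tail s (v a) hs0).2 (hM.mu_nn a)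
  rw [(moment_sum mu w hM.mu_sum n).2]
  have hsq : (∑ a, mu a * w a) ^ 2 ≤ (105 * b ^ 4 / s ^ 7) ^ 2 :=
    sq_le_sq' (abs_le.1 h1).1 (abs_le.1 h1).2
  have hn : (0 : ℝ) ≤ n := Nat.cast_nonneg n
  have e6 : 105 * b ^ 4 / s ^ 6 = 105 / A ^ 6 * b := by
    rw [hs, mul_pow, show Real.sqrt b ^ 6 = (Real.sqrt b ^ 2) ^ 3 by ring, Real.sq_sqrt hb.le]
    field_simp
  have e7 : (105 * b ^ 4 / s ^ 7) ^ 2 = 105 ^ 2 / A ^ 14 * b := by
    rw [hs, mul_pow, div_pow, mul_pow, mul_pow,
      show (Real.sqrt b ^ 7) ^ 2 = (Real.sqrt b ^ 2) ^ 7 by ring, Real.sq_sqrt hb.le]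
    field_simp
  rw [e6] at h2
  rw [e7] at hsq
  calc (n : ℝ) * ∑ a, mu a * w a ^ 2 + n * (n - 1) * (∑ a, mu a * w a) ^ 2
      ≤ n * (105 / A ^ 6 * b) + (n : ℝ) * n * (105 ^ 2 / A ^ 14 * b) := by
        refine add_le_add (mul_le_mul_of_nonneg_left h2 hn) ?_
        refine le_trans (mul_le_mul_of_nonneg_right ?_ (sq_nonneg _))
          (mul_le_mul_of_nonneg_left hsq (mul_nonneg hn hn))
        nlinarith
    _ = _ := by ring

/-- Dropping the large sets in the expansion of a product. -/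
theorem trunc_error {n m : ℕ} (y : Fin n → ℂ) (q : ℝ) (hq : q ≤ 1)
    (hy : ∀ i, ‖y i‖ ≤ q) :
    ‖(∑ S : Finset (Fin n), if S.card + m ≤ n then ∏ i ∈ S, y i else 0) - ∏ i, (1 + y i)‖ ≤
      2 ^ n * q ^ (n - m) := by
  rw [prod_one_add, powerset_univ, ← sum_sub_distrib]
  refine le_trans (norm_sum_le _ _) ?_
  refine le_trans (sum_le_card_nsmul _ _ (q ^ (n - m)) fun S _ => ?_) (le_of_eq (by simp))
  rcases Nat.eq_zero_or_pos n with h0 | h0
  · subst h0
    simp [Subsingleton.elim S ∅]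
    split_ifs <;> simp at *
  have hq0 : 0 ≤ q := le_trans (norm_nonneg _) (hy ⟨0, h0⟩)
  by_cases hS : S.card + m ≤ n
  · simp [hS, pow_nonneg hq0]
  · rw [if_neg hS, zero_sub, norm_neg, norm_prod]
    refine le_trans (prod_le_prod (fun i _ => norm_nonneg _) fun i _ => hy i) ?_
    rw [prod_const]
    exact pow_le_pow_of_le_one hq0 hq (by omega)

end Vale.Agent.P047.KernelAux
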