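import Vale.Agent.P047.WBasic
import Vale.Agent.P047.KernelAux
import Mathlib.Analysis.Real.Pi.Bounds

/-!
The smooth soft rounding of T to K centres.

Proof notes.  u = clip of v at A√b with A = J^16, T' = ∑u; Λ = J^3√(nb); R = 3 J^22; nodes
x_(a,r) = -Λ/2 + (a + (r+1/2)/R) Λ/K, centres z a = -Λ/2 + (a+1/2)Λ/K; M = J^22;
k = cos^(2M)(π(T'-x)/Λ) normalised by (number of nodes)·C(2M,M)/4^M.  The k sum to 1 and
∑ k sin² = 1/(2M+2).  Pointwise ∑ k (T'-x)² ≤ C(Λ²/M + (T-T')² + T^8/Λ^6).  In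
cos^(2M) θ = 4^(-M) ∑_j C(2M,j) cos(2(M-j)θ) each exponential is a product over the coordinates of
χ_i = 1 + (χ_i - 1), |χ_i - 1| ≤ 7/J; drop the sets larger than n - m.  Finally mix with constants.
-/

namespace Vale.Agent.P047

open Finset

namespace KernelAux

/-- A low approximation of a sum of kernels centred at the nodes `x0 r`. -/
theorem exists_low_kker {K n m : ℕ} (M P : ℕ) (u : Fin K → ℝ) (Lam q : ℝ) (N : Finset ℕ)
    (x0 : ℕ → ℝ) (hq0 : 0 ≤ q) (hq : q ≤ 1)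
    (hfreq : ∀ j ≤ 2 * M, ∀ c, |freq M j * Real.pi * u c / Lam| ≤ q) :
    ∃ g : Pt K n → ℝ, IsLow K n m g ∧ ∀ x,
      |g x - ∑ r ∈ N, kker M P (Real.pi * (TT u x - x0 r) / Lam)| ≤
        N.card * ((2 * M + 1) / P) * (2 ^ n * q ^ (n - m)) := by
  let co : ℕ → ℕ → ℂ := fun r j => ((2 * M).choose j : ℂ) / ((P : ℂ) * Nat.centralBinom M) *
    Complex.exp (Complex.I * ((-(freq M j * Real.pi * x0 r / Lam) : ℝ) : ℂ))
  let y : ℕ → Fin K → ℂ := fun j c =>
    Complex.exp (Complex.I * ((freq M j * Real.pi * u c / Lam : ℝ) : ℂ)) - 1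
  let F : Finset (Fin n) → Pt K n → ℝ := fun S x => if S.card + m ≤ n then
    (∑ r ∈ N, ∑ j ∈ range (2 * M + 1), co r j * ∏ i ∈ S, y j (x i)).re else 0
  refine ⟨fun x => ∑ S, F S x, ⟨F, fun S x x' hxx => ?_, fun S hS => ?_, fun x => rfl⟩, fun x => ?_⟩
  · simp only [F]
    split_ifs
    · congr 1
      refine sum_congr rfl fun r _ => sum_congr rfl fun j _ => ?_
      congr 1
      exact prod_congr rfl fun i hi => by rw [hxx i hi]
    · rfl
  · funext x
    simp only [F]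
    rw [if_neg (by omega)]
    rfl
  set low : ℕ → ℂ := fun j =>
    ∑ S : Finset (Fin n), if S.card + m ≤ n then ∏ i ∈ S, y j (x i) else 0 with hlow
  have hg : ∑ S, F S x = (∑ r ∈ N, ∑ j ∈ range (2 * M + 1), co r j * low j).re := by
    simp only [hlow, mul_sum]
    rw [sum_congr rfl fun r _ => sum_comm, sum_comm, Complex.re_sum]
    refine sum_congr rfl fun S _ => ?_
    simp only [F]
    split_ifs <;> simp
  have hk : ∀ r, ((kker M P (Real.pi * (TT u x - x0 r) / Lam) : ℝ) : ℂ) =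
      ∑ j ∈ range (2 * M + 1), co r j * ∏ i, (1 + y j (x i)) := by
    intro r
    rw [kker, Complex.ofReal_div, cos_pow_expand]
    push_cast
    rw [sum_div, sum_div]
    refine sum_congr rfl fun j _ => ?_
    simp only [co, y, add_sub_cancel]
    rw [← Complex.exp_sum, mul_assoc ((_ : ℂ) / _), ← Complex.exp_add]
    have h4 : (4 : ℂ) ^ M ≠ 0 := pow_ne_zero _ (by norm_num)
    have he : Complex.I * ((-(freq M j * Real.pi * x0 r / Lam) : ℝ) : ℂ) +
        ∑ i, Complex.I * ((freq M j * Real.pi * u (x i) / Lam : ℝ) : ℂ) =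
        ((freq M j * (Real.pi * (TT u x - x0 r) / Lam) : ℝ) : ℂ) * Complex.I := by
      rw [← mul_sum, ← mul_add, ← Complex.ofReal_sum, ← Complex.ofReal_add, mul_comm]
      congr 2
      simp only [TT, ← sum_div, ← mul_sum]
      ring
    rw [he]
    push_cast
    field_simp
  have hk' : ∑ r ∈ N, kker M P (Real.pi * (TT u x - x0 r) / Lam) =
      (∑ r ∈ N, ∑ j ∈ range (2 * M + 1), co r j * ∏ i, (1 + y j (x i))).re := by
    rw [← sum_congr rfl fun r _ => hk r, ← Complex.ofReal_sum, Complex.ofReal_re]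
  beta_reduce
  rw [hg, hk', ← Complex.sub_re, ← sum_sub_distrib]
  refine le_trans (Complex.abs_re_le_norm _) (le_trans (norm_sum_le _ _) ?_)
  rw [mul_assoc]
  refine le_trans (sum_le_card_nsmul _ _ ((2 * (M : ℝ) + 1) / P * (2 ^ n * q ^ (n - m)))
    fun r _ => ?_) (le_of_eq (nsmul_eq_mul _ _))
  rw [← sum_sub_distrib]
  refine le_trans (norm_sum_le _ _) ?_
  have hterm : ∀ j ∈ range (2 * M + 1),
      ‖co r j * low j - co r j * ∏ i, (1 + y j (x i))‖ ≤
        ((2 * M).choose j : ℝ) / (P * Nat.centralBinom M) * (2 ^ n * q ^ (n - m)) := by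
    intro j hj
    rw [← mul_sub, norm_mul]
    refine mul_le_mul (le_of_eq ?_) (trunc_error _ q hq fun i => ?_) (norm_nonneg _) (by positivity)
    · simp only [co, norm_mul, norm_div, Complex.norm_natCast, Complex.norm_exp_I_mul_ofReal,
        mul_one]
    · refine le_trans Real.norm_exp_I_mul_ofReal_sub_one_le ?_
      exact hfreq j (Nat.lt_succ_iff.1 (mem_range.1 hj)) _
  refine le_trans (sum_le_sum hterm) ?_
  rw [← sum_mul, ← sum_div]
  refine mul_le_mul_of_nonneg_right ?_ (by positivity)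
  have hcb : (0 : ℝ) < Nat.centralBinom M := Nat.cast_pos.2 (Nat.centralBinom_pos M)
  have hsum : ∑ j ∈ range (2 * M + 1), ((2 * M).choose j : ℝ) = 4 ^ M := by
    rw [← Nat.cast_sum, Nat.sum_range_choose, pow_mul]
    norm_num
  rw [hsum, mul_comm (P : ℝ), ← div_div]
  exact div_le_div_of_nonneg_right (four_pow_div_le M) (Nat.cast_nonneg P)

theorem sum_blocks (K R : ℕ) (f : ℕ → ℝ) :
    ∑ a : Fin K, ∑ r ∈ range R, f (a.val * R + r) = ∑ p ∈ range (K * R), f p := by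
  induction K with
  | zero => simp
  | succ K ih =>
    rw [Fin.sum_univ_castSucc, Nat.succ_mul, sum_range_add, ← ih]
    simp

/-- The node number `p` of `P`. -/
noncomputable def node (Lam : ℝ) (P p : ℕ) : ℝ := -Lam / 2 + ((p : ℝ) + 1 / 2) * Lam / P

/-- The centre number `a` of `K`. -/
noncomputable def centre {K : ℕ} (Lam : ℝ) (a : Fin K) : ℝ :=
  -Lam / 2 + ((a : ℝ) + 1 / 2) * Lam / K

theorem abs_node_le (Lam : ℝ) (P p : ℕ) (hL : 0 < Lam) (hp : p < P) :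
    |node Lam P p| ≤ Lam / 2 := by
  have hP : (0 : ℝ) < P := Nat.cast_pos.2 (by omega)
  have hp' : (p : ℝ) + 1 ≤ P := by exact_mod_cast hp
  have h1 : ((p : ℝ) + 1 / 2) * Lam / P ≤ Lam := by
    rw [div_le_iff₀ hP]
    nlinarith
  have h2 : 0 ≤ ((p : ℝ) + 1 / 2) * Lam / P := by positivity
  rw [node, abs_le]
  constructor <;> linarith

theorem abs_centre_le {K : ℕ} (Lam : ℝ) (a : Fin K) (hL : 0 < Lam) :
    |centre Lam a| ≤ Lam / 2 :=
  abs_node_le Lam K a.val hL a.isLt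

theorem node_centre {K : ℕ} (Lam : ℝ) (R r : ℕ) (a : Fin K) (hL : 0 < Lam) (hr : r < R) :
    |node Lam (K * R) (a.val * R + r) - centre Lam a| ≤ Lam / (2 * K) := by
  have hK : (0 : ℝ) < K := Nat.cast_pos.2 a.pos
  have hR : (0 : ℝ) < R := Nat.cast_pos.2 (by omega)
  have hr' : (r : ℝ) + 1 ≤ R := by exact_mod_cast hr
  have e : node Lam (K * R) (a.val * R + r) - centre Lam a =
      Lam / (2 * K) * ((2 * (r : ℝ) + 1) / R - 1) := by
    simp only [node, centre]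
    push_cast
    field_simp
    ring
  rw [e, abs_mul, abs_of_nonneg (by positivity)]
  refine mul_le_of_le_one_right (by positivity) (abs_le.2 ⟨?_, ?_⟩)
  · have : 0 ≤ (2 * (r : ℝ) + 1) / R := by positivity
    linarith
  · rw [sub_le_iff_le_add, div_le_iff₀ hR]
    linarith

/-- The pointwise cost of the exact kernel. -/
theorem kker_cost {K : ℕ} (M R : ℕ) (hK : 0 < K) (hMP : M + 1 < K * R) (Lam T T' : ℝ) (hL : 0 < Lam) :
    ∑ a : Fin K, (∑ r ∈ range R,
        kker M (K * R) (Real.pi * (T' - node Lam (K * R) (a.val * R + r)) / Lam)) = 1 ∧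
    ∑ a : Fin K, (∑ r ∈ range R,
        kker M (K * R) (Real.pi * (T' - node Lam (K * R) (a.val * R + r)) / Lam)) *
          (T - centre Lam a) ^ 2 ≤
      8 * Lam ^ 2 / (2 * M + 2) + Lam ^ 2 / (2 * (K : ℝ) ^ 2) + 148 * (T - T') ^ 2 +
        72 * 8 ^ 6 * (T ^ 8 / Lam ^ 6) := by
  set φ := Real.pi * (T' + Lam / 2 - Lam / (2 * ((K * R : ℕ) : ℝ))) / Lam with hφ
  set θ : ℕ → ℝ := fun p => Real.pi * (T' - node Lam (K * R) p) / Lam with hθdef
  have hKR : (0 : ℝ) < ((K * R : ℕ) : ℝ) := Nat.cast_pos.2 (by omega)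
  have hθ : ∀ p : ℕ, θ p = φ - Real.pi * p / ((K * R : ℕ) : ℝ) := fun p => by
    simp only [hθdef, hφ, node]
    field_simp
    ring
  have h1 : ∑ p ∈ range (K * R), kker M (K * R) (θ p) = 1 := by
    simp only [hθ]
    exact sum_kker M (K * R) (by omega) φ
  have h2 : ∑ p ∈ range (K * R), kker M (K * R) (θ p) * Real.sin (θ p) ^ 2 =
      1 / (2 * M + 2) := by
    simp only [hθ]
    exact sum_kker_sin_sq M (K * R) hMP φ
  refine ⟨(sum_blocks K R fun p => kker M (K * R) (θ p)).trans h1, ?_⟩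
  set cst := Lam ^ 2 / (2 * (K : ℝ) ^ 2) + 148 * (T - T') ^ 2 + 72 * 8 ^ 6 * (T ^ 8 / Lam ^ 6)
    with hcst
  have hnode : ∀ a : Fin K, ∀ r ∈ range R,
      kker M (K * R) (θ (a.val * R + r)) * (T - centre Lam a) ^ 2 ≤
        8 * Lam ^ 2 * (kker M (K * R) (θ (a.val * R + r)) * Real.sin (θ (a.val * R + r)) ^ 2) +
          cst * kker M (K * R) (θ (a.val * R + r)) := by
    intro a r hr
    have hp : a.val * R + r < K * R := by
      have h3 : (a.val + 1) * R ≤ K * R := Nat.mul_le_mul_right R a.isLt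
      rw [Nat.succ_mul] at h3
      have := mem_range.1 hr
      omega
    have h4 := node_sq_le Lam T T' _ hL (abs_node_le Lam (K * R) _ hL hp)
    have h5 := sq_le_sq' (abs_le.1 (node_centre Lam R r a hL (mem_range.1 hr))).1
      (abs_le.1 (node_centre Lam R r a hL (mem_range.1 hr))).2
    set z := centre Lam a
    set xp := node Lam (K * R) (a.val * R + r)
    have h6 : (T - z) ^ 2 ≤ 4 * (T - T') ^ 2 + 4 * (T' - xp) ^ 2 + 2 * (xp - z) ^ 2 := by
      nlinarith [sq_nonneg (T - T' - (T' - xp)), sq_nonneg (T - xp - (xp - z))]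
    have h7 : (Lam / (2 * (K : ℝ))) ^ 2 = Lam ^ 2 / (2 * (K : ℝ) ^ 2) / 2 := by
      field_simp
    rw [h7] at h5
    have h8 : (T - z) ^ 2 ≤ 8 * Lam ^ 2 * Real.sin (θ (a.val * R + r)) ^ 2 + cst := by
      simp only [hθdef]
      rw [hcst]
      linarith
    calc _ ≤ kker M (K * R) (θ (a.val * R + r)) *
          (8 * Lam ^ 2 * Real.sin (θ (a.val * R + r)) ^ 2 + cst) :=
          mul_le_mul_of_nonneg_left h8 (kker_nonneg _ _ _)
      _ = _ := by ring
  change ∑ a : Fin K, (∑ r ∈ range R, kker M (K * R) (θ (a.val * R + r))) * _ ≤ _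
  simp only [sum_mul]
  refine le_trans (sum_le_sum fun a _ => sum_le_sum (hnode a)) (le_of_eq ?_)
  rw [sum_blocks K R fun p =>
    8 * Lam ^ 2 * (kker M (K * R) (θ p) * Real.sin (θ p) ^ 2) + cst * kker M (K * R) (θ p),
    sum_add_distrib, ← mul_sum, ← mul_sum, h1, h2, hcst]
  ring

/-- Low soft assignment close to an exact kernel. -/
theorem exists_soft {K n m : ℕ} (hK : 0 < K) (hmn : m ≤ n) (k : Pt K n → Fin K → ℝ)
    (hk0 : ∀ x a, 0 ≤ k x a) (hksum : ∀ x, ∑ a, k x a = 1) (g : Fin K → Pt K n → ℝ)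
    (hglow : ∀ a, IsLow K n m (g a)) (ε d : ℝ) (hε : 0 ≤ ε) (herr : ∀ a x, |g a x - k x a| ≤ ε)
    (hed : (K : ℝ) * ε ≤ d / 4) (hd : 0 < d) (hKd : (K : ℝ) * d ≤ 1) :
    ∃ h : Pt K n → Fin K → ℝ, (∀ x a, d / 4 ≤ h x a) ∧ (∀ x, ∑ a, h x a = 1) ∧
      (∀ a, IsLow K n m (fun x => h x a)) ∧
      ∀ x a, h x a ≤ k x a + ((K : ℝ) * ε + d) := by
  obtain ⟨a0⟩ : Nonempty (Fin K) := ⟨⟨0, hK⟩⟩
  have hK1 : (1 : ℝ) ≤ K := Nat.one_le_cast.2 hK
  set gg : Fin K → Pt K n → ℝ := fun a =>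
    if a = a0 then fun x => 1 - ∑ c ∈ univ.erase a0, g c x else g a with hgg
  have hggsum : ∀ x, ∑ a, gg a x = 1 := fun x => by
    rw [← add_sum_erase univ _ (mem_univ a0),
      sum_congr rfl (g := fun c => g c x) fun c hc => by simp [hgg, (mem_erase.1 hc).1]]
    simp [hgg]
  have hggerr : ∀ a x, |gg a x - k x a| ≤ (K : ℝ) * ε := by
    intro a x
    by_cases h : a = a0
    · subst h
      have h0 := hksum x
      rw [← add_sum_erase univ _ (mem_univ a)] at h0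
      have e0 : gg a x - k x a = -∑ c ∈ univ.erase a, (g c x - k x c) := by
        simp only [hgg, if_true, sum_sub_distrib]
        linarith
      rw [e0, abs_neg]
      refine le_trans (abs_sum_le_sum_abs _ _) (le_trans (sum_le_sum fun c _ => herr c x) ?_)
      rw [sum_const, nsmul_eq_mul]
      refine mul_le_mul_of_nonneg_right ?_ hε
      exact_mod_cast le_trans card_erase_le (le_of_eq (card_fin K))
    · simp only [hgg, if_neg h]
      exact le_trans (herr a x) (le_mul_of_one_le_left hε hK1)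
  have hgglow : ∀ a, IsLow K n m (gg a) := by
    intro a
    simp only [hgg]
    split_ifs
    · have : (fun x => 1 - ∑ c ∈ univ.erase a0, g c x) =
          (fun _ => (1 : ℝ)) + (-1 : ℝ) • ∑ c ∈ univ.erase a0, g c := by
        funext x
        simp only [Pi.add_apply, Pi.smul_apply, Finset.sum_apply, smul_eq_mul]
        ring
      rw [this]
      exact isLow_add (isLow_const hmn 1) (isLow_smul _ (isLow_sum _ _ fun c _ => hglow c))
    · exact hglow a
  have hden : (1 : ℝ) ≤ 1 + K * d := le_add_of_nonneg_right (mul_nonneg (by linarith) hd.le)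
  have hlo : ∀ x a, 3 * d / 4 ≤ gg a x + d := fun x a => by
    linarith [(abs_le.1 (hggerr a x)).1, hk0 x a]
  refine ⟨fun x a => (gg a x + d) / (1 + K * d), fun x a => ?_, fun x => ?_, fun a => ?_,
    fun x a => ?_⟩
  · rw [le_div_iff₀ (by linarith)]
    nlinarith [hlo x a]
  · simp only [← sum_div, sum_add_distrib, hggsum, sum_const, card_fin, nsmul_eq_mul]
    exact div_self (by linarith)
  · have : (fun x => (gg a x + d) / (1 + K * d)) = (1 / (1 + K * d)) • (gg a + fun _ => d) := by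
      funext x
      simp only [Pi.smul_apply, Pi.add_apply, smul_eq_mul]
      ring
    rw [this]
    exact isLow_smul _ (isLow_add (hgglow a) (isLow_const hmn d))
  · refine le_trans (div_le_self (by linarith [hlo x a]) hden) ?_
    linarith [(abs_le.1 (hggerr a x)).2]

/-- The crude total cost. -/
theorem total_cost_le {K n : ℕ} (b : ℝ) (mu v : Fin K → ℝ) (hM : Moments K n b mu v) (Lam : ℝ)
    (hL : 0 < Lam) (hL2 : n * b ≤ Lam ^ 2) :
    ∑ x : Pt K n, wt mu x * ∑ a : Fin K, (TT v x - centre Lam a) ^ 2 ≤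
      3 * (K : ℝ) * Lam ^ 2 := by
  have hpt : ∀ x : Pt K n, wt mu x * ∑ a : Fin K, (TT v x - centre Lam a) ^ 2 ≤
      2 * K * (wt mu x * TT v x ^ 2) + K * (Lam ^ 2 / 2) * wt mu x := fun x => by
    have h : ∑ a : Fin K, (TT v x - centre Lam a) ^ 2 ≤ K * (2 * TT v x ^ 2 + Lam ^ 2 / 2) := by
      refine le_trans (sum_le_card_nsmul _ _ (2 * TT v x ^ 2 + Lam ^ 2 / 2) fun a _ => ?_)
        (le_of_eq (by rw [card_univ, Fintype.card_fin, nsmul_eq_mul]))
      have hc := sq_le_sq' (abs_le.1 (abs_centre_le Lam a hL)).1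
        (abs_le.1 (abs_centre_le Lam a hL)).2
      nlinarith [sq_nonneg (TT v x + centre Lam a)]
    refine le_trans (mul_le_mul_of_nonneg_left h (prod_nonneg fun i _ => hM.mu_nn _)) (le_of_eq ?_)
    ring
  refine le_trans (sum_le_sum fun x _ => hpt x) ?_
  rw [sum_add_distrib, ← mul_sum, ← mul_sum, sum_wt mu hM.mu_sum n, mul_one]
  have h2 := mul_le_mul_of_nonneg_left (hM.second_sum.trans hL2) (Nat.cast_nonneg (α := ℝ) K)
  have h3 : 0 ≤ (K : ℝ) * Lam ^ 2 := by positivity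
  linarith

/-- The cost of a soft assignment below a kernel plus a constant. -/
theorem soft_cost_le {K n : ℕ} (mu v u z : Fin K → ℝ) (k h : Pt K n → Fin K → ℝ)
    (hwt : ∀ x : Pt K n, 0 ≤ wt mu x) (hwsum : ∑ x : Pt K n, wt mu x = 1) (c0 c1 c2 e : ℝ)
    (hle : ∀ x a, h x a ≤ k x a + e)
    (hk : ∀ x, ∑ a, k x a * (TT v x - z a) ^ 2 ≤
      c0 + c1 * TT u x ^ 2 + c2 * TT v x ^ 8) :
    ∑ x : Pt K n, wt mu x * ∑ a, h x a * (TT v x - z a) ^ 2 ≤
      c0 + c1 * ∑ x : Pt K n, wt mu x * TT u x ^ 2 + c2 * ∑ x : Pt K n, wt mu x * TT v x ^ 8 +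
        e * ∑ x : Pt K n, wt mu x * ∑ a, (TT v x - z a) ^ 2 := by
  have hpt : ∀ x, wt mu x * ∑ a, h x a * (TT v x - z a) ^ 2 ≤
      c0 * wt mu x + c1 * (wt mu x * TT u x ^ 2) + c2 * (wt mu x * TT v x ^ 8) +
        e * (wt mu x * ∑ a, (TT v x - z a) ^ 2) := fun x => by
    have h1 : ∑ a, h x a * (TT v x - z a) ^ 2 ≤
        c0 + c1 * TT u x ^ 2 + c2 * TT v x ^ 8 + e * ∑ a, (TT v x - z a) ^ 2 := by
      refine le_trans (sum_le_sum fun a _ => mul_le_mul_of_nonneg_right (hle x a) (sq_nonneg _)) ?_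
      simp only [add_mul, sum_add_distrib, ← mul_sum]
      linarith [hk x]
    refine le_trans (mul_le_mul_of_nonneg_left h1 (hwt x)) (le_of_eq ?_)
    ring
  refine le_trans (sum_le_sum fun x _ => hpt x) (le_of_eq ?_)
  rw [sum_add_distrib, sum_add_distrib, sum_add_distrib, ← mul_sum, ← mul_sum, ← mul_sum,
    ← mul_sum, hwsum, mul_one]

theorem num1 (J b : ℝ) (hJ : 1 ≤ J) (hb : 0 ≤ b) :
    8 * (J ^ 86 * b) / (2 * J ^ 22 + 2) + J ^ 86 * b / (2 * (J ^ 10) ^ 2) ≤ 5 * (J ^ 66 * b) := by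
  have hJ0 : 0 < J := lt_of_lt_of_le one_pos hJ
  have h1 : 8 * (J ^ 86 * b) / (2 * J ^ 22 + 2) ≤ 4 * (J ^ 66 * b) := by
    calc 8 * (J ^ 86 * b) / (2 * J ^ 22 + 2) ≤ 8 * (J ^ 86 * b) / (2 * J ^ 22) :=
          div_le_div_of_nonneg_left (by positivity) (by positivity) (by linarith)
      _ = 4 * (J ^ 64 * b) := by field_simp; ring
      _ ≤ _ := mul_le_mul_of_nonneg_left
          (mul_le_mul_of_nonneg_right (pow_le_pow_right₀ hJ (by norm_num)) hb) (by norm_num)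
  have h2 : J ^ 86 * b / (2 * (J ^ 10) ^ 2) = J ^ 66 * b / 2 := by
    rw [div_eq_div_iff (by positivity) two_ne_zero]
    ring
  have h3 : 0 ≤ J ^ 66 * b := mul_nonneg (pow_nonneg hJ0.le _) hb
  linarith

theorem num2 (J b : ℝ) (hJ : 1 ≤ J) (hb : 0 ≤ b) :
    (105 / (J ^ 16) ^ 6 + 105 ^ 2 * J ^ 80 / (J ^ 16) ^ 14) * (J ^ 80 * b) ≤
      11130 * (J ^ 66 * b) := by
  have hJ0 : 0 < J := lt_of_lt_of_le one_pos hJ
  have h6 : 105 / (J ^ 16) ^ 6 ≤ 105 / J ^ 14 :=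
    div_le_div_of_nonneg_left (by norm_num) (by positivity)
      (by rw [← pow_mul]; exact pow_le_pow_right₀ hJ (by norm_num))
  have h14 : 105 ^ 2 * J ^ 80 / (J ^ 16) ^ 14 ≤ 105 ^ 2 / J ^ 14 := by
    rw [div_le_div_iff₀ (by positivity) (by positivity), mul_assoc, ← pow_add, ← pow_mul]
    exact mul_le_mul_of_nonneg_left (pow_le_pow_right₀ hJ (by norm_num)) (by norm_num)
  calc _ ≤ (105 / J ^ 14 + 105 ^ 2 / J ^ 14) * (J ^ 80 * b) :=
        mul_le_mul_of_nonneg_right (add_le_add h6 h14) (by positivity)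
    _ = 11130 * (J ^ 66 * b) := by field_simp; ring

theorem num3 (J b : ℝ) (hJ : 1 ≤ J) (hb : 0 < b) :
    1 / (J ^ 86 * b) ^ 3 * (105 * (J ^ 80 * b) ^ 4) ≤ 105 * (J ^ 66 * b) := by
  have hJ0 : 0 < J := lt_of_lt_of_le one_pos hJ
  calc 1 / (J ^ 86 * b) ^ 3 * (105 * (J ^ 80 * b) ^ 4) = 105 * (J ^ 62 * b) := by field_simp
    _ ≤ _ := mul_le_mul_of_nonneg_left
        (mul_le_mul_of_nonneg_right (pow_le_pow_right₀ hJ (by norm_num)) hb.le) (by norm_num)

end KernelAux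

open KernelAux

theorem exists_kernel : ∃ C : ℝ, ∃ J0 : ℕ, 0 ≤ C ∧ ∀ J : ℕ, J0 ≤ J →
    ∀ K n m : ℕ, K = J ^ 10 → n = J ^ 80 → m = J ^ 69 →
    ∀ (b : ℝ) (mu v : Fin K → ℝ), Moments K n b mu v →
    ∃ (z : Fin K → ℝ) (h : Pt K n → Fin K → ℝ),
      (∀ x a, 1 / (J : ℝ) ^ 50 ≤ h x a) ∧ (∀ x, ∑ a, h x a = 1) ∧
      (∀ a, IsLow K n m (fun x => h x a)) ∧
      (∑ x : Pt K n, wt mu x * ∑ a, h x a * (TT v x - z a) ^ 2 ≤ C / (J : ℝ) ^ 14 * n * b) ∧
      (∑ x : Pt K n, wt mu x * ∑ a, (TT v x - z a) ^ 2 ≤ C * (K : ℝ) * (J : ℝ) ^ 6 * n * b) := by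
  refine ⟨2000000000, 112, by norm_num, fun J hJ K n m hKe hne hme b mu v hM => ?_⟩
  have hJ1 : 1 ≤ J := by omega
  have hJr : (1 : ℝ) ≤ J := Nat.one_le_cast.2 hJ1
  have hJ0 : (0 : ℝ) < J := by linarith
  have hJ112 : (112 : ℝ) ≤ J := Nat.ofNat_le_cast.2 hJ
  have hb : 0 < b := lt_of_lt_of_le zero_lt_one hM.b_pos
  have hKr : (K : ℝ) = (J : ℝ) ^ 10 := by rw [hKe, Nat.cast_pow]
  have hnr : (n : ℝ) = (J : ℝ) ^ 80 := by rw [hne, Nat.cast_pow]
  have hK0 : 0 < K := by rw [hKe]; exact Nat.pow_pos hJ1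
  have hKpos : (0 : ℝ) < K := Nat.cast_pos.2 hK0
  have hmn : 2 * m ≤ n := by
    rw [hne, hme]
    calc 2 * J ^ 69 ≤ J * J ^ 69 := Nat.mul_le_mul_right _ (by omega)
      _ = J ^ 70 := by ring
      _ ≤ J ^ 80 := Nat.pow_le_pow_right hJ1 (by omega)
  obtain ⟨M, hMe⟩ : ∃ M, M = J ^ 22 := ⟨_, rfl⟩
  obtain ⟨R, hRe⟩ : ∃ R, R = 3 * J ^ 22 := ⟨_, rfl⟩
  have hMr : (M : ℝ) = (J : ℝ) ^ 22 := by rw [hMe, Nat.cast_pow]
  have hM1 : 1 ≤ M := by rw [hMe]; exact Nat.pow_pos hJ1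
  have hR0 : (0 : ℝ) < R := by
    refine Nat.cast_pos.2 ?_
    rw [hRe, ← hMe]
    omega
  have hMP : M + 1 < K * R := by
    have : R ≤ K * R := Nat.le_mul_of_pos_left R hK0
    rw [hRe, ← hMe] at this ⊢
    omega
  set rb := Real.sqrt b with hrb
  have hrb0 : 0 < rb := Real.sqrt_pos.2 hb
  have hrb2 : rb ^ 2 = b := Real.sq_sqrt hb.le
  set s := (J : ℝ) ^ 16 * rb with hs
  set Lam := (J : ℝ) ^ 43 * rb with hLam
  have hL : 0 < Lam := by positivity
  have hL2 : Lam ^ 2 = (J : ℝ) ^ 86 * b := by rw [hLam, mul_pow, hrb2]; ring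
  set u : Fin K → ℝ := fun c => max (-s) (min s (v c)) with hu
  set q := 7 / (J : ℝ) with hqdef
  have hq0 : 0 ≤ q := by positivity
  have hq16 : q ≤ 1 / 16 := by
    rw [hqdef, div_le_iff₀ hJ0]
    linarith
  have hfreq : ∀ j ≤ 2 * M, ∀ c, |freq M j * Real.pi * u c / Lam| ≤ q := by
    intro j hj c
    have hu' : |u c| ≤ s := abs_le.2 ⟨le_max_left _ _,
      max_le (neg_le_self (by positivity)) (min_le_left _ _)⟩
    have hf : |freq M j| ≤ 2 * M := by
      have : (j : ℝ) ≤ 2 * M := by exact_mod_cast hj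
      have h0 : (0 : ℝ) ≤ j := Nat.cast_nonneg j
      rw [freq, abs_le]
      constructor <;> linarith
    rw [abs_div, abs_mul, abs_mul, abs_of_pos Real.pi_pos, abs_of_pos hL]
    calc |freq M j| * Real.pi * |u c| / Lam ≤ 2 * M * Real.pi * s / Lam := by gcongr
      _ = 2 * Real.pi / (J : ℝ) ^ 5 := by rw [hMr, hs, hLam]; field_simp
      _ ≤ 7 / (J : ℝ) ^ 5 := by
          gcongr
          linarith [Real.pi_lt_d2]
      _ ≤ q := div_le_div_of_nonneg_left (by norm_num) hJ0 (le_self_pow₀ hJr (by norm_num))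
  set k : Pt K n → Fin K → ℝ := fun x a => ∑ r ∈ range R,
    kker M (K * R) (Real.pi * (TT u x - node Lam (K * R) (a.val * R + r)) / Lam) with hk
  set ε1 := (R : ℝ) * ((2 * M + 1) / ((K * R : ℕ) : ℝ)) * (2 ^ n * q ^ (n - m)) with hε1
  have hg : ∀ a : Fin K, ∃ g : Pt K n → ℝ, IsLow K n m g ∧ ∀ x, |g x - k x a| ≤ ε1 := fun a => by
    obtain ⟨g, h1, h2⟩ := exists_low_kker (n := n) (m := m) M (K * R) u Lam q (range R)
      (fun r => node Lam (K * R) (a.val * R + r)) hq0 (by linarith) hfreq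
    refine ⟨g, h1, fun x => ?_⟩
    simpa [hk, hε1] using h2 x
  choose g hglow hgerr using hg
  have hε0 : 0 ≤ ε1 := by positivity
  have he : (K : ℝ) * ε1 ≤ 1 / (J : ℝ) ^ 50 := by
    have hpow : (2 : ℝ) ^ n * q ^ (n - m) ≤ 1 / 2 ^ n := by
      have h2nm : n ≤ 2 * (n - m) := by omega
      calc (2 : ℝ) ^ n * q ^ (n - m) ≤ 2 ^ n * (1 / 16) ^ (n - m) := by gcongr
        _ = 2 ^ n * (1 / 4) ^ (2 * (n - m)) := by rw [pow_mul]; norm_num
        _ ≤ 2 ^ n * (1 / 4) ^ n := by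
            exact mul_le_mul_of_nonneg_left
              (pow_le_pow_of_le_one (by norm_num) (by norm_num) h2nm) (by positivity)
        _ = 1 / 2 ^ n := by
            rw [← mul_pow, one_div (2 ^ n : ℝ), ← inv_pow]
            norm_num
    have e : (K : ℝ) * ε1 = (2 * M + 1) * (2 ^ n * q ^ (n - m)) := by
      rw [hε1]
      push_cast
      field_simp
    rw [e]
    refine le_trans (mul_le_mul_of_nonneg_left hpow (by positivity)) ?_
    rw [mul_one_div, div_le_div_iff₀ (by positivity) (by positivity), one_mul, hMr]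
    have hbig : 3 * (J : ℝ) ^ 72 ≤ (n : ℝ) := by
      rw [hnr]
      calc 3 * (J : ℝ) ^ 72 ≤ (J : ℝ) * (J : ℝ) ^ 72 :=
            mul_le_mul_of_nonneg_right (by linarith) (by positivity)
        _ = (J : ℝ) ^ 73 := by ring
        _ ≤ _ := pow_le_pow_right₀ hJr (by norm_num)
    have h2n : (n : ℝ) ≤ 2 ^ n := by exact_mod_cast (Nat.lt_two_pow_self (n := n)).le
    have h22 : (1 : ℝ) ≤ (J : ℝ) ^ 22 := one_le_pow₀ hJr
    calc (2 * (J : ℝ) ^ 22 + 1) * (J : ℝ) ^ 50 ≤ 3 * (J : ℝ) ^ 22 * (J : ℝ) ^ 50 :=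
          mul_le_mul_of_nonneg_right (by linarith) (by positivity)
      _ = 3 * (J : ℝ) ^ 72 := by ring
      _ ≤ _ := le_trans hbig h2n
  set d := 4 / (J : ℝ) ^ 50 with hd
  have hd4 : d / 4 = 1 / (J : ℝ) ^ 50 := by rw [hd]; ring
  have hKd : (K : ℝ) * d ≤ 1 := by
    rw [hKr, hd, mul_div_assoc', div_le_one (by positivity)]
    calc (J : ℝ) ^ 10 * 4 ≤ (J : ℝ) ^ 10 * (J : ℝ) ^ 40 := by
          refine mul_le_mul_of_nonneg_left ?_ (by positivity)
          linarith [le_self_pow₀ hJr (show (40 : ℕ) ≠ 0 by norm_num)]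
      _ = _ := by ring
  obtain ⟨h, hlo, hsum, hlow, hle⟩ := exists_soft hK0 (by omega) k
    (fun x a => sum_nonneg fun r _ => kker_nonneg _ _ _)
    (fun x => (kker_cost M R hK0 hMP Lam 0 (TT u x) hL).1) g hglow ε1 d hε0 hgerr
    (hd4 ▸ he) (by positivity) hKd
  have hnb : (n : ℝ) * b ≤ Lam ^ 2 := by
    rw [hL2, hnr]
    exact mul_le_mul_of_nonneg_right (pow_le_pow_right₀ hJr (by norm_num)) hb.le
  have hS1 := total_cost_le b mu v hM Lam hL hnb
  refine ⟨centre Lam, h, fun x a => hd4 ▸ hlo x a, hsum, hlow, ?_, ?_⟩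
  · set w : Fin K → ℝ := fun c => v c - max (-s) (min s (v c)) with hw
    refine le_trans (soft_cost_le mu v w (centre Lam) k h
      (fun x => prod_nonneg fun i _ => hM.mu_nn _) (sum_wt mu hM.mu_sum n)
      (8 * Lam ^ 2 / (2 * M + 2) + Lam ^ 2 / (2 * (K : ℝ) ^ 2)) 148 (72 * 8 ^ 6 * (1 / Lam ^ 6))
      ((K : ℝ) * ε1 + d) hle fun x => ?_) ?_
    · refine le_trans (kker_cost M R hK0 hMP Lam (TT v x) (TT u x) hL).2 (le_of_eq ?_)
      have hD : TT v x - TT u x = TT w x := by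
        simp only [TT, hw, hu, sum_sub_distrib]
      rw [hD]
      ring
    have t1 := num1 (J : ℝ) b hJr hb.le
    rw [← hL2, ← hKr, ← hMr] at t1
    have t3 : ∑ x : Pt K n, wt mu x * TT w x ^ 2 ≤ 11130 * ((J : ℝ) ^ 66 * b) := by
      refine le_trans (clip_moment n b mu v hM ((J : ℝ) ^ 16) (by positivity)) ?_
      rw [hnr]
      exact num2 (J : ℝ) b hJr hb.le
    have t4 : 1 / Lam ^ 6 * ∑ x : Pt K n, wt mu x * TT v x ^ 8 ≤ 105 * ((J : ℝ) ^ 66 * b) := by
      refine le_trans (mul_le_mul_of_nonneg_left hM.eighth_sum (by positivity)) ?_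
      rw [show Lam ^ 6 = (Lam ^ 2) ^ 3 by rw [← pow_mul], hL2, hnr]
      exact num3 (J : ℝ) b hJr hb
    have t5 : ((K : ℝ) * ε1 + d) *
        ∑ x : Pt K n, wt mu x * ∑ a : Fin K, (TT v x - centre Lam a) ^ 2 ≤
        15 * ((J : ℝ) ^ 66 * b) := by
      have hed5 : (K : ℝ) * ε1 + d ≤ 5 / (J : ℝ) ^ 50 := by
        have : 5 / (J : ℝ) ^ 50 = d + d / 4 := by rw [hd]; ring
        linarith [hd4]
      refine le_trans (mul_le_mul hed5 hS1 (sum_nonneg fun x _ =>
        mul_nonneg (prod_nonneg fun i _ => hM.mu_nn _) (sum_nonneg fun a _ => sq_nonneg _))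
        (by positivity)) ?_
      rw [hKr, hL2]
      calc 5 / (J : ℝ) ^ 50 * (3 * (J : ℝ) ^ 10 * ((J : ℝ) ^ 86 * b))
          = 15 * ((J : ℝ) ^ 46 * b) := by field_simp; ring
        _ ≤ _ := mul_le_mul_of_nonneg_left
            (mul_le_mul_of_nonneg_right (pow_le_pow_right₀ hJr (by norm_num)) hb.le) (by norm_num)
    have efin : 2000000000 / (J : ℝ) ^ 14 * n * b = 2000000000 * ((J : ℝ) ^ 66 * b) := by
      rw [hnr]
      field_simp
    rw [efin]
    have hX0 : 0 ≤ (J : ℝ) ^ 66 * b := by positivity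
    linarith
  · refine le_trans hS1 ?_
    rw [hL2, hnr]
    calc 3 * (K : ℝ) * ((J : ℝ) ^ 86 * b) ≤ 2000000000 * (K : ℝ) * ((J : ℝ) ^ 86 * b) :=
          mul_le_mul_of_nonneg_right (mul_le_mul_of_nonneg_right (by norm_num) hKpos.le)
            (by positivity)
      _ = _ := by ring

end Vale.Agent.P047
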