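import Vale.Agent.P047.Defs
import Mathlib.Analysis.SpecialFunctions.Log.Basic
import Mathlib.Data.Nat.Choose.Bounds
import Mathlib.Analysis.Complex.ExponentialBounds

/-!
The numerical conditions for K = J^10, n = J^80, m = J^69, g = J^11, s = K n, T = K s,
Q = J^60 K^2 n ballBd(10m), I = 2 n K, L = 32 K^2, M = exp(n/(16 K)).
All are compared with exp(n/(2K)) = exp(J^70/2); note log J ≤ 2√J.
-/

namespace Vale.Agent.P047

/-- Number of colours used for random planting. -/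
def qPar (J : ℕ) : ℕ :=
  J ^ 60 * (J ^ 10) ^ 2 * J ^ 80 * ballBd (J ^ 10) (J ^ 80) (10 * J ^ 69)

/-- The growth that the threshold absorbs. -/
theorem master_exponent (J : ℕ) (hJ : 10 ^ 10 ≤ J) :
    ((J : ℝ) ^ 91) ^ (40 * J ^ 69) * Real.exp (96 * (J : ℝ) ^ 20 + 3) *
      Real.exp ((J : ℝ) ^ 70 / 16) * Real.exp (2 - (J : ℝ) ^ 70) ≤ 1 := by
  have hJr : (10 : ℝ) ^ 10 ≤ J := by exact_mod_cast hJ
  have hpos : (0 : ℝ) < J := by linarith [show (0 : ℝ) < 10 ^ 10 by norm_num]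
  have hsq : (100000 : ℝ) ≤ Real.sqrt J := by
    rw [Real.le_sqrt (by norm_num) hpos.le]; linarith [show (100000 : ℝ) ^ 2 = 10 ^ 10 by norm_num]
  have hself : Real.sqrt J * Real.sqrt J = J := Real.mul_self_sqrt hpos.le
  have hlog : Real.log J ≤ 2 * Real.sqrt J := by
    have h := Real.log_le_sub_one_of_pos (Real.sqrt_pos.2 hpos)
    rw [Real.log_sqrt hpos.le] at h
    linarith
  have hlogJ : 14560 * Real.log J ≤ J := by
    nlinarith [Real.sqrt_nonneg (J : ℝ)]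
  have e : ((J : ℝ) ^ 91) ^ (40 * J ^ 69) = Real.exp (3640 * (J : ℝ) ^ 69 * Real.log J) := by
    have h : (3640 : ℝ) * (J : ℝ) ^ 69 * Real.log J
        = ((91 * (40 * J ^ 69) : ℕ) : ℝ) * Real.log J := by push_cast; ring
    rw [h, Real.exp_nat_mul, Real.exp_log hpos, ← pow_mul]
  rw [e, ← Real.exp_add, ← Real.exp_add, ← Real.exp_add, Real.exp_le_one_iff]
  have h70 : (J : ℝ) ^ 70 = (J : ℝ) ^ 69 * J := pow_succ _ _
  have h1 : 14560 * ((J : ℝ) ^ 69 * Real.log J) ≤ (J : ℝ) ^ 70 := by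
    rw [h70]
    nlinarith [mul_le_mul_of_nonneg_left hlogJ (pow_nonneg hpos.le 69)]
  have h1one : (1 : ℝ) ≤ J := by linarith [show (1 : ℝ) ≤ 10 ^ 10 by norm_num]
  have h2 : (J : ℝ) ^ 21 ≤ (J : ℝ) ^ 70 := pow_le_pow_right₀ h1one (by norm_num)
  have h3 : (1 : ℝ) ≤ (J : ℝ) ^ 20 := one_le_pow₀ h1one
  have h4 : 1000 * (J : ℝ) ^ 20 ≤ (J : ℝ) ^ 21 := by
    rw [pow_succ (J : ℝ) 20, mul_comm ((J : ℝ) ^ 20)]
    exact mul_le_mul_of_nonneg_right (by linarith [show (1000 : ℝ) ≤ 10 ^ 10 by norm_num])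
      (pow_nonneg hpos.le 20)
  linarith

/-- The threshold is at most a polynomial factor times the exponential decay. -/
theorem fNet_le (K n m : ℕ) (hK : 1 ≤ K) (hn : 1 ≤ n) (ε A : ℝ)
    (hA0 : 0 ≤ A) (hA : 40 * (n : ℝ) * K + Real.log (1 / ε) ≤ A) :
    FNet K n m ε ≤ 400 * (K : ℝ) ^ 2 * n * A / ε ^ 2 * (8 * (K : ℝ) * n) ^ m *
      Real.exp (2 - (n : ℝ) / K) := by
  have hKr : (1 : ℝ) ≤ K := by exact_mod_cast hK
  have hnr : (1 : ℝ) ≤ n := by exact_mod_cast hn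
  have h0 : (0 : ℝ) ≤ 1 - 1 / (K : ℝ) := by
    rw [sub_nonneg, div_le_one (by linarith)]; exact hKr
  have hR0 : (0 : ℝ) ≤ (1 - 1 / (K : ℝ)) * (1 + 5 / (4 * (n : ℝ))) := by positivity
  have hR : ((1 - 1 / (K : ℝ)) * (1 + 5 / (4 * (n : ℝ)))) ^ n ≤ Real.exp (2 - (n : ℝ) / K) := by
    have hb : (1 - 1 / (K : ℝ)) * (1 + 5 / (4 * (n : ℝ))) ≤
        Real.exp (-(1 / (K : ℝ))) * Real.exp (5 / (4 * (n : ℝ))) :=
      mul_le_mul (Real.one_sub_le_exp_neg _) (by linarith [Real.add_one_le_exp (5 / (4 * (n : ℝ)))])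
        (by positivity) (Real.exp_nonneg _)
    refine (pow_le_pow_left₀ hR0 hb n).trans ?_
    rw [← Real.exp_add, ← Real.exp_nat_mul, Real.exp_le_exp]
    have e : (n : ℝ) * (-(1 / (K : ℝ)) + 5 / (4 * (n : ℝ))) = 5 / 4 - (n : ℝ) / K := by
      field_simp; ring
    rw [e]; linarith
  unfold FNet
  refine mul_le_mul ?_ hR (pow_nonneg hR0 n) ?_
  · refine mul_le_mul_of_nonneg_right ?_ (by positivity)
    exact div_le_div_of_nonneg_right (mul_le_mul_of_nonneg_left hA (by positivity)) (sq_nonneg ε)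
  · exact mul_nonneg (div_nonneg (by positivity) (sq_nonneg ε)) (by positivity)

variable {J K n m Q I L : ℕ}

/-- Elementary facts about the parameters. -/
theorem par_facts (hJ : 10 ^ 10 ≤ J) (hK : K = J ^ 10) (hn : n = J ^ 80) :
    K * n = J ^ 90 ∧ J ≤ K ∧ J ≤ n ∧ (10 : ℝ) ^ 10 ≤ J ∧ (1 : ℝ) ≤ K ∧ (1 : ℝ) ≤ n ∧
      (n : ℝ) / K = (J : ℝ) ^ 70 := by
  have hJ1 : 1 ≤ J := le_trans (by norm_num) hJ
  have hKJ : J ≤ K := hK ▸ Nat.le_self_pow (by norm_num) J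
  have hnJ : J ≤ n := hn ▸ Nat.le_self_pow (by norm_num) J
  have hJpos : (0 : ℝ) < J := Nat.cast_pos.2 hJ1
  refine ⟨by rw [hK, hn, ← pow_add], hKJ, hnJ, by exact_mod_cast hJ,
    Nat.one_le_cast.2 (hJ1.trans hKJ), Nat.one_le_cast.2 (hJ1.trans hnJ), ?_⟩
  rw [hn, hK, Nat.cast_pow, Nat.cast_pow, div_eq_iff (by positivity), ← pow_add]

/-- The log term in the threshold is dominated. -/
theorem log_scale_le (c : ℝ) (x i : ℕ) (hc : 1 ≤ c) (hx : 1 ≤ x) :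
    Real.log (1 / (1 / (c * (x : ℝ) ^ i))) ≤ c + i * x := by
  have hx' : (0 : ℝ) < x := Nat.cast_pos.2 hx
  rw [one_div_one_div, Real.log_mul (by linarith) (by positivity), Real.log_pow]
  have h1 := Real.log_le_sub_one_of_pos (show 0 < c by linarith)
  have h2 := Real.log_le_sub_one_of_pos hx'
  nlinarith [(Nat.cast_nonneg i : (0 : ℝ) ≤ i)]

/-- All polynomial factors and the allowed exponential losses are absorbed. -/
theorem budget (hJ : 10 ^ 10 ≤ J) (hK : K = J ^ 10) (hn : n = J ^ 80) (hm : m = J ^ 69)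
    (hQ : Q = qPar J) (hI : I = 2 * n * K) (c E : ℝ) (_hc0 : 0 ≤ c) (hc' : c ≤ 10 ^ 30)
    (hE0 : 0 ≤ E)
    (hE : E ≤ Real.exp (96 * (J : ℝ) ^ 20 + 3) * Real.exp ((n : ℝ) / (16 * K))) :
    0 < (Q : ℝ) * ((I : ℝ) + 1) * ballBd K n (20 * m) ∧
    1 ≤ (Q : ℝ) * ((I : ℝ) + 1) * ballBd K n (20 * m) ∧
    c * ((K : ℝ) ^ 2 * n) * (50 * n * K) * (8 * (K : ℝ) * n) ^ m *
      ((Q : ℝ) * ((I : ℝ) + 1) * ballBd K n (20 * m)) * E * Real.exp (2 - (n : ℝ) / K) ≤ 1 := by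
  obtain ⟨hKn, hKJ, hnJ, hJr, hKr, hnr, hdiv⟩ := par_facts hJ hK hn
  have hJ1 : 1 ≤ J := le_trans (by norm_num) hJ
  have hJpos : (0 : ℝ) < J := Nat.cast_pos.2 hJ1
  have hmJ : J ≤ m := hm ▸ Nat.le_self_pow (by norm_num) J
  have hQ' : Q = J ^ 60 * (K ^ 2 * n) * ballBd K n (10 * m) := by
    rw [hQ, qPar, hK, hn, hm, mul_assoc (J ^ 60)]
  have hQ1 : 1 ≤ Q := by
    rw [hQ']
    exact Nat.mul_pos (Nat.mul_pos (pow_pos (by omega) _) (Nat.mul_pos (pow_pos (by omega) _)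
      (by omega))) (Nat.one_le_pow _ _ (by omega))
  have hone : (1 : ℝ) ≤ (Q : ℝ) * ((I : ℝ) + 1) * ballBd K n (20 * m) := by
    have h : 1 ≤ Q * (I + 1) * ballBd K n (20 * m) :=
      Nat.mul_pos (Nat.mul_pos hQ1 (by omega)) (Nat.one_le_pow _ _ (by omega))
    exact_mod_cast h
  refine ⟨lt_of_lt_of_le one_pos hone, hone, ?_⟩
  obtain ⟨P, hPdef⟩ : ∃ P, P = (J : ℝ) ^ 91 := ⟨_, rfl⟩
  have hJP : (J : ℝ) ≤ P := hPdef ▸ le_self_pow₀ (by linarith) (by norm_num)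
  have hP1 : 1 ≤ P := by linarith
  have hKn90 : (K : ℝ) * n = (J : ℝ) ^ 90 := by exact_mod_cast hKn
  have h8 : 8 * (K : ℝ) * n ≤ P := by
    rw [mul_assoc, hKn90, hPdef, pow_succ' (J : ℝ) 90]
    exact mul_le_mul_of_nonneg_right (by linarith) (pow_nonneg hJpos.le 90)
  have hKn1 : (1 : ℝ) ≤ (K : ℝ) * n := by nlinarith
  have hbd : ∀ r, (ballBd K n r : ℝ) ≤ P ^ r := by
    intro r
    rw [ballBd]; push_cast
    exact pow_le_pow_left₀ (by positivity) (by nlinarith) r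
  have hQP : (Q : ℝ) ≤ P ^ (2 + 10 * m) := by
    rw [hQ', pow_add, Nat.cast_mul]
    refine mul_le_mul ?_ (hbd _) (Nat.cast_nonneg _) (pow_nonneg (by linarith) _)
    rw [hPdef, hK, hn, ← pow_mul, ← pow_mul, ← pow_add, ← pow_add, Nat.cast_pow]
    exact pow_le_pow_right₀ (by linarith) (by norm_num)
  have hIr : (I : ℝ) = 2 * n * K := by rw [hI]; push_cast; ring
  have hI1 : (I : ℝ) + 1 ≤ 3 * P := by rw [hIr]; nlinarith
  have hKKn : (K : ℝ) ^ 2 * n ≤ P ^ 2 := by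
    have hK8 : (K : ℝ) ≤ P := le_trans (by nlinarith) h8
    calc (K : ℝ) ^ 2 * n = (K : ℝ) * ((K : ℝ) * n) := by ring
      _ ≤ P * P := mul_le_mul hK8 (by nlinarith) (by positivity) (by linarith)
      _ = P ^ 2 := by ring
  have hc : c ≤ P ^ 3 := by
    refine hc'.trans (le_trans ?_ (pow_le_pow_left₀ hJpos.le hJP 3))
    exact le_trans (by norm_num) (pow_le_pow_left₀ (by positivity) hJr 3)
  have hmaster := master_exponent J hJ
  rw [show (J : ℝ) ^ 70 / 16 = (n : ℝ) / (16 * K) by rw [← hdiv, div_div, mul_comm (K : ℝ)],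
    ← hPdef, ← hm, ← hdiv] at hmaster
  have hI0 : (0 : ℝ) ≤ (I : ℝ) + 1 := by positivity
  have h50 : 50 * (n : ℝ) * K ≤ P ^ 2 := by
    have : (50 : ℝ) ≤ P := by linarith [show (50 : ℝ) ≤ 10 ^ 10 by norm_num]
    calc 50 * (n : ℝ) * K = 50 * ((K : ℝ) * n) := by ring
      _ ≤ P * P := mul_le_mul this (by nlinarith) (by positivity) (by linarith)
      _ = P ^ 2 := by ring
  have hI2 : (I : ℝ) + 1 ≤ P ^ 2 := hI1.trans (by
    have : (3 : ℝ) ≤ P := by linarith [show (3 : ℝ) ≤ 10 ^ 10 by norm_num]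
    nlinarith)
  have hpow : P ^ 3 * P ^ 2 * P ^ 2 * P ^ m * (P ^ (2 + 10 * m) * P ^ 2 * P ^ (20 * m))
      ≤ P ^ (40 * m) := by
    simp only [← pow_add]
    exact pow_le_pow_right₀ hP1 (by omega)
  have hleft : c * ((K : ℝ) ^ 2 * n) * (50 * n * K) * (8 * (K : ℝ) * n) ^ m *
      ((Q : ℝ) * ((I : ℝ) + 1) * ballBd K n (20 * m)) ≤ P ^ (40 * m) := by
    refine le_trans ?_ hpow
    refine mul_le_mul ?_ ?_ (by positivity) (by positivity)
    · refine mul_le_mul ?_ (pow_le_pow_left₀ (by positivity) h8 m) (by positivity) (by positivity)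
      exact mul_le_mul (mul_le_mul hc hKKn (by positivity) (by positivity)) h50 (by positivity)
        (by positivity)
    · exact mul_le_mul (mul_le_mul hQP hI2 hI0 (by positivity)) (hbd _) (by positivity)
        (by positivity)
  refine le_trans ?_ hmaster
  refine mul_le_mul_of_nonneg_right ?_ (Real.exp_nonneg _)
  rw [mul_assoc (P ^ (40 * m))]
  exact mul_le_mul hleft hE hE0 (by positivity)

/-- The allowed losses include none at all. -/
theorem loss_one : (1 : ℝ) ≤ Real.exp (96 * (J : ℝ) ^ 20 + 3) * Real.exp ((n : ℝ) / (16 * K)) :=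
  one_le_mul_of_one_le_of_one_le (Real.one_le_exp (by positivity)) (Real.one_le_exp (by positivity))

/-- The threshold after inserting the bound on the log term. -/
theorem fNet_scale (hJ : 10 ^ 10 ≤ J) (hK : K = J ^ 10) (hn : n = J ^ 80) (ε : ℝ)
    (hε : Real.log (1 / ε) ≤ 10 * n * K) :
    FNet K n m ε ≤ 400 * (K : ℝ) ^ 2 * n * (50 * n * K) / ε ^ 2 * (8 * (K : ℝ) * n) ^ m *
      Real.exp (2 - (n : ℝ) / K) := by
  obtain ⟨-, hKJ, hnJ, -, -⟩ := par_facts hJ hK hn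
  have hJ1 : 1 ≤ J := le_trans (by norm_num) hJ
  exact fNet_le K n m (by omega) (by omega) ε (50 * n * K) (by positivity) (by linarith)

/-- The thresholds at the sampling scales. -/
theorem fNet_sampling (hJ : 10 ^ 10 ≤ J) (hK : K = J ^ 10) (hn : n = J ^ 80) (hm : m = J ^ 69)
    (hQ : Q = qPar J) (hI : I = 2 * n * K) (i : ℕ) (hi : i ≤ I) :
    FNet K n m (1 / (16 * 2 ^ i)) ≤ 4 ^ i / (64 * (Q : ℝ) * (I + 1) * ballBd K n (20 * m)) := by
  obtain ⟨hden, -, hs'⟩ := budget hJ hK hn hm hQ hI (400 * 256 * 64) 1 (by norm_num) (by norm_num)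
    zero_le_one loss_one
  obtain ⟨hKn, hKJ, hnJ, hJr, hKr, hnr, hdiv⟩ := par_facts hJ hK hn
  have hbig : (200 : ℝ) ≤ (n : ℝ) * K := by
    nlinarith [show ((J : ℕ) : ℝ) ≤ K by exact_mod_cast hKJ]
  have hε : Real.log (1 / (1 / (16 * (2 : ℝ) ^ i))) ≤ 10 * n * K := by
    refine (by simpa using log_scale_le 16 2 i (by norm_num) (by norm_num) :
      Real.log (1 / (1 / (16 * (2 : ℝ) ^ i))) ≤ 16 + i * 2).trans ?_
    have : (i : ℝ) ≤ 2 * n * K := by rw [hI] at hi; exact_mod_cast hi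
    linarith
  refine (fNet_scale hJ hK hn _ hε).trans ?_
  have h4 : ((2 : ℝ) ^ i) ^ 2 = 4 ^ i := by rw [← pow_mul, mul_comm, pow_mul]; norm_num
  rw [show (64 : ℝ) * Q * (I + 1) * ballBd K n (20 * m)
    = 64 * ((Q : ℝ) * (I + 1) * ballBd K n (20 * m)) by ring,
    le_div_iff₀ (mul_pos (by norm_num) hden)]
  calc _ = 4 ^ i * (400 * 256 * 64 * ((K : ℝ) ^ 2 * n) * (50 * n * K) *
        (8 * (K : ℝ) * n) ^ m * ((Q : ℝ) * ((I : ℝ) + 1) * ballBd K n (20 * m)) * 1 *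
        Real.exp (2 - (n : ℝ) / K)) := by rw [← h4]; field_simp; ring
    _ ≤ 4 ^ i * 1 := mul_le_mul_of_nonneg_left hs' (by positivity)
    _ = 4 ^ i := mul_one _

/-- The threshold at the finest scale. -/
theorem fNet_finest (hJ : 10 ^ 10 ≤ J) (hK : K = J ^ 10) (hn : n = J ^ 80) (hm : m = J ^ 69)
    (hQ : Q = qPar J) (hI : I = 2 * n * K) (hL : L = 32 * K ^ 2) :
    FNet K n m (1 / (8 * 4 ^ (L + 1))) ≤
      (1 / (1024 * (Q : ℝ) * (I + 1) * ballBd K n (20 * m))) /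
        (32 * Real.exp ((n : ℝ) / (16 * K))) := by
  obtain ⟨hKn, hKJ, hnJ, hJr, hKr, hnr, hdiv⟩ := par_facts hJ hK hn
  have hJ1 : 1 ≤ J := le_trans (by norm_num) hJ
  have pow_mono : ∀ a b : ℕ, a ≤ b → J ^ a ≤ J ^ b := fun a b => Nat.pow_le_pow_right hJ1
  have hL' : L = 32 * J ^ 20 := by rw [hL, hK, ← pow_mul]
  have hLI : 4 * L + 12 ≤ 10 * n * K := by
    have h : 32 * J ^ 20 ≤ J * J ^ 20 := Nat.mul_le_mul_right _ (le_trans (by norm_num) hJ)
    have h' : J * J ^ 20 ≤ J ^ 90 := by rw [← pow_succ']; exact pow_mono _ _ (by norm_num)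
    have h'' : J ≤ J ^ 90 := Nat.le_self_pow (by norm_num) J
    rw [mul_assoc, mul_comm n K, hKn, hL']; omega
  have hε : Real.log (1 / (1 / (8 * (4 : ℝ) ^ (L + 1)))) ≤ 10 * n * K := by
    refine (by simpa using log_scale_le 8 4 (L + 1) (by norm_num) (by norm_num) :
      Real.log (1 / (1 / (8 * (4 : ℝ) ^ (L + 1)))) ≤ 8 + ((L : ℝ) + 1) * 4).trans ?_
    have : (4 : ℝ) * L + 12 ≤ 10 * n * K := by exact_mod_cast hLI
    linarith
  refine (fNet_scale hJ hK hn _ hε).trans ?_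
  have hE : ((4 : ℝ) ^ L) ^ 2 * Real.exp ((n : ℝ) / (16 * K)) ≤
      Real.exp (96 * (J : ℝ) ^ 20 + 3) * Real.exp ((n : ℝ) / (16 * K)) := by
    refine mul_le_mul_of_nonneg_right ?_ (Real.exp_nonneg _)
    calc ((4 : ℝ) ^ L) ^ 2 = 16 ^ L := by rw [← pow_mul, mul_comm, pow_mul]; norm_num
      _ ≤ Real.exp 3 ^ L := by
          refine pow_le_pow_left₀ (by norm_num) ?_ L
          have e : Real.exp 3 = Real.exp 1 ^ 3 := by rw [← Real.exp_nat_mul]; norm_num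
          rw [e]
          exact le_trans (by norm_num) (pow_le_pow_left₀ (by norm_num) (le_of_lt Real.exp_one_gt_d9) 3)
      _ = Real.exp (L * 3) := by rw [← Real.exp_nat_mul]
      _ ≤ _ := by rw [Real.exp_le_exp, hL']; push_cast; linarith
  obtain ⟨hden, -, hs'⟩ := budget hJ hK hn hm hQ hI (400 * 1024 * 1024 * 32) _ (by norm_num)
    (by norm_num) (by positivity) hE
  rw [div_div, one_div, ← one_div, le_div_iff₀ (by
    have := Real.exp_pos ((n : ℝ) / (16 * K))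
    rw [show (1024 : ℝ) * Q * (I + 1) * ballBd K n (20 * m)
      = 1024 * ((Q : ℝ) * (I + 1) * ballBd K n (20 * m)) by ring]
    positivity)]
  refine le_trans (le_of_eq ?_) hs'
  rw [pow_succ (4 : ℝ) L]
  field_simp
  ring

/-- The threshold at the coarse scale. -/
theorem fNet_coarse (hJ : 10 ^ 10 ≤ J) (hK : K = J ^ 10) (hn : n = J ^ 80) (hm : m = J ^ 69) :
    FNet K n m (1 / 8) ≤ 1 := by
  obtain ⟨hKn, hKJ, hnJ, hJr, hKr, hnr, hdiv⟩ := par_facts hJ hK hn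
  obtain ⟨-, h1, hs'⟩ := budget (Q := qPar J) (I := 2 * n * K) hJ hK hn hm rfl rfl (400 * 64) 1
    (by norm_num) (by norm_num) zero_le_one loss_one
  have hε : Real.log (1 / (1 / (8 : ℝ))) ≤ 10 * n * K := by
    rw [one_div_one_div]
    nlinarith [Real.log_le_sub_one_of_pos (show (0 : ℝ) < 8 by norm_num)]
  refine (fNet_scale hJ hK hn _ hε).trans (le_trans ?_ hs')
  rw [mul_one]
  refine mul_le_mul_of_nonneg_right (le_trans (le_of_eq ?_) (le_mul_of_one_le_right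
    (by positivity) h1)) (Real.exp_nonneg _)
  ring

/-- Polynomials times the partition sum. -/
theorem tau_le (hJ : 10 ^ 10 ≤ J) (hK : K = J ^ 10) (hn : n = J ^ 80) (x : ℕ) (hx : x ≤ J ^ 200) :
    0 < tauNet K n ∧ (x : ℝ) * tauNet K n ≤ 1 := by
  obtain ⟨-, hKJ, hnJ, -, -⟩ := par_facts hJ hK hn
  have hJ1 : 1 ≤ J := le_trans (by norm_num) hJ
  have hnJ' : 10 ^ 10 ≤ n := hJ.trans hnJ
  have hK0 : (0 : ℝ) < K := Nat.cast_pos.2 (by omega)
  have h : x ≤ (4 * K ^ 3) ^ (2 * n) := by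
    refine hx.trans (le_trans ?_ (Nat.pow_le_pow_left (Nat.le_mul_of_pos_left _ (by norm_num)) _))
    rw [hK, ← pow_mul, ← pow_mul]
    exact Nat.pow_le_pow_right hJ1 (by omega)
  have hp : 0 < tauNet K n := inv_pos.2 (pow_pos (by positivity) _)
  refine ⟨hp, ?_⟩
  rw [tauNet, ← div_eq_mul_inv, div_le_one (pow_pos (by positivity) _)]
  exact_mod_cast h

theorem params_ok : ∃ J0 : ℕ, ∀ J : ℕ, J0 ≤ J → ∀ K n m g s T Q I L : ℕ,
    K = J ^ 10 → n = J ^ 80 → m = J ^ 69 → g = J ^ 11 → s = K * n → T = K * s → Q = qPar J →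
    I = 2 * n * K → L = 32 * K ^ 2 →
    (2 ≤ K ∧ 1 ≤ n ∧ 1 ≤ m ∧ 5 ≤ g ∧ m * g = n ∧ 1 ≤ T) ∧
    (4 ≤ 1 / (J : ℝ) ^ 50 * (g.choose 5 : ℝ) ∧
      4 * (K : ℝ) * 2 ^ n ≤ 1 / (J : ℝ) ^ 50 * 2 ^ s) ∧
    (2 * T * ballBd K n (10 * m) ≤ Q ∧ 4 * (T : ℝ) / Q ≤ 1 / (J : ℝ) ^ 50) ∧
    ((∀ i ≤ I, FNet K n m (1 / (16 * 2 ^ i)) ≤
        4 ^ i / (64 * (Q : ℝ) * (I + 1) * ballBd K n (20 * m))) ∧
      8 * ((I : ℝ) + 1) * T * tauNet K n ≤ 1) ∧
    (FNet K n m (1 / (8 * 4 ^ (L + 1))) ≤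
        (1 / (1024 * (Q : ℝ) * (I + 1) * ballBd K n (20 * m))) /
          (32 * Real.exp ((n : ℝ) / (16 * K))) ∧
      2 * (K : ℝ) * (2 * (K : ℝ) ^ n / 4 ^ I) * FNet K n m (1 / 8) ≤ 1 ∧
      3 * (K : ℝ) * (K : ℝ) ^ n * FNet K n m (1 / 8) <
        Real.exp ((n : ℝ) / (16 * K)) ^ L ∧
      4 * (K : ℝ) * L * tauNet K n < 1) := by
  refine ⟨10 ^ 10, fun J hJ K n m g s T Q I L hK hn hm hg hs hT hQ hI hL => ?_⟩
  have hJ2 : 2 ≤ J := le_trans (by norm_num) hJ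
  have hJ1 : 1 ≤ J := by omega
  have pow_mono : ∀ a b : ℕ, a ≤ b → J ^ a ≤ J ^ b := fun a b => Nat.pow_le_pow_right hJ1
  have hKJ : J ≤ K := hK ▸ Nat.le_self_pow (by norm_num) J
  have hnJ : J ≤ n := hn ▸ Nat.le_self_pow (by norm_num) J
  have hmJ : J ≤ m := hm ▸ Nat.le_self_pow (by norm_num) J
  have hKn : K * n = J ^ 90 := by rw [hK, hn, ← pow_add]
  have hT' : T = K ^ 2 * n := by rw [hT, hs]; ring
  have hTpos : 1 ≤ T := by rw [hT']; exact Nat.mul_pos (pow_pos (by omega) 2) (by omega)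
  have hQ' : Q = J ^ 60 * T * ballBd K n (10 * m) := by rw [hQ, qPar, hT', hK, hn, hm]; ring
  have hball : ∀ r, 1 ≤ ballBd K n r := fun r => Nat.one_le_pow _ _ (by omega)
  have hJr : (10 : ℝ) ^ 10 ≤ J := by exact_mod_cast hJ
  have hJpos : (0 : ℝ) < J := lt_of_lt_of_le (by norm_num) hJr
  have hKr : (1 : ℝ) ≤ K := by exact_mod_cast (show 1 ≤ K by omega)
  have hnr : (1 : ℝ) ≤ n := by exact_mod_cast (show 1 ≤ n by omega)
  obtain ⟨hKn', -, -, hJr', hKr', hnr', hdiv⟩ := par_facts hJ hK hn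
  refine ⟨⟨by omega, by omega, by omega, ?_, ?_, hTpos⟩, ⟨?_, ?_⟩, ⟨?_, ?_⟩,
    ⟨fNet_sampling hJ hK hn hm hQ hI, ?_⟩, fNet_finest hJ hK hn hm hQ hI hL, ?_, ?_, ?_⟩
  · rw [hg]; exact le_trans (le_trans (by norm_num) hJ) (Nat.le_self_pow (by norm_num) J)
  · rw [hm, hg, hn, ← pow_add]
  · -- binomial
    have hgJ : J ≤ g := hg ▸ Nat.le_self_pow (by norm_num) J
    have hch := Nat.pow_le_choose (α := ℝ) 5 g
    have hsub : ((g + 1 - 5 : ℕ) : ℝ) = (g : ℝ) - 4 := by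
      rw [show g + 1 - 5 = g - 4 by omega, Nat.cast_sub (by omega)]; norm_num
    rw [hsub] at hch
    have hg8 : (8 : ℝ) ≤ g := by exact_mod_cast (show 8 ≤ g by omega)
    have h2 : ((g : ℝ) / 2) ^ 5 ≤ ((g : ℝ) - 4) ^ 5 :=
      pow_le_pow_left₀ (by positivity) (by linarith) 5
    have hg5 : (g : ℝ) ^ 5 = (J : ℝ) ^ 50 * (J : ℝ) ^ 5 := by
      rw [hg]; push_cast; rw [← pow_mul, ← pow_add]
    have h5 : (15360 : ℝ) ≤ (J : ℝ) ^ 5 := le_trans (le_trans (by norm_num) hJr)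
      (le_self_pow₀ (by linarith) (by norm_num))
    have h120 : (Nat.factorial 5 : ℝ) = 120 := by norm_num [Nat.factorial]
    rw [h120, div_le_iff₀ (by norm_num)] at hch
    have h50pos : (0 : ℝ) < (J : ℝ) ^ 50 := by positivity
    rw [one_div_mul_eq_div, le_div_iff₀ h50pos]
    have e : ((g : ℝ) / 2) ^ 5 = (g : ℝ) ^ 5 / 32 := by ring
    have h6 := mul_le_mul_of_nonneg_left h5 h50pos.le
    rw [e, hg5] at h2
    linarith
  · -- powers of two
    have h : 4 * K * 2 ^ n * J ^ 50 ≤ 2 ^ s := by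
      have hJ60 : J ^ 60 ≤ 2 ^ (60 * J) := by
        rw [mul_comm, pow_mul]
        exact Nat.pow_le_pow_left (Nat.lt_two_pow_self).le 60
      have hexp : 2 + n + 60 * J ≤ s := by
        rw [hs]
        calc 2 + n + 60 * J ≤ 64 * n := by omega
          _ ≤ K * n := Nat.mul_le_mul_right _ (by omega)
      calc 4 * K * 2 ^ n * J ^ 50 = 2 ^ 2 * 2 ^ n * J ^ 60 := by
            rw [hK, show (4 : ℕ) = 2 ^ 2 by norm_num, show J ^ 60 = J ^ 10 * J ^ 50 by rw [← pow_add]]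
            ring
        _ ≤ 2 ^ 2 * 2 ^ n * 2 ^ (60 * J) := Nat.mul_le_mul_left _ hJ60
        _ = 2 ^ (2 + n + 60 * J) := by rw [pow_add, pow_add]
        _ ≤ 2 ^ s := Nat.pow_le_pow_right (by norm_num) hexp
    rw [one_div_mul_eq_div, le_div_iff₀ (by positivity)]
    exact_mod_cast h
  · -- colours
    rw [hQ']
    refine Nat.mul_le_mul_right _ (Nat.mul_le_mul_right _ ?_)
    exact hJ2.trans (Nat.le_self_pow (by norm_num) J)
  · rw [div_le_div_iff₀ (by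
      rw [hQ']; exact_mod_cast Nat.mul_pos (Nat.mul_pos (pow_pos (by omega) _) hTpos) (hball _))
      (by positivity)]
    have h : 4 * T * J ^ 50 ≤ 1 * Q := by
      rw [one_mul, hQ']
      calc 4 * T * J ^ 50 ≤ J ^ 10 * T * J ^ 50 := Nat.mul_le_mul_right _ (Nat.mul_le_mul_right _
            (le_trans (le_trans (by norm_num) hJ) (Nat.le_self_pow (by norm_num) J)))
        _ = J ^ 60 * T * 1 := by rw [show J ^ 60 = J ^ 10 * J ^ 50 by rw [← pow_add]]; ring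
        _ ≤ _ := Nat.mul_le_mul_left _ (hball _)
    exact_mod_cast h
  · -- union bound
    refine le_trans (le_of_eq ?_) (tau_le hJ hK hn (8 * (I + 1) * T) ?_).2
    · push_cast; ring
    · rw [hI, hT']
      have h1 : 2 * n * K + 1 ≤ 3 * (K * n) := by nlinarith
      calc 8 * (2 * n * K + 1) * (K ^ 2 * n) ≤ 8 * (3 * (K * n)) * (K * (K * n)) := by
            refine Nat.mul_le_mul (Nat.mul_le_mul_left _ h1) (le_of_eq ?_); ring
        _ = 24 * J ^ (90 + 10 + 90) := by rw [hKn, hK, pow_add, pow_add]; ring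
        _ ≤ J * J ^ (90 + 10 + 90) := Nat.mul_le_mul_right _ (le_trans (by norm_num) hJ)
        _ ≤ J ^ 200 := by rw [← pow_succ']; exact pow_mono _ _ (by norm_num)
  · -- total energy
    have h : 4 * K * K ^ n ≤ 4 ^ I := by
      have hK4 : K ≤ 4 ^ K := (Nat.lt_pow_self (by norm_num)).le
      calc 4 * K * K ^ n ≤ 4 * 4 ^ K * (4 ^ K) ^ n :=
            Nat.mul_le_mul (Nat.mul_le_mul_left _ hK4) (Nat.pow_le_pow_left hK4 n)
        _ = 4 ^ (1 + K + K * n) := by rw [pow_add, pow_add, pow_mul, pow_one]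
        _ ≤ 4 ^ I := by
            refine Nat.pow_le_pow_right (by norm_num) ?_
            rw [hI]; nlinarith
    have hr : 2 * (K : ℝ) * (2 * (K : ℝ) ^ n / 4 ^ I) ≤ 1 := by
      rw [← mul_div_assoc, div_le_one (by positivity)]
      calc 2 * (K : ℝ) * (2 * (K : ℝ) ^ n) = 4 * K * K ^ n := by ring
        _ ≤ _ := by exact_mod_cast h
    have hF := fNet_coarse hJ hK hn hm
    calc _ ≤ 2 * (K : ℝ) * (2 * (K : ℝ) ^ n / 4 ^ I) * 1 :=
          mul_le_mul_of_nonneg_left hF (by positivity)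
      _ ≤ 1 := by rw [mul_one]; exact hr
  · -- largest ratio
    have hKe : (K : ℝ) ≤ Real.exp K := by linarith [Real.add_one_le_exp (K : ℝ)]
    have hF := fNet_coarse hJ hK hn hm
    calc 3 * (K : ℝ) * (K : ℝ) ^ n * FNet K n m (1 / 8)
        ≤ 3 * (K : ℝ) * (K : ℝ) ^ n * 1 := mul_le_mul_of_nonneg_left hF (by positivity)
      _ ≤ Real.exp 2 * Real.exp K * Real.exp K ^ n := by
          rw [mul_one]
          refine mul_le_mul (mul_le_mul ?_ hKe (by positivity) (by positivity))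
            (pow_le_pow_left₀ (by positivity) hKe n) (by positivity) (by positivity)
          linarith [Real.add_one_le_exp (2 : ℝ)]
      _ = Real.exp (2 + K + n * K) := by rw [Real.exp_add, Real.exp_add, Real.exp_nat_mul]
      _ < Real.exp ((L : ℝ) * ((n : ℝ) / (16 * K))) := by
          rw [Real.exp_lt_exp]
          have e : (L : ℝ) * ((n : ℝ) / (16 * K)) = 2 * (n * K) := by
            rw [hL]; push_cast; field_simp; ring
          rw [e]
          have h2 : (4 : ℝ) ≤ n := by exact_mod_cast (show 4 ≤ n by omega)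
          nlinarith [mul_le_mul_of_nonneg_right h2 (Nat.cast_nonneg K : (0 : ℝ) ≤ K)]
      _ = Real.exp ((n : ℝ) / (16 * K)) ^ L := Real.exp_nat_mul _ _
  · -- trivial index
    have h : 4 * K * L + 1 ≤ J ^ 200 := by
      rw [hL]
      calc 4 * K * (32 * K ^ 2) + 1 = 128 * J ^ (10 + 20) + 1 := by rw [hK, pow_add, ← pow_mul]; ring
        _ ≤ 129 * J ^ (10 + 20) := by have := Nat.one_le_pow (10 + 20) J hJ1; omega
        _ ≤ J * J ^ (10 + 20) := Nat.mul_le_mul_right _ (le_trans (by norm_num) hJ)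
        _ ≤ J ^ 200 := by rw [← pow_succ']; exact pow_mono _ _ (by norm_num)
    obtain ⟨htpos, h'⟩ := tau_le hJ hK hn _ h
    push_cast at h'
    linarith

end Vale.Agent.P047
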