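import Vale.Agent.P047.Net

/-!
Random planting.

Proof notes.  Colour every point uniformly by Fin Q; x is planted with colour c < T if its colour
is c and every other point within distance 10m has colour ≥ T (probability ≥ 1/(2Q)).
If En w > 2N/4^I some level i ≤ I has at least 4^i En w/(8(I+1)) points with dpi(w x) > 2^(-i);
then w is bad at ε/2 for ε = 2^(-i)/16.  For each code pick one such w as representative, let
L be the points where dpi(rep x) > 2^(-i)/2 and pick a subset with disjoint 10m-balls, of size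
≥ |L| / ballBd(20m).  The counts of planted colour c there are sums of independent events, so
P[count < p k/4] ≤ exp(-p k/4) via the mean of 2^(-count).  A union bound over (i, c, code)
uses net_lemma with s = 4^i/(64 Q (I+1) ballBd(20m)); the planted weight uses Markov.
-/

namespace Vale.Agent.P047

open Finset

/-- The Hamming ball, as a finite set. -/
def sBall {K n : ℕ} (r : ℕ) (x : Pt K n) : Finset (Pt K n) :=
  univ.filter fun y => hammingDist x y ≤ r

theorem card_sBall_le {K n : ℕ} (r : ℕ) (x : Pt K n) :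
    (sBall r x).card ≤ ballBd K n r := by
  classical
  induction r with
  | zero =>
    refine le_trans (card_le_card (t := {x}) fun y hy => ?_) (by simp [ballBd])
    rw [sBall, mem_filter, Nat.le_zero, hammingDist_eq_zero] at hy
    simp [hy.2]
  | succ r ih =>
    let upd : Pt K n × Option (Fin n × Fin K) → Pt K n := fun p =>
      p.2.elim p.1 fun q => Function.update p.1 q.1 q.2
    have hsub : sBall (r + 1) x ⊆ (sBall r x ×ˢ (univ : Finset (Option (Fin n × Fin K)))).image upd := by
      intro z hz
      simp only [sBall, mem_filter, mem_univ, true_and] at hz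
      rw [mem_image]
      by_cases h : hammingDist x z ≤ r
      · exact ⟨(z, none), by simp [sBall, h], rfl⟩
      · obtain ⟨i, hi⟩ : ∃ i, x i ≠ z i := by
          by_contra! hall
          exact h (by simp [show x = z from funext hall])
        refine ⟨(Function.update z i (x i), some (i, z i)), ?_, ?_⟩
        · simp only [mem_product, mem_univ, and_true, sBall, mem_filter, true_and]
          have hd : hammingDist x (Function.update z i (x i)) + 1 ≤ hammingDist x z := by
            simp only [hammingDist]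
            refine Nat.succ_le_of_lt (card_lt_card ⟨fun j hj => ?_, fun hss => ?_⟩)
            · simp only [mem_filter, mem_univ, true_and] at hj ⊢
              rcases eq_or_ne j i with rfl | hji
              · simp at hj
              · rwa [Function.update_of_ne hji] at hj
            · have := hss (by simp [hi] : i ∈ univ.filter fun j => x j ≠ z j)
              simp at this
          omega
        · simp [upd]
    refine (card_le_card hsub).trans (card_image_le.trans ?_)
    rw [card_product, card_univ, Fintype.card_option, Fintype.card_prod, Fintype.card_fin,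
      Fintype.card_fin]
    calc (sBall r x).card * (n * K + 1) ≤ ballBd K n r * (n * K + 1) := Nat.mul_le_mul_right _ ih
      _ = _ := by simp [ballBd, pow_succ]

/-- A maximal separated subset. -/
theorem exists_packing {K n : ℕ} (r : ℕ) (L : Finset (Pt K n)) :
    ∃ S ⊆ L, (∀ x ∈ S, ∀ y ∈ S, x ≠ y → r < hammingDist x y) ∧
      L.card ≤ S.card * ballBd K n r := by
  classical
  obtain ⟨S, hS, hmax⟩ := exists_max_image
    (L.powerset.filter fun S => ∀ x ∈ S, ∀ y ∈ S, x ≠ y → r < hammingDist x y) Finset.card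
    ⟨∅, by simp⟩
  simp only [mem_filter, mem_powerset] at hS hmax
  refine ⟨S, hS.1, hS.2, ?_⟩
  have hcov : L ⊆ S.biUnion (sBall r) := by
    intro y hy
    simp only [mem_biUnion, sBall, mem_filter, mem_univ, true_and]
    by_contra hcon
    push Not at hcon
    have hyS : y ∉ S := fun h => by have := hcon y h; simp at this
    have := hmax (insert y S) ⟨insert_subset hy hS.1, by
      intro a ha b hb hab
      rcases mem_insert.1 ha with h1 | h1 <;> rcases mem_insert.1 hb with h2 | h2
      · exact absurd (h1.trans h2.symm) hab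
      · rw [h1, hammingDist_comm]; exact hcon b h2
      · rw [h2]; exact hcon a h1
      · exact hS.2 a h1 b h2 hab⟩
    rw [card_insert_of_notMem hyS] at this
    omega
  calc L.card ≤ ∑ x ∈ S, (sBall r x).card := (card_le_card hcov).trans card_biUnion_le
    _ ≤ ∑ _x ∈ S, ballBd K n r := sum_le_sum fun x _ => card_sBall_le r x
    _ = _ := by simp

/-- x receives colour c and the rest of B x receives colours ≥ T. -/
def Planted {α : Type*} {Q : ℕ} (B : α → Finset α) (T c : ℕ) (om : α → Fin Q) (x : α) : Prop :=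
  (om x).val = c ∧ ∀ y ∈ B x, y ≠ x → T ≤ (om y).val

/-- The mean of 2^(-count) over colourings, for events on disjoint sets. -/
theorem sum_exp_planted {α : Type*} [Fintype α] [DecidableEq α] {Q : ℕ} (B : α → Finset α)
    (S : Finset α) (T c b : ℕ) (hself : ∀ x ∈ S, x ∈ B x)
    (hdis : ∀ x ∈ S, ∀ x' ∈ S, x ≠ x' → Disjoint (B x) (B x')) (hcard : ∀ x ∈ S, (B x).card ≤ b)
    (hc : c < T) (hQ : 2 * T * b ≤ Q) (hTQ : T ≤ Q) :
    ∑ om : α → Fin Q, (open Classical in ∏ x ∈ S, (1 - if Planted B T c om x then (1 : ℝ) / 2 else 0))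
      ≤ (Q : ℝ) ^ Fintype.card α * Real.exp (-(S.card : ℝ) / (4 * Q)) := by
  classical
  have hQ0 : 0 < Q := by omega
  have hQr : (0 : ℝ) < Q := by exact_mod_cast hQ0
  set F : α → α → Fin Q → ℝ := fun x y q =>
    if y ∈ B x then (if (if y = x then q.val = c else T ≤ q.val) then 1 else 0) else 1 with hFdef
  set M : α → α → ℝ := fun x y =>
    if y ∈ B x then (if y = x then 1 / (Q : ℝ) else ((Q : ℝ) - T) / Q) else 1 with hMdef
  set pr : α → ℝ := fun x => ∏ y, M x y with hprdef
  have hev : ∀ x ∈ S, ∀ om : α → Fin Q,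
      (if Planted B T c om x then (1 : ℝ) else 0) = ∏ y, F x y (om y) := by
    intro x hx om
    rw [hFdef]
    simp only [Fintype.prod_ite_mem]
    by_cases hP : Planted B T c om x
    · rw [if_pos hP]
      refine (prod_eq_one fun y hy => if_pos ?_).symm
      split_ifs with h
      · exact h ▸ hP.1
      · exact hP.2 y hy h
    · rw [if_neg hP]
      by_cases h0 : (om x).val = c
      · obtain ⟨y, hy, hne, hlt⟩ : ∃ y ∈ B x, y ≠ x ∧ ¬ T ≤ (om y).val := by
          by_contra! hcon
          exact hP ⟨h0, fun y hy hne => hcon y hy hne⟩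
        exact (prod_eq_zero hy (if_neg (by rw [if_neg hne]; exact hlt))).symm
      · exact (prod_eq_zero (hself x hx) (if_neg (by rw [if_pos rfl]; exact h0))).symm
  have hcnt1 : ∑ q : Fin Q, (if q.val = c then (1 : ℝ) else 0) = 1 := by
    rw [sum_eq_single ⟨c, by omega⟩ (fun q _ hq => if_neg fun h => hq (Fin.ext h))
      (fun h => absurd (mem_univ _) h)]
    simp
  have hcnt2 : ∑ q : Fin Q, (if T ≤ q.val then (1 : ℝ) else 0) = (Q : ℝ) - T := by
    rw [Fin.sum_univ_eq_sum_range (fun i => if T ≤ i then (1 : ℝ) else 0) Q, sum_boole,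
      show (range Q).filter (fun i => T ≤ i) = Ico T Q by ext i; simp [and_comm],
      Nat.card_Ico, Nat.cast_sub hTQ]
  have hpr : ∀ A ⊆ S, ∑ om : α → Fin Q, ∏ x ∈ A, ∏ y, F x y (om y) =
      (Q : ℝ) ^ Fintype.card α * ∏ x ∈ A, pr x := by
    intro A hA
    simp only [hprdef]
    simp only [prod_comm (s := A) (t := univ)]
    rw [← Fintype.prod_sum (fun y q => ∏ x ∈ A, F x y q), ← card_univ, ← prod_const,
      ← prod_mul_distrib]
    refine prod_congr rfl fun y _ => ?_
    by_cases hex : ∃ x ∈ A, y ∈ B x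
    · obtain ⟨x, hx, hy⟩ := hex
      have hother : ∀ x' ∈ A, x' ≠ x → y ∉ B x' := fun x' hx' hne h =>
        Finset.disjoint_left.1 (hdis x' (hA hx') x (hA hx) hne) h hy
      have e1 : ∀ q, ∏ x' ∈ A, F x' y q = F x y q := fun q =>
        prod_eq_single x (fun x' hx' hne => if_neg (hother x' hx' hne)) (fun h => absurd hx h)
      have e2 : ∏ x' ∈ A, M x' y = M x y :=
        prod_eq_single x (fun x' hx' hne => if_neg (hother x' hx' hne)) (fun h => absurd hx h)
      simp only [e1]
      rw [e2]
      simp only [hFdef, hMdef, if_pos hy]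
      by_cases hyx : y = x
      · simp only [if_pos hyx]
        rw [hcnt1]
        field_simp
      · simp only [if_neg hyx]
        rw [hcnt2]
        field_simp
    · push Not at hex
      have e1 : ∀ q, ∏ x' ∈ A, F x' y q = 1 := fun q =>
        prod_eq_one fun x' hx' => if_neg (hex x' hx')
      have e2 : ∏ x' ∈ A, M x' y = 1 := prod_eq_one fun x' hx' => if_neg (hex x' hx')
      simp [e1, e2]
  have hpre : ∀ x ∈ S, 1 / (2 * (Q : ℝ)) ≤ pr x ∧ pr x ≤ 1 := by
    intro x hx
    set a : ℝ := ((Q : ℝ) - T) / Q with ha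
    have ha0 : 0 ≤ a := div_nonneg (by simp; exact_mod_cast hTQ) hQr.le
    have ha1 : a ≤ 1 := by
      rw [ha, div_le_one hQr]
      have : (0 : ℝ) ≤ T := Nat.cast_nonneg T
      linarith
    have e : pr x = 1 / (Q : ℝ) * a ^ ((B x).card - 1) := by
      simp only [hprdef, hMdef, Fintype.prod_ite_mem]
      rw [← mul_prod_erase _ _ (hself x hx), if_pos rfl,
        prod_congr rfl fun y hy => if_neg (ne_of_mem_erase hy), prod_const,
        card_erase_of_mem (hself x hx)]
    set k := (B x).card - 1
    have hk : 2 * (T : ℝ) * k ≤ Q := by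
      have : 2 * T * k ≤ Q :=
        le_trans (Nat.mul_le_mul_left _ (le_trans (Nat.sub_le _ _) (hcard x hx))) hQ
      exact_mod_cast this
    have hb : (1 : ℝ) / 2 ≤ a ^ k := by
      have h := one_add_mul_le_pow (a := a - 1) (by linarith) k
      rw [add_sub_cancel] at h
      refine le_trans ?_ h
      have : (k : ℝ) * (a - 1) = -((T : ℝ) * k) / Q := by
        rw [ha]; field_simp; ring
      rw [this]
      have : -(1 / 2 : ℝ) ≤ -((T : ℝ) * k) / Q := by
        rw [le_div_iff₀ hQr]; linarith
      linarith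
    rw [e]
    refine ⟨?_, ?_⟩
    · calc 1 / (2 * (Q : ℝ)) = 1 / (Q : ℝ) * (1 / 2) := by ring
        _ ≤ _ := mul_le_mul_of_nonneg_left hb (by positivity)
    · refine mul_le_one₀ ?_ (pow_nonneg ha0 k) (pow_le_one₀ ha0 ha1)
      rw [div_le_one hQr]
      exact_mod_cast hQ0
  calc ∑ om : α → Fin Q, ∏ x ∈ S, (1 - if Planted B T c om x then (1 : ℝ) / 2 else 0)
      = ∑ om : α → Fin Q, ∑ A ∈ S.powerset, (-(1 : ℝ) / 2) ^ A.card *
          ∏ x ∈ A, ∏ y, F x y (om y) := by
        refine sum_congr rfl fun om _ => ?_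
        rw [show ∏ x ∈ S, (1 - if Planted B T c om x then (1 : ℝ) / 2 else 0) =
            ∏ x ∈ S, (1 + -(1 : ℝ) / 2 * ∏ y, F x y (om y)) from prod_congr rfl fun x hx => by
              rw [← hev x hx om]; split_ifs <;> ring, prod_one_add]
        exact sum_congr rfl fun A _ => by rw [prod_mul_distrib, prod_const]
    _ = (Q : ℝ) ^ Fintype.card α * ∏ x ∈ S, (1 + -(1 : ℝ) / 2 * pr x) := by
        rw [sum_comm, prod_one_add, mul_sum]
        refine sum_congr rfl fun A hA => ?_
        rw [← mul_sum, hpr A (mem_powerset.1 hA), prod_mul_distrib, prod_const]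
        ring
    _ ≤ (Q : ℝ) ^ Fintype.card α * ∏ _x ∈ S, Real.exp (-1 / (4 * (Q : ℝ))) := by
        refine mul_le_mul_of_nonneg_left (Finset.prod_le_prod (fun x hx => ?_) fun x hx => ?_)
          (by positivity)
        · linarith [(hpre x hx).2]
        · have h1 := (hpre x hx).1
          have h2 : -(1 : ℝ) / 2 * pr x ≤ -1 / (4 * (Q : ℝ)) := by
            have e : -1 / (4 * (Q : ℝ)) = -(1 : ℝ) / 2 * (1 / (2 * (Q : ℝ))) := by ring
            rw [e]
            linarith
          linarith [Real.add_one_le_exp (-1 / (4 * (Q : ℝ)))]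
    _ = _ := by
        rw [prod_const, ← Real.exp_nat_mul]
        ring_nf

/-- At most a proportion exp(-|S|/(8Q)) of colourings plant fewer than |S|/(16Q) points of S. -/
theorem card_few_planted {α : Type*} [Fintype α] [DecidableEq α] {Q : ℕ} (B : α → Finset α)
    (S : Finset α) (T c b : ℕ) (hself : ∀ x ∈ S, x ∈ B x)
    (hdis : ∀ x ∈ S, ∀ x' ∈ S, x ≠ x' → Disjoint (B x) (B x')) (hcard : ∀ x ∈ S, (B x).card ≤ b)
    (hc : c < T) (hQ : 2 * T * b ≤ Q) (hTQ : T ≤ Q) :
    ∑ om : α → Fin Q, (open Classical in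
      if ((S.filter fun x => Planted B T c om x).card : ℝ) < S.card / (16 * Q) then (1 : ℝ) else 0)
      ≤ (Q : ℝ) ^ Fintype.card α * Real.exp (-(S.card : ℝ) / (8 * Q)) := by
  classical
  have hQr : (0 : ℝ) < Q := by exact_mod_cast (by omega : 0 < Q)
  set k : ℝ := S.card / (16 * Q) with hk
  have hk0 : 0 ≤ k := by positivity
  have hl2 : 0 < Real.log 2 := Real.log_pos one_lt_two
  calc ∑ om : α → Fin Q, (if ((S.filter fun x => Planted B T c om x).card : ℝ) < k then (1 : ℝ)
          else 0)
      ≤ ∑ om : α → Fin Q, Real.exp (k * Real.log 2) *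
          ∏ x ∈ S, (1 - if Planted B T c om x then (1 : ℝ) / 2 else 0) := by
        refine sum_le_sum fun om _ => ?_
        have e : ∏ x ∈ S, (1 - if Planted B T c om x then (1 : ℝ) / 2 else 0) =
            Real.exp (-((S.filter fun x => Planted B T c om x).card : ℝ) * Real.log 2) := by
          rw [show ∏ x ∈ S, (1 - if Planted B T c om x then (1 : ℝ) / 2 else 0) =
              ∏ x ∈ S, (if Planted B T c om x then (1 : ℝ) / 2 else 1) from
              prod_congr rfl fun x _ => by split_ifs <;> norm_num,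
            prod_ite, prod_const_one, mul_one, prod_const, neg_mul, Real.exp_neg,
            Real.exp_nat_mul, Real.exp_log two_pos, ← inv_pow, one_div]
        rw [e, ← Real.exp_add]
        split_ifs with h
        · refine Real.one_le_exp ?_
          have := mul_le_mul_of_nonneg_right h.le hl2.le
          linarith
        · exact (Real.exp_pos _).le
    _ ≤ Real.exp (k * Real.log 2) *
          ((Q : ℝ) ^ Fintype.card α * Real.exp (-(S.card : ℝ) / (4 * Q))) := by
        rw [← mul_sum]
        exact mul_le_mul_of_nonneg_left (sum_exp_planted B S T c b hself hdis hcard hc hQ hTQ)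
          (Real.exp_pos _).le
    _ ≤ _ := by
        rw [mul_left_comm, ← Real.exp_add]
        refine mul_le_mul_of_nonneg_left (Real.exp_le_exp.2 ?_) (by positivity)
        have h1 : k * Real.log 2 ≤ k := mul_le_of_le_one_right hk0 (by
          have := Real.log_le_sub_one_of_pos two_pos; linarith)
        have h2 : -(S.card : ℝ) / (4 * Q) = -(4 * k) := by rw [hk]; field_simp; ring
        have h3 : -(S.card : ℝ) / (8 * Q) = -(2 * k) := by rw [hk]; field_simp; ring
        linarith

/-- Some dyadic level carries a share of the energy. -/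
theorem exists_level {α : Type*} [Fintype α] (w : α → ℝ) (I : ℕ)
    (h : 2 * (Fintype.card α : ℝ) / 4 ^ I < En w) :
    ∃ i ≤ I, (univ.filter fun x => 1 / (2 : ℝ) ^ i < dpi (w x)).Nonempty ∧
      4 ^ i * En w ≤ 8 * ((I : ℝ) + 1) * (univ.filter fun x => 1 / (2 : ℝ) ^ i < dpi (w x)).card := by
  classical
  by_contra hcon
  push Not at hcon
  have hpt : ∀ x, dpi (w x) ^ 2 ≤ 1 / 4 ^ I +
      ∑ i ∈ range (I + 1), if 1 / (2 : ℝ) ^ i < dpi (w x) then 4 / (4 : ℝ) ^ i else 0 := by
    intro x
    have h4 : ∀ i : ℕ, (1 / (2 : ℝ) ^ i) ^ 2 = 1 / 4 ^ i := fun i => by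
      rw [div_pow, one_pow, ← pow_mul, mul_comm, pow_mul]; norm_num
    by_cases hI : 1 / (2 : ℝ) ^ I < dpi (w x)
    · have hex : ∃ i, 1 / (2 : ℝ) ^ i < dpi (w x) := ⟨I, hI⟩
      have hi : Nat.find hex ≤ I := Nat.find_min' hex hI
      refine le_trans ?_ (le_add_of_nonneg_of_le (by positivity) (single_le_sum
        (fun i _ => by split_ifs <;> positivity) (mem_range.2 (Nat.lt_succ_of_le hi))))
      rw [if_pos (Nat.find_spec hex)]
      have hle : dpi (w x) ≤ 2 * (1 / (2 : ℝ) ^ Nat.find hex) := by
        rcases Nat.eq_zero_or_pos (Nat.find hex) with h0 | h0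
        · rw [h0]
          have := dpi_le_half_pi (w x)
          linarith [Real.pi_le_four]
        · have := Nat.find_min hex (Nat.sub_lt h0 one_pos)
          rw [not_lt] at this
          refine this.trans_eq ?_
          obtain ⟨j, hj⟩ := Nat.exists_eq_succ_of_ne_zero h0.ne'
          rw [hj]
          simp [pow_succ]
      calc dpi (w x) ^ 2 ≤ (2 * (1 / (2 : ℝ) ^ Nat.find hex)) ^ 2 := by
            gcongr
            exact dpi_nonneg _
        _ = _ := by rw [mul_pow, h4]; ring
    · refine le_trans ?_ (le_add_of_nonneg_right (sum_nonneg fun i _ => by split_ifs <;> positivity))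
      rw [← h4 I]
      gcongr
      · exact dpi_nonneg _
      · exact not_lt.1 hI
  set N : ℕ → ℝ := fun i => (univ.filter fun x => 1 / (2 : ℝ) ^ i < dpi (w x)).card
  have hN : ∀ i ∈ range (I + 1), N i * (4 / 4 ^ i) ≤ En w / (2 * ((I : ℝ) + 1)) := by
    intro i hi
    have hEn : 0 ≤ En w := sum_nonneg fun x _ => sq_nonneg _
    rcases (univ.filter fun x => 1 / (2 : ℝ) ^ i < dpi (w x)).eq_empty_or_nonempty with he | he
    · simp only [N, he, card_empty, Nat.cast_zero, zero_mul]
      positivity
    · have := hcon i (Nat.le_of_lt_succ (mem_range.1 hi)) he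
      rw [← mul_div_assoc, div_le_div_iff₀ (by positivity) (by positivity)]
      simp only [N]
      linarith
  have hEnle : En w ≤ (Fintype.card α : ℝ) / 4 ^ I + En w / 2 := by
    calc En w ≤ ∑ x, (1 / 4 ^ I + ∑ i ∈ range (I + 1),
          if 1 / (2 : ℝ) ^ i < dpi (w x) then 4 / (4 : ℝ) ^ i else 0) := sum_le_sum fun x _ => hpt x
      _ = (Fintype.card α : ℝ) / 4 ^ I + ∑ i ∈ range (I + 1), N i * (4 / 4 ^ i) := by
          rw [sum_add_distrib, sum_comm, sum_const, card_univ, nsmul_eq_mul, ← mul_div_assoc,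
            mul_one]
          congr 1
          refine sum_congr rfl fun i _ => ?_
          rw [← sum_filter, sum_const, nsmul_eq_mul]
      _ ≤ (Fintype.card α : ℝ) / 4 ^ I + ∑ _i ∈ range (I + 1), En w / (2 * ((I : ℝ) + 1)) :=
          add_le_add le_rfl (sum_le_sum hN)
      _ = _ := by
          rw [sum_const, card_range, nsmul_eq_mul]
          push_cast
          field_simp
  rw [mul_div_assoc] at h
  linarith

theorem exists_planting (K n m T Q I : ℕ) (hK : 2 ≤ K) (hn : 1 ≤ n) (hT : 1 ≤ T)
    (g : Pt K n → ℝ) (hg : ∀ x, 0 ≤ g x)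
    (hQ : 2 * T * ballBd K n (10 * m) ≤ Q)
    (hF : ∀ i ≤ I, FNet K n m (1 / (16 * 2 ^ i)) ≤
      4 ^ i / (64 * (Q : ℝ) * (I + 1) * ballBd K n (20 * m)))
    (hU : 8 * ((I : ℝ) + 1) * T * tauNet K n ≤ 1) :
    ∃ col : Pt K n → Option (Fin T),
      (∀ x y, (col x).isSome → (col y).isSome → x ≠ y → 10 * m < hammingDist x y) ∧
      (∑ x, (if (col x).isSome then g x else 0) ≤ 4 * T / Q * ∑ x, g x) ∧
      ∀ (c : Fin T) (w : Pt K n → ℝ), InW K n m w →
        (En w - 2 * (K : ℝ) ^ n / 4 ^ I) / (1024 * Q * (I + 1) * ballBd K n (20 * m)) ≤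
          ∑ x, if col x = some c then dpi (w x) ^ 2 else 0 := by
  classical
  have hball : ∀ r, 1 ≤ ballBd K n r := fun r => Nat.one_le_pow _ _ (Nat.succ_pos _)
  have hTQ : T ≤ Q := le_trans (le_trans (Nat.le_mul_of_pos_left T two_pos)
    (Nat.le_mul_of_pos_right _ (hball _))) hQ
  have hQ0 : (0 : ℝ) < Q := by exact_mod_cast (by omega : 0 < Q)
  have hTr : (0 : ℝ) < T := by exact_mod_cast (by omega : 0 < T)
  have hb20 : (0 : ℝ) < ballBd K n (20 * m) := by exact_mod_cast (hball _)
  set cN : ℝ := 64 * (Q : ℝ) * (I + 1) * ballBd K n (20 * m) with hcN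
  have heps : ∀ i : Fin (I + 1), (0 : ℝ) < 1 / (16 * 2 ^ (i : ℕ)) ∧
      1 / (16 * 2 ^ (i : ℕ)) ≤ (1 : ℝ) := fun i => ⟨by positivity, by
    rw [div_le_one (by positivity)]
    linarith [one_le_pow₀ (show (1 : ℝ) ≤ 2 by norm_num) (n := (i : ℕ))]⟩
  choose ι hι om code hom0 homsum homle homdiff using fun i : Fin (I + 1) =>
    net_lemma K n m hK hn (1 / (16 * 2 ^ (i : ℕ))) (heps i).1 (heps i).2
      (4 ^ (i : ℕ) / cN) (hF i (Nat.le_of_lt_succ i.isLt))
  set Nl : ℕ → (Pt K n → ℝ) → Finset (Pt K n) := fun i w =>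
    univ.filter fun x => 1 / (2 : ℝ) ^ i < dpi (w x)
  have hclose : ∀ (i : Fin (I + 1)) (w w' : {w : Pt K n → ℝ //
      InW K n m w ∧ ¬ Good K n m (1 / (16 * 2 ^ (i : ℕ)) / 2) w}), code i w = code i w' →
      ∀ x, dpi (w.1 x) ≤ dpi (w'.1 x) + 1 / (16 * 2 ^ (i : ℕ)) := by
    intro i w w' heq x
    obtain ⟨z, hz, hzx⟩ := homdiff i w w' heq
    obtain ⟨k, hk⟩ := hz.2 x
    calc dpi (w.1 x) = dpi ((w'.1 x + (w.1 x - w'.1 x - Real.pi * z x)) + Real.pi * k) := by
          rw [hk]; congr 1; ring
      _ ≤ dpi (w'.1 x) + dpi (w.1 x - w'.1 x - Real.pi * z x) := by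
          rw [dpi_add_int]; exact dpi_add_le _ _
      _ ≤ _ := add_le_add le_rfl ((dpi_le_abs _).trans (hzx x))
  have hpack : ∀ (i : Fin (I + 1)) (a : ι i), ∃ S : Finset (Pt K n),
      (∀ x ∈ S, ∀ y ∈ S, x ≠ y → 20 * m < hammingDist x y) ∧
      ∀ w : {w : Pt K n → ℝ // InW K n m w ∧ ¬ Good K n m (1 / (16 * 2 ^ (i : ℕ)) / 2) w},
        code i w = a →
          (Nl i w.1).card ≤ S.card * ballBd K n (20 * m) ∧
          ∀ x ∈ S, 7 / (16 * 2 ^ (i : ℕ)) < dpi (w.1 x) := by
    intro i a
    by_cases hex : ∃ w, code i w = a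
    · obtain ⟨r, hr⟩ := hex
      obtain ⟨S, hSL, hsep, hS⟩ := exists_packing (20 * m)
        (univ.filter fun x => 1 / (2 * 2 ^ (i : ℕ)) < dpi (r.1 x))
      have hp : (0 : ℝ) < 2 ^ (i : ℕ) := by positivity
      refine ⟨S, hsep, fun w hw => ⟨le_trans (card_le_card fun x hx => ?_) hS, fun x hx => ?_⟩⟩
      · simp only [Nl, mem_filter, mem_univ, true_and] at hx ⊢
        have h1 := hclose i w r (hw.trans hr.symm) x
        have h2 : 1 / (2 * 2 ^ (i : ℕ)) + 1 / (16 * 2 ^ (i : ℕ)) ≤ (1 : ℝ) / 2 ^ (i : ℕ) := by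
          field_simp
          norm_num
        linarith
      · have hxL := hSL hx
        simp only [mem_filter, mem_univ, true_and] at hxL
        have h1 := hclose i r w (hr.trans hw.symm) x
        have h2 : (1 : ℝ) / (2 * 2 ^ (i : ℕ)) - 1 / (16 * 2 ^ (i : ℕ)) = 7 / (16 * 2 ^ (i : ℕ)) := by
          field_simp
          norm_num
        linarith
    · exact ⟨∅, by simp, fun w hw => absurd ⟨w, hw⟩ hex⟩
  choose S hsep hS using hpack
  set B : Pt K n → Finset (Pt K n) := sBall (10 * m)
  set lvl : (i : Fin (I + 1)) → ι i → Prop := fun i a => ∃ w : {w : Pt K n → ℝ //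
      InW K n m w ∧ ¬ Good K n m (1 / (16 * 2 ^ (i : ℕ)) / 2) w}, code i w = a ∧
        4 ^ (i : ℕ) * En w.1 ≤ 8 * ((I : ℝ) + 1) * (Nl i w.1).card
  set bad : (i : Fin (I + 1)) → Fin T → ι i → (Pt K n → Fin Q) → Prop := fun i c a f =>
    lvl i a ∧ (((S i a).filter fun x => Planted B T c f x).card : ℝ) < (S i a).card / (16 * Q)
  set cost : (Pt K n → Fin Q) → ℝ := fun f => ∑ x, if (f x).val < T then g x else 0
  set G := ∑ x, g x
  set Nf : ℝ := (Q : ℝ) ^ Fintype.card (Pt K n) with hNf
  have hNpos : 0 < Nf := by positivity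
  have hbad : ∀ (i : Fin (I + 1)) (c : Fin T) (a : ι i),
      ∑ f, (if bad i c a f then (1 : ℝ) else 0) ≤ Nf * Real.exp (-(4 ^ (i : ℕ) / cN) * om i a) := by
    intro i c a
    by_cases hl : lvl i a
    · simp only [bad, hl, true_and]
      have hself : ∀ x ∈ S i a, x ∈ B x := fun x _ => by simp [B, sBall]
      have hdis : ∀ x ∈ S i a, ∀ x' ∈ S i a, x ≠ x' → Disjoint (B x) (B x') := by
        intro x hx x' hx' hne
        refine Finset.disjoint_left.2 fun y hy hy' => ?_
        simp only [B, sBall, mem_filter, mem_univ, true_and] at hy hy'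
        have h1 := hammingDist_triangle x y x'
        rw [hammingDist_comm y x'] at h1
        have h2 := hsep i a x hx x' hx' hne
        omega
      refine (card_few_planted B (S i a) T c (ballBd K n (10 * m)) hself hdis
        (fun x _ => card_sBall_le _ x) c.isLt hQ hTQ).trans
        (mul_le_mul_of_nonneg_left (Real.exp_le_exp.2 ?_) hNpos.le)
      obtain ⟨w, hw, hwl⟩ := hl
      have h1 : ((Nl i w.1).card : ℝ) ≤ (S i a).card * ballBd K n (20 * m) := by
        exact_mod_cast (hS i a w hw).1
      have h2 := homle i w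
      rw [hw] at h2
      have h3 : 4 ^ (i : ℕ) * om i a ≤
          8 * ((I : ℝ) + 1) * ((S i a).card * ballBd K n (20 * m)) :=
        le_trans (mul_le_mul_of_nonneg_left h2 (by positivity))
          (le_trans hwl (mul_le_mul_of_nonneg_left h1 (by positivity)))
      rw [hcN, neg_mul, div_mul_eq_mul_div, neg_div, neg_le_neg_iff,
        div_le_div_iff₀ (by positivity) (by positivity)]
      have h4 := mul_le_mul_of_nonneg_left h3 (show (0 : ℝ) ≤ 8 * Q by positivity)
      linarith
    · simp only [bad, hl, false_and, if_false, sum_const_zero]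
      positivity
  have hcost : ∑ f, cost f = Nf * (T / Q * G) := by
    simp only [cost]
    simp only [G]
    rw [sum_comm, mul_sum, mul_sum]
    refine sum_congr rfl fun x _ => ?_
    have e : ∀ f : Pt K n → Fin Q, (if (f x).val < T then g x else 0) =
        g x * ∏ y, (if y = x then (if (f y).val < T then (1 : ℝ) else 0) else 1) := fun f => by
      rw [prod_ite_eq' univ x (fun y => if (f y).val < T then (1 : ℝ) else 0), if_pos (mem_univ x)]
      split_ifs <;> simp
    simp only [e, ← mul_sum]
    rw [← Fintype.prod_sum (fun y (q : Fin Q) =>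
      if y = x then (if q.val < T then (1 : ℝ) else 0) else 1), ← mul_prod_erase _ _ (mem_univ x)]
    simp only [↓reduceIte]
    rw [Fin.sum_univ_eq_sum_range (fun j => if j < T then (1 : ℝ) else 0) Q, sum_boole,
      show (range Q).filter (fun j => j < T) = range T by ext j; simp; omega, card_range,
      prod_congr rfl fun y hy => sum_congr rfl fun q _ => if_neg (ne_of_mem_erase hy)]
    simp only [sum_const, card_univ, Fintype.card_fin, nsmul_eq_mul, mul_one, prod_const,
      card_erase_of_mem (mem_univ x)]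
    rw [hNf]
    obtain ⟨k, hk⟩ : ∃ k, Fintype.card (Pt K n) = k + 1 :=
      ⟨_, (Nat.succ_pred_eq_of_pos (Fintype.card_pos_iff.2 ⟨x⟩)).symm⟩
    rw [hk, Nat.add_sub_cancel, pow_succ]
    field_simp
  obtain ⟨f, hfc, hfb⟩ : ∃ f, cost f ≤ 4 * T / Q * G ∧ ∀ i c a, ¬ bad i c a f := by
    by_contra hcon
    push Not at hcon
    set thr := 4 * (T : ℝ) / Q * G
    have hG0 : 0 ≤ G := sum_nonneg fun x _ => hg x
    have hpt : ∀ f, (1 : ℝ) ≤ (if thr < cost f then 1 else 0) +
        ∑ i, ∑ c, ∑ a, (if bad i c a f then (1 : ℝ) else 0) := by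
      intro f
      have hnn : ∀ i c a, (0 : ℝ) ≤ if bad i c a f then (1 : ℝ) else 0 := fun i c a => by
        split_ifs <;> norm_num
      by_cases hc : cost f ≤ thr
      · obtain ⟨i, c, a, h⟩ := hcon f hc
        rw [if_neg (not_lt.2 hc), zero_add]
        refine le_trans ?_ (single_le_sum (fun i _ => sum_nonneg fun c _ => sum_nonneg fun a _ =>
          hnn i c a) (mem_univ i))
        refine le_trans ?_ (single_le_sum (fun c _ => sum_nonneg fun a _ => hnn i c a) (mem_univ c))
        refine le_trans ?_ (single_le_sum (fun a _ => hnn i c a) (mem_univ a))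
        rw [if_pos h]
      · rw [if_pos (not_le.1 hc)]
        exact le_add_of_nonneg_right (sum_nonneg fun i _ => sum_nonneg fun c _ =>
          sum_nonneg fun a _ => hnn i c a)
    have htot := sum_le_sum fun f (_ : f ∈ (univ : Finset (Pt K n → Fin Q))) => hpt f
    rw [sum_const, card_univ, Fintype.card_fun, Fintype.card_fin, nsmul_eq_mul, mul_one,
      Nat.cast_pow, ← hNf, sum_add_distrib] at htot
    have hA : ∑ f, (if thr < cost f then (1 : ℝ) else 0) ≤ Nf / 4 := by
      have hcnn : ∀ f, 0 ≤ cost f := fun f => sum_nonneg fun x _ => by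
        split_ifs
        · exact hg x
        · exact le_rfl
      have hcle : ∀ f, cost f ≤ G := fun f => sum_le_sum fun x _ => by
        split_ifs
        · exact le_rfl
        · exact hg x
      rcases hG0.eq_or_lt with hG | hG
      · refine le_trans (le_of_eq (sum_eq_zero fun f _ => if_neg ?_)) (by positivity)
        have : thr = 0 := by simp [thr, ← hG]
        linarith [hcle f]
      · have hthr : 0 < thr := by positivity
        calc ∑ f, (if thr < cost f then (1 : ℝ) else 0) ≤ ∑ f, cost f / thr :=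
              sum_le_sum fun f _ => by
                split_ifs with h
                · exact ((one_le_div hthr).2 h.le)
                · exact div_nonneg (hcnn f) hthr.le
          _ = Nf / 4 := by
              simp only [div_eq_mul_inv]
              rw [← sum_mul, hcost]
              simp only [thr]
              field_simp
    have hBsum : ∑ f, ∑ i, ∑ c, ∑ a, (if bad i c a f then (1 : ℝ) else 0) ≤ Nf / 8 := by
      rw [sum_comm]
      calc ∑ i, ∑ f, ∑ c, ∑ a, (if bad i c a f then (1 : ℝ) else 0)
          ≤ ∑ _i : Fin (I + 1), ∑ _c : Fin T, Nf * tauNet K n := by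
            refine sum_le_sum fun i _ => ?_
            rw [sum_comm]
            refine sum_le_sum fun c _ => ?_
            rw [sum_comm]
            refine le_trans (sum_le_sum fun a _ => hbad i c a) ?_
            rw [← mul_sum]
            exact mul_le_mul_of_nonneg_left (homsum i) hNpos.le
        _ = Nf * (((I : ℝ) + 1) * T * tauNet K n) := by
            simp only [sum_const, card_univ, Fintype.card_fin, nsmul_eq_mul]
            push_cast
            ring
        _ ≤ Nf / 8 := by
            rw [div_eq_mul_one_div Nf]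
            exact mul_le_mul_of_nonneg_left (by linarith) hNpos.le
    linarith
  let col : Pt K n → Option (Fin T) := fun x =>
    if h : (f x).val < T ∧ ∀ y ∈ B x, y ≠ x → T ≤ (f y).val then some ⟨(f x).val, h.1⟩ else none
  have hcolS : ∀ x, (col x).isSome → (f x).val < T ∧ ∀ y ∈ B x, y ≠ x → T ≤ (f y).val := by
    intro x hx
    simp only [col] at hx
    split_ifs at hx with h
    · exact h
    · simp at hx
  refine ⟨col, fun x y hx hy hne => ?_, ?_, fun c w hw => ?_⟩
  · by_contra hle
    have h1 := (hcolS x hx).2 y (by simp [B, sBall]; omega) hne.symm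
    have h2 := (hcolS y hy).1
    omega
  · refine le_trans (sum_le_sum fun x _ => ?_) hfc
    by_cases hx : (col x).isSome
    · rw [if_pos hx, if_pos (hcolS x hx).1]
    · rw [if_neg hx]
      split_ifs
      · exact hg x
      · exact le_rfl
  · have hrhs : 0 ≤ ∑ x, if col x = some c then dpi (w x) ^ 2 else 0 :=
      sum_nonneg fun x _ => by split_ifs <;> positivity
    rcases le_or_gt (En w) (2 * (K : ℝ) ^ n / 4 ^ I) with hEn | hEn
    · exact le_trans (div_nonpos_of_nonpos_of_nonneg (by linarith) (by positivity)) hrhs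
    obtain ⟨i, hi, hne, hlev⟩ := exists_level w I (by simpa using hEn)
    set i' : Fin (I + 1) := ⟨i, Nat.lt_succ_of_le hi⟩
    have hngood : ¬ Good K n m (1 / (16 * 2 ^ (i' : ℕ)) / 2) w := by
      rintro ⟨z, hz, hzx⟩
      obtain ⟨x, hx⟩ := hne
      simp only [mem_filter, mem_univ, true_and] at hx
      obtain ⟨k, hk⟩ := hz.2 x
      have h1 := dpi_le_abs_sub (w x) k
      have h2 := hzx x
      rw [hk] at h2
      have h3 : 1 / (16 * 2 ^ i) / 2 ≤ (1 : ℝ) / 2 ^ i := by
        field_simp
        norm_num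
      have : (i' : ℕ) = i := rfl
      rw [this] at h2
      linarith
    set W : {w : Pt K n → ℝ // InW K n m w ∧ ¬ Good K n m (1 / (16 * 2 ^ (i' : ℕ)) / 2) w} :=
      ⟨w, hw, hngood⟩
    set a := code i' W with ha
    have hnb := hfb i' c a
    simp only [bad, not_and, not_lt] at hnb
    have hcnt := hnb ⟨W, rfl, hlev⟩
    obtain ⟨hS1, hS2⟩ := hS i' a W rfl
    set P := (S i' a).filter fun x => Planted B T c f x
    have hsum : (P.card : ℝ) * (49 / (256 * 4 ^ i)) ≤
        ∑ x, if col x = some c then dpi (w x) ^ 2 else 0 := by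
      calc (P.card : ℝ) * (49 / (256 * 4 ^ i)) = ∑ _x ∈ P, (49 : ℝ) / (256 * 4 ^ i) := by simp
        _ ≤ ∑ x ∈ P, if col x = some c then dpi (w x) ^ 2 else 0 := by
            refine sum_le_sum fun x hx => ?_
            rw [mem_filter] at hx
            obtain ⟨hxS, hxc, hxo⟩ := hx
            have hcol : col x = some c := by
              simp only [col]
              rw [dif_pos ⟨hxc ▸ c.isLt, hxo⟩]
              exact congrArg some (Fin.ext hxc)
            rw [if_pos hcol]
            have h := hS2 x hxS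
            calc (49 : ℝ) / (256 * 4 ^ i) = (7 / (16 * 2 ^ i)) ^ 2 := by
                  rw [div_pow, mul_pow, ← pow_mul, mul_comm i, pow_mul]
                  norm_num
              _ ≤ dpi (w x) ^ 2 := pow_le_pow_left₀ (by positivity) h.le 2
        _ ≤ _ := sum_le_sum_of_subset_of_nonneg (subset_univ _) fun x _ _ => by
            split_ifs <;> positivity
    refine le_trans ?_ hsum
    have hS1' : ((Nl i w).card : ℝ) ≤ (S i' a).card * ballBd K n (20 * m) := by
      exact_mod_cast hS1
    have hlev' : 4 ^ i * En w ≤ 8 * ((I : ℝ) + 1) * ((S i' a).card * ballBd K n (20 * m)) :=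
      le_trans hlev (mul_le_mul_of_nonneg_left hS1' (by positivity))
    rw [div_le_iff₀ (by positivity)] at hcnt
    refine le_trans (div_le_div_of_nonneg_right (sub_le_self _ (by positivity)) (by positivity)) ?_
    rw [mul_div_assoc', div_le_div_iff₀ (by positivity) (by positivity)]
    have h6 : ((S i' a).card : ℝ) * (ballBd K n (20 * m) * ((I : ℝ) + 1)) ≤
        (P.card : ℝ) * (16 * Q) * (ballBd K n (20 * m) * ((I : ℝ) + 1)) :=
      mul_le_mul_of_nonneg_right hcnt (by positivity)
    have h7 : 0 ≤ (P.card : ℝ) * Q * (ballBd K n (20 * m) * ((I : ℝ) + 1)) := by positivity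
    linarith

end Vale.Agent.P047
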