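import Vale.Agent.P047.WBasic
import Mathlib.Algebra.BigOperators.Field

/-!
The halving stages of the rounding.

Proof notes.  From level l+1 to l: at every x pair the odd letters (an even number) in increasing
order, each pair oriented with pb the smaller one; at planted points of stage l the odd letters are
a and 0.  Of the two halved tables (H ± signed pairs)/2 take the one with smaller cost; planted
points of lower stages are even, hence halved exactly.
-/

namespace Vale.Agent.P047

open Finset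

namespace Stages

variable {K : ℕ}

/-- The letters with an odd entry. -/
def oddSet (r : Fin K → ℕ) : Finset (Fin K) := univ.filter fun a => r a % 2 = 1

lemma mem_oddSet {r : Fin K → ℕ} {a : Fin K} : a ∈ oddSet r ↔ r a % 2 = 1 := by simp [oddSet]

lemma card_oddSet_even {r : Fin K → ℕ} (h : Even (∑ a, r a)) : Even (oddSet r).card := by
  have he : ∑ a, r a = (oddSet r).card + 2 * ∑ a, r a / 2 := by
    rw [oddSet, card_filter, mul_sum, ← sum_add_distrib]
    refine sum_congr rfl fun a _ => ?_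
    split_ifs with h1 <;> omega
  rw [Nat.even_iff] at h ⊢
  omega

/-- The larger endpoint of pair i. -/
def hi (O : Finset (Fin K)) (i : Fin (O.card / 2)) : Fin K :=
  O.orderEmbOfFin rfl ⟨2 * i.val + 1, by have := i.isLt; omega⟩

/-- The smaller endpoint of pair i. -/
def lo (O : Finset (Fin K)) (i : Fin (O.card / 2)) : Fin K :=
  O.orderEmbOfFin rfl ⟨2 * i.val, by have := i.isLt; omega⟩

lemma hi_ne_lo (O : Finset (Fin K)) (i : Fin (O.card / 2)) : hi O i ≠ lo O i := by
  intro h
  have := (O.orderEmbOfFin rfl).injective h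
  simp [Fin.ext_iff] at this

lemma pair_count {O : Finset (Fin K)} (hO : Even O.card) (a : Fin K) :
    (∑ i, ((if hi O i = a then (1 : ℝ) else 0) + (if lo O i = a then 1 else 0))) =
        (if a ∈ O then 1 else 0) ∧
      ∀ e : Fin (O.card / 2) → ℝ, (∀ i, e i = 1 ∨ e i = -1) →
        ((∑ i, e i * ((if hi O i = a then 1 else 0) - (if lo O i = a then 1 else 0)) : ℝ) = 1 ∨
          (∑ i, e i * ((if hi O i = a then 1 else 0) - (if lo O i = a then 1 else 0)) : ℝ) = -1 ∨
            a ∉ O) ∧
        (a ∉ O →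
          (∑ i, e i * ((if hi O i = a then 1 else 0) - (if lo O i = a then 1 else 0)) : ℝ) = 0) := by
  by_cases ha : a ∈ O
  · obtain ⟨j, hj⟩ : ∃ j, O.orderEmbOfFin rfl j = a := by
      have : a ∈ Set.range (O.orderEmbOfFin rfl) := by rwa [range_orderEmbOfFin]
      exact this
    subst hj
    rw [Nat.even_iff] at hO
    have hjlt := j.isLt
    let i0 : Fin (O.card / 2) := ⟨j.val / 2, by omega⟩
    have hne : ∀ i, i ≠ i0 →
        hi O i ≠ O.orderEmbOfFin rfl j ∧ lo O i ≠ O.orderEmbOfFin rfl j := by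
      intro i hne
      have hv : i.val ≠ j.val / 2 := fun h => hne (Fin.ext h)
      constructor <;>
      · intro h
        have := congrArg Fin.val ((O.orderEmbOfFin rfl).injective h)
        simp at this
        omega
    have hcases : (hi O i0 = O.orderEmbOfFin rfl j ∧ lo O i0 ≠ O.orderEmbOfFin rfl j) ∨
        (hi O i0 ≠ O.orderEmbOfFin rfl j ∧ lo O i0 = O.orderEmbOfFin rfl j) := by
      rcases Nat.mod_two_eq_zero_or_one j.val with h | h
      · refine Or.inr ?_
        have hl : lo O i0 = O.orderEmbOfFin rfl j :=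
          congrArg (O.orderEmbOfFin rfl) (Fin.ext (show 2 * (j.val / 2) = j.val by omega))
        exact ⟨fun h' => hi_ne_lo O i0 (h'.trans hl.symm), hl⟩
      · refine Or.inl ?_
        have hh : hi O i0 = O.orderEmbOfFin rfl j :=
          congrArg (O.orderEmbOfFin rfl) (Fin.ext (show 2 * (j.val / 2) + 1 = j.val by omega))
        exact ⟨hh, fun h' => hi_ne_lo O i0 (hh.trans h'.symm)⟩
    refine ⟨?_, fun e he => ⟨?_, fun h => absurd ha h⟩⟩
    · rw [Fintype.sum_eq_single i0 fun i hi' => by simp [(hne i hi').1, (hne i hi').2], if_pos ha]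
      rcases hcases with ⟨h1, h2⟩ | ⟨h1, h2⟩ <;> simp [h1, h2]
    · rw [Fintype.sum_eq_single i0 fun i hi' => by simp [(hne i hi').1, (hne i hi').2]]
      rcases hcases with ⟨h1, h2⟩ | ⟨h1, h2⟩ <;> rcases he i0 with h3 | h3 <;> simp [h1, h2, h3]
  · have hne : ∀ i, hi O i ≠ a ∧ lo O i ≠ a := fun i =>
      ⟨fun h => ha (h ▸ orderEmbOfFin_mem O rfl _), fun h => ha (h ▸ orderEmbOfFin_mem O rfl _)⟩
    refine ⟨by simp [hne, ha], fun e _ => ⟨Or.inr (Or.inr ha), fun _ => by simp [hne]⟩⟩

lemma sum_fibre {α : Type*} [Fintype α] [DecidableEq α] {c : α → ℕ}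
    (F : ∀ x, Fin (c x) → ℝ) (x : α) :
    (∑ u : (y : α) × Fin (c y), if u.1 = x then F u.1 u.2 else 0) = ∑ i, F x i := by
  rw [Fintype.sum_sigma, Fintype.sum_eq_single x fun y hy => by simp [hy]]
  simp

/-- Signs for one halving. -/
lemma exists_sigma {n m : ℕ} [NeZero K] {P : Fin K → Finset (Pt K n)}
    (hP : HasSigning K n m P) (G : Pt K n → Fin K → ℕ)
    (hnull : ∀ a, Null K n m (fun x => (G x a : ℝ))) (heven : ∀ x, Even (∑ a, G x a))
    (hpl : ∀ a, a ≠ 0 → ∀ x ∈ P a, oddSet (G x) = {0, a}) :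
    ∃ σ : Pt K n → Fin K → ℝ, (∀ a, Null K n m (fun x => σ x a)) ∧ (∀ x, ∑ a, σ x a = 0) ∧
      ∀ x a, (G x a % 2 = 1 ∧ (σ x a = 1 ∨ σ x a = -1)) ∨ (G x a % 2 = 0 ∧ σ x a = 0) := by
  have hO := fun x => card_oddSet_even (heven x)
  have hpar : ∀ a z, IntW K n m z → ∃ k : ℤ,
      (∑ u : (x : Pt K n) × Fin ((oddSet (G x)).card / 2),
          if hi (oddSet (G u.1)) u.2 = a then z u.1 else 0)
        + (∑ u : (x : Pt K n) × Fin ((oddSet (G x)).card / 2),
          if lo (oddSet (G u.1)) u.2 = a then z u.1 else 0) = 2 * (k : ℝ) := by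
    intro a z hz
    choose kz hkz using hz.2
    refine ⟨-∑ x, kz x * ((G x a / 2 : ℕ) : ℤ), ?_⟩
    rw [← sum_add_distrib, Fintype.sum_sigma]
    calc ∑ x, ∑ i, ((if hi (oddSet (G x)) i = a then z x else 0) +
          (if lo (oddSet (G x)) i = a then z x else 0))
        = ∑ x, z x * ((G x a % 2 : ℕ) : ℝ) := by
          refine sum_congr rfl fun x _ => ?_
          have h1 : (if a ∈ oddSet (G x) then (1 : ℝ) else 0) = ((G x a % 2 : ℕ) : ℝ) := by
            rcases Nat.mod_two_eq_zero_or_one (G x a) with h | h <;> simp [mem_oddSet, h]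
          rw [← h1, ← (pair_count (hO x) a).1, mul_sum]
          simp [mul_add]
      _ = (∑ x, (G x a : ℝ) * z x) - 2 * ∑ x, z x * ((G x a / 2 : ℕ) : ℝ) := by
          rw [mul_sum, ← sum_sub_distrib]
          refine sum_congr rfl fun x _ => ?_
          have : ((G x a % 2 : ℕ) : ℝ) + 2 * ((G x a / 2 : ℕ) : ℝ) = (G x a : ℝ) := by
            exact_mod_cast Nat.mod_add_div (G x a) 2
          linear_combination z x * this
      _ = _ := by
          rw [hnull a z hz.1]
          simp only [hkz, Int.cast_neg, Int.cast_sum, Int.cast_mul,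
            Int.cast_natCast, zero_sub, mul_neg]
  have hplant : ∀ a, a ≠ 0 → ∀ x ∈ P a, ∃ u : (y : Pt K n) × Fin ((oddSet (G y)).card / 2),
      u.1 = x ∧ hi (oddSet (G u.1)) u.2 = a ∧ lo (oddSet (G u.1)) u.2 = 0 := by
    intro a ha x hx
    have hs := hpl a ha x hx
    have hc : (oddSet (G x)).card = 2 := by rw [hs, card_pair (Ne.symm ha)]
    have hlo : lo (oddSet (G x)) ⟨0, by omega⟩ = 0 := by
      have hm : (oddSet (G x)).orderEmbOfFin rfl ⟨0, by omega⟩ = (0 : Fin K) := by
        rw [orderEmbOfFin_zero rfl (by omega)]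
        refine le_antisymm (min'_le _ _ (by rw [hs]; simp)) (Fin.zero_le _)
      exact hm
    refine ⟨⟨x, ⟨0, by omega⟩⟩, rfl, ?_, hlo⟩
    have hmem : hi (oddSet (G x)) ⟨0, by omega⟩ ∈ ({0, a} : Finset (Fin K)) :=
      hs ▸ orderEmbOfFin_mem (oddSet (G x)) rfl ⟨2 * 0 + 1, by omega⟩
    simp only [mem_insert, mem_singleton] at hmem
    exact hmem.resolve_left fun h => hi_ne_lo _ _ (h.trans hlo.symm)
  obtain ⟨e, he, henull⟩ := hP ((x : Pt K n) × Fin ((oddSet (G x)).card / 2)) Sigma.fst
    (fun u => hi (oddSet (G u.1)) u.2) (fun u => lo (oddSet (G u.1)) u.2)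
    (fun u => hi_ne_lo _ _) hpar hplant
  refine ⟨_, henull, fun x => ?_, fun x a => ?_⟩
  · rw [sum_comm]
    refine sum_eq_zero fun u _ => ?_
    by_cases h : u.1 = x
    · simp only [h, if_true, ← mul_sum, sum_sub_distrib, sum_ite_eq, mem_univ, sub_self, mul_zero]
    · simp [h]
  · rw [sum_fibre (fun y i => e ⟨y, i⟩ * ((if hi (oddSet (G y)) i = a then 1 else 0) -
      (if lo (oddSet (G y)) i = a then 1 else 0))) x]
    obtain ⟨h1, h2⟩ := (pair_count (hO x) a).2 (fun i => e ⟨x, i⟩) fun i => he _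
    by_cases h : a ∈ oddSet (G x)
    · exact Or.inl ⟨mem_oddSet.1 h,
        h1.imp_right fun h' => h'.elim id fun h'' => absurd h h''⟩
    · exact Or.inr ⟨by have := mt mem_oddSet.2 h; omega, h2 h⟩

end Stages

open Stages in
theorem round_stages (K n m s : ℕ) [NeZero K]
    (col : Pt K n → Option (Fin K × Fin s)) (H : Pt K n → Fin K → ℕ)
    (hnull : ∀ a, Null K n m (fun x => (H x a : ℝ))) (hsum : ∀ x, ∑ a, H x a = 2 ^ s)
    (hpat : ∀ x a l, col x = some (a, l) → ∀ b, H x b = 2 ^ (s - (l.val + 1)) *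
      ((if b = a then 1 else 0) + (if b = 0 then 2 ^ (l.val + 1) - 1 else 0)))
    (hsign : ∀ l : Fin s, HasSigning K n m fun a => univ.filter fun x => col x = some (a, l))
    (cost : Pt K n → Fin K → ℝ) :
    ∃ f : Pt K n → Fin K, (∀ a, Null K n m (fun x => if f x = a then 1 else 0)) ∧
      2 ^ s * ∑ x, cost x (f x) ≤ ∑ x, ∑ a, (H x a : ℝ) * cost x a := by
  suffices key : ∀ l, l ≤ s → ∀ G : Pt K n → Fin K → ℕ,
      (∀ a, Null K n m (fun x => (G x a : ℝ))) → (∀ x, ∑ a, G x a = 2 ^ l) →
      (∀ x a (j : Fin s), col x = some (a, j) → j.val < l → ∀ b, G x b = 2 ^ (l - (j.val + 1)) *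
        ((if b = a then 1 else 0) + (if b = 0 then 2 ^ (j.val + 1) - 1 else 0))) →
      ∃ f : Pt K n → Fin K, (∀ a, Null K n m (fun x => if f x = a then 1 else 0)) ∧
        2 ^ l * ∑ x, cost x (f x) ≤ ∑ x, ∑ a, (G x a : ℝ) * cost x a from
    key s le_rfl H hnull hsum fun x a j h _ => hpat x a j h
  intro l
  induction l with
  | zero =>
    intro _ G hG hGs _
    have hex : ∀ x, ∃ a, G x a ≠ 0 := fun x => by
      by_contra h
      simp only [not_exists, not_not] at h
      have := hGs x
      simp [h] at this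
    choose f hf using hex
    have hone : ∀ x a, (G x a : ℝ) = if f x = a then 1 else 0 := by
      intro x a
      have h1 := hGs x
      rw [← add_sum_erase _ _ (mem_univ (f x))] at h1
      have := hf x
      split_ifs with h
      · subst h
        have : G x (f x) = 1 := by omega
        simp [this]
      · have h2 : ∑ b ∈ univ.erase (f x), G x b = 0 := by omega
        have := sum_eq_zero_iff.1 h2 a (mem_erase.2 ⟨Ne.symm h, mem_univ _⟩)
        simp [this]
    refine ⟨f, fun a => ?_, ?_⟩
    · have := hG a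
      simpa only [hone] using this
    · simp [hone]
  | succ l ih =>
    intro hl G hG hGs hGp
    set L : Fin s := ⟨l, hl⟩
    obtain ⟨σ, hσn, hσs, hσ⟩ := exists_sigma (hsign L) G hG
      (fun x => by rw [hGs]; exact (Nat.even_pow.2 ⟨even_two, l.succ_ne_zero⟩))
      (fun a ha x hx => by
        ext b
        have hb := hGp x a L (mem_filter.1 hx).2 (Nat.lt_succ_self l) b
        simp only [L, Nat.sub_self, pow_zero, one_mul] at hb
        have hodd : (2 ^ (l + 1) - 1) % 2 = 1 := by
          have : 2 ^ (l + 1) = 2 * 2 ^ l := by rw [pow_succ]; ring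
          have := Nat.two_pow_pos l
          omega
        simp only [mem_oddSet, hb, mem_insert, mem_singleton]
        by_cases h0 : b = 0
        · subst h0; simp [Ne.symm ha, hodd]
        · by_cases h1 : b = a <;> simp [h0, h1, ha])
    obtain ⟨s₀, hs₀, hs₀'⟩ : ∃ s₀ : ℝ, (s₀ = 1 ∨ s₀ = -1) ∧
        s₀ * ∑ x, ∑ a, σ x a * cost x a ≤ 0 := by
      rcases le_total (∑ x, ∑ a, σ x a * cost x a) 0 with h | h
      · exact ⟨1, Or.inl rfl, by linarith⟩
      · exact ⟨-1, Or.inr rfl, by linarith⟩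
    have hval : ∀ x a, ∃ k : ℕ, (k : ℝ) = ((G x a : ℝ) + s₀ * σ x a) / 2 := by
      intro x a
      rcases hσ x a with ⟨h, h'⟩ | ⟨h, h'⟩
      · have hq : ((G x a : ℝ)) = 2 * ((G x a / 2 : ℕ) : ℝ) + 1 := by
          exact_mod_cast (show G x a = 2 * (G x a / 2) + 1 by omega)
        have hone : s₀ * σ x a = 1 ∨ s₀ * σ x a = -1 := by
          rcases hs₀ with r | r <;> rcases h' with t | t <;> simp [r, t]
        rcases hone with t | t
        · exact ⟨G x a / 2 + 1, by push_cast; rw [t, hq]; ring⟩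
        · exact ⟨G x a / 2, by rw [t, hq]; ring⟩
      · refine ⟨G x a / 2, ?_⟩
        have hq : ((G x a : ℝ)) = 2 * ((G x a / 2 : ℕ) : ℝ) := by
          exact_mod_cast (show G x a = 2 * (G x a / 2) by omega)
        rw [h', mul_zero, add_zero, hq]
        ring
    choose G' hG' using hval
    obtain ⟨f, hfn, hfc⟩ := ih (Nat.le_of_succ_le hl) G'
      (fun a w hw => by
        simp only [hG', div_mul_eq_mul_div, add_mul, mul_assoc]
        rw [← sum_div, sum_add_distrib, ← mul_sum, hG a w hw, hσn a w hw]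
        simp)
      (fun x => by
        have : (∑ a, (G' x a : ℝ)) = (2 : ℝ) ^ l := by
          simp only [hG']
          rw [← sum_div, sum_add_distrib, ← mul_sum, hσs x, ← Nat.cast_sum, hGs x]
          push_cast
          ring
        exact_mod_cast this)
      (fun x a j hj hjl b => by
        have hb := hGp x a j hj (Nat.lt_succ_of_lt hjl) b
        rw [show l + 1 - (j.val + 1) = l - (j.val + 1) + 1 by omega, pow_succ] at hb
        have hev : G x b % 2 = 0 := by
          rw [hb, mul_comm (2 ^ _) 2, mul_assoc]; exact Nat.mul_mod_right _ _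
        rcases hσ x b with ⟨h, _⟩ | ⟨_, h'⟩
        · omega
        · have := hG' x b
          rw [h', mul_zero, add_zero, hb] at this
          have e : ((G' x b : ℕ) : ℝ) = ((2 ^ (l - (j.val + 1)) *
              ((if b = a then 1 else 0) + (if b = 0 then 2 ^ (j.val + 1) - 1 else 0)) : ℕ) : ℝ) := by
            rw [this]; push_cast; ring
          exact_mod_cast e)
    refine ⟨f, hfn, ?_⟩
    have hc : ∑ x, ∑ a, (G' x a : ℝ) * cost x a =
        (∑ x, ∑ a, (G x a : ℝ) * cost x a + s₀ * ∑ x, ∑ a, σ x a * cost x a) / 2 := by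
      simp only [hG', div_mul_eq_mul_div, add_mul, mul_assoc, ← sum_div, sum_add_distrib, mul_sum]
    rw [hc] at hfc
    rw [pow_succ]
    linarith

end Vale.Agent.P047
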