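import Vale.Agent.P047.Signing
import Vale.Agent.P047.Sampling
import Vale.Agent.P047.Junk
import Vale.Agent.P047.Stages
import Vale.Agent.P047.Kernel
import Vale.Agent.P047.Gadget
import Vale.Agent.P047.Params

/-!
Assembly for P047: one level (kernel, planting, initial table, halving stages) and the final
statement.
-/

namespace Vale.Agent.P047

open Finset

theorem step_ok : ∃ C : ℝ, ∃ J0 : ℕ, 0 ≤ C ∧ ∀ J : ℕ, J0 ≤ J →
    StepOK (J ^ 10) (J ^ 80) (J ^ 69) (C / (J : ℝ) ^ 14) := by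
  obtain ⟨C, J1, hC0, hker⟩ := exists_kernel
  obtain ⟨J2, hpar⟩ := params_ok
  refine ⟨3 * C, max (max J1 J2) 1, by positivity, fun J hJ => ?_⟩
  have hJ1 : J1 ≤ J := le_trans (le_trans (le_max_left _ _) (le_max_left _ _)) hJ
  have hJ2 : J2 ≤ J := le_trans (le_trans (le_max_right _ _) (le_max_left _ _)) hJ
  have hJpos : 1 ≤ J := le_trans (le_max_right _ _) hJ
  obtain ⟨K, hKdef⟩ : ∃ K, K = J ^ 10 := ⟨_, rfl⟩
  obtain ⟨n, hndef⟩ : ∃ n, n = J ^ 80 := ⟨_, rfl⟩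
  obtain ⟨m, hmdef⟩ : ∃ m, m = J ^ 69 := ⟨_, rfl⟩
  rw [← hKdef, ← hndef, ← hmdef]
  obtain ⟨g, hgdef⟩ : ∃ g, g = J ^ 11 := ⟨_, rfl⟩
  obtain ⟨s, hsdef⟩ : ∃ s, s = K * n := ⟨_, rfl⟩
  obtain ⟨I, hIdef⟩ : ∃ I, I = 2 * n * K := ⟨_, rfl⟩
  obtain ⟨L, hLdef⟩ : ∃ L, L = 32 * K ^ 2 := ⟨_, rfl⟩
  obtain ⟨Q, hQdef⟩ : ∃ Q, Q = qPar J := ⟨_, rfl⟩
  obtain ⟨⟨hK2, hn1, hm1, hg5, hgm, hT1⟩, ⟨hchoose, hs⟩, ⟨hQ, hTQ⟩, ⟨hF, hU⟩, hh1, hh2, hh3, hh4⟩ :=
    hpar J hJ2 K n m g s (K * s) Q I L hKdef hndef hmdef hgdef hsdef rfl hQdef hIdef hLdef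
  have : NeZero K := ⟨by omega⟩
  intro b mu v hM
  obtain ⟨z, h, hpos, hsum, hlow, hcost, htot⟩ := hker J hJ1 K n m hKdef hndef hmdef b mu v hM
  have hwt : ∀ x : Pt K n, 0 ≤ wt mu x := fun x => prod_nonneg fun i _ => hM.mu_nn _
  obtain ⟨col0, hiso, hweight, hsamp⟩ := exists_planting K n m (K * s) Q I hK2 hn1 hT1
    (fun x : Pt K n => wt mu x * ∑ a, (TT v x - z a) ^ 2)
    (fun x => mul_nonneg (hwt x) (sum_nonneg fun a _ => sq_nonneg _)) hQ hF hU
  let col : Pt K n → Option (Fin K × Fin s) := fun x => (col0 x).map finProdFinEquiv.symm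
  have hcol : ∀ x, (col x).isSome = (col0 x).isSome := fun x => Option.isSome_map
  obtain ⟨H, hnull, hHsum, hpat, hHle⟩ := exists_initial K n m g s hK2 hm1 hg5 hgm
    (1 / (J : ℝ) ^ 50) h hpos hsum hlow hchoose hs col
    (fun x y hx hy => hiso x y (hcol x ▸ hx) (hcol y ▸ hy))
  have hsign : ∀ l : Fin s,
      HasSigning K n m fun a => univ.filter fun x => col x = some (a, l) := by
    intro l
    refine exists_signing K n m L hK2 hn1 _
      (1 / (1024 * (Q : ℝ) * (I + 1) * ballBd K n (20 * m))) (2 * (K : ℝ) ^ n / 4 ^ I)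
      (Real.exp ((n : ℝ) / (16 * K))) ?_ (by positivity) (Real.one_le_exp (by positivity))
      ?_ hh1 hh2 hh3 hh4
    · have hb : ∀ r, (0 : ℝ) < ballBd K n r := fun r => by
        have : 0 < ballBd K n r := pow_pos (Nat.succ_pos _) _
        exact_mod_cast this
      have hQpos : (0 : ℝ) < Q := by
        have h1 : 0 < ballBd K n (10 * m) := pow_pos (Nat.succ_pos _) _
        have h2 : 0 < 2 * (K * s) * ballBd K n (10 * m) := by positivity
        exact_mod_cast lt_of_lt_of_le h2 hQ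
      have := hb (20 * m)
      positivity
    · intro a _ w hw
      refine le_trans (le_of_eq (by ring)) (le_trans (hsamp (finProdFinEquiv (a, l)) w hw) ?_)
      rw [sum_filter]
      refine le_of_eq (sum_congr rfl fun x _ => ?_)
      have : col0 x = some (finProdFinEquiv (a, l)) ↔ col x = some (a, l) := by
        simp only [col]
        cases col0 x with
        | none => simp
        | some c =>
          simp only [Option.map_some, Option.some.injEq]
          exact (Equiv.symm_apply_eq finProdFinEquiv).symm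
      by_cases hx : col x = some (a, l)
      · rw [if_pos hx, if_pos (this.2 hx)]
      · rw [if_neg hx, if_neg (fun h' => hx (this.1 h'))]
  obtain ⟨f, hfnull, hfcost⟩ := round_stages K n m s col H hnull hHsum hpat hsign
    (fun x a => wt mu x * (TT v x - z a) ^ 2)
  refine ⟨f, z, hfnull, ?_⟩
  have hp2 : (0 : ℝ) < 2 ^ s := by positivity
  have hJr : (1 : ℝ) ≤ J := by exact_mod_cast hJpos
  set d : ℝ := 1 / (J : ℝ) ^ 50 with hd
  set S0 : ℝ := ∑ x : Pt K n, wt mu x * ∑ a, h x a * (TT v x - z a) ^ 2 with hS0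
  set S1 : ℝ := ∑ x : Pt K n, wt mu x * ∑ a, (TT v x - z a) ^ 2 with hS1
  have hS1nn : 0 ≤ S1 := sum_nonneg fun x _ => mul_nonneg (hwt x) (sum_nonneg fun a _ => sq_nonneg _)
  have key : ∑ x, ∑ a, (H x a : ℝ) * (wt mu x * (TT v x - z a) ^ 2) ≤
      2 ^ s * (S0 + d * S1 + d * S1) := by
    have hpt : ∀ x, ∑ a, (H x a : ℝ) * (wt mu x * (TT v x - z a) ^ 2) ≤
        2 ^ s * (wt mu x * ∑ a, h x a * (TT v x - z a) ^ 2
          + d * (wt mu x * ∑ a, (TT v x - z a) ^ 2)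
          + (if (col0 x).isSome then wt mu x * ∑ a, (TT v x - z a) ^ 2 else 0)) := by
      intro x
      have hc0 : ∀ a, 0 ≤ wt mu x * (TT v x - z a) ^ 2 := fun a => mul_nonneg (hwt x) (sq_nonneg _)
      have hh0 : ∀ a, 0 ≤ h x a := fun a => le_trans (by positivity) (hpos x a)
      by_cases hx : col0 x = none
      · have hx' : col x = none := by simp [col, hx]
        calc ∑ a, (H x a : ℝ) * (wt mu x * (TT v x - z a) ^ 2)
            ≤ ∑ a, 2 ^ s * (h x a + d) * (wt mu x * (TT v x - z a) ^ 2) :=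
              sum_le_sum fun a _ => mul_le_mul_of_nonneg_right (hHle x a hx') (hc0 a)
          _ = _ := by
              simp only [hx, Option.isSome_none, Bool.false_eq_true, if_false, add_zero, mul_sum,
                ← sum_add_distrib]
              exact sum_congr rfl fun a _ => by ring
      · have hs' : (col0 x).isSome := Option.isSome_iff_ne_none.2 hx
        have hHa : ∀ a, (H x a : ℝ) ≤ 2 ^ s := fun a => by
          have : H x a ≤ 2 ^ s := hHsum x ▸ single_le_sum (fun b _ => Nat.zero_le _) (mem_univ a)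
          exact_mod_cast this
        calc ∑ a, (H x a : ℝ) * (wt mu x * (TT v x - z a) ^ 2)
            ≤ ∑ a, 2 ^ s * (wt mu x * (TT v x - z a) ^ 2) :=
              sum_le_sum fun a _ => mul_le_mul_of_nonneg_right (hHa a) (hc0 a)
          _ ≤ _ := by
              rw [if_pos hs', ← mul_sum]
              refine mul_le_mul_of_nonneg_left ?_ hp2.le
              rw [← mul_sum]
              have h1 : 0 ≤ wt mu x * ∑ a, h x a * (TT v x - z a) ^ 2 :=
                mul_nonneg (hwt x) (sum_nonneg fun a _ => mul_nonneg (hh0 a) (sq_nonneg _))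
              have h2 : 0 ≤ d * (wt mu x * ∑ a, (TT v x - z a) ^ 2) :=
                mul_nonneg (by positivity) (mul_nonneg (hwt x) (sum_nonneg fun a _ => sq_nonneg _))
              linarith
    refine le_trans (sum_le_sum fun x _ => hpt x) ?_
    rw [← mul_sum, sum_add_distrib, sum_add_distrib, ← mul_sum]
    refine mul_le_mul_of_nonneg_left ?_ hp2.le
    have : 4 * ((K * s : ℕ) : ℝ) / Q * S1 ≤ d * S1 := mul_le_mul_of_nonneg_right hTQ hS1nn
    linarith
  have hfin : ∑ x, wt mu x * (TT v x - z (f x)) ^ 2 ≤ S0 + d * S1 + d * S1 :=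
    le_of_mul_le_mul_left (le_trans hfcost key) hp2
  refine le_trans hfin ?_
  have hnb : 0 ≤ (n : ℝ) * b := mul_nonneg (by positivity) (le_trans zero_le_one hM.b_pos)
  have hdS : d * S1 ≤ C / (J : ℝ) ^ 14 * n * b := by
    calc d * S1 ≤ d * (C * (K : ℝ) * (J : ℝ) ^ 6 * n * b) :=
          mul_le_mul_of_nonneg_left htot (by positivity)
      _ = C / (J : ℝ) ^ 34 * (n * b) := by
          rw [hd, hKdef]; push_cast; field_simp
      _ ≤ C / (J : ℝ) ^ 14 * (n * b) := by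
          refine mul_le_mul_of_nonneg_right ?_ hnb
          exact div_le_div_of_nonneg_left hC0 (by positivity) (pow_le_pow_right₀ hJr (by norm_num))
      _ = _ := by ring
  calc S0 + d * S1 + d * S1 ≤ C / (J : ℝ) ^ 14 * n * b + C / (J : ℝ) ^ 14 * n * b
        + C / (J : ℝ) ^ 14 * n * b := add_le_add (add_le_add hcost hdS) hdS
    _ = _ := by ring

theorem unbounded_ratio (C : ℝ) :
    ∃ (n : ℕ) (f : (Fin n → Bool) → ℝ), (∀ x, f x = 1 ∨ f x = -1) ∧
      C * Real.sqrt (fourierDeg f) < ∑ i, fourierCoeff f {i} := by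
  obtain ⟨C0, J0, hC0, hstep⟩ := step_ok
  obtain ⟨J, hJ0, hJ2, hJC, hJD⟩ : ∃ J : ℕ, J0 ≤ J ∧ 2 ≤ J ∧ 2 * C0 ≤ J ∧ 24 * C ^ 2 < J := by
    refine ⟨max (max J0 2) (max ⌈2 * C0⌉₊ (⌊24 * C ^ 2⌋₊ + 1)),
      le_trans (le_max_left _ _) (le_max_left _ _), le_trans (le_max_right _ _) (le_max_left _ _),
      le_trans (Nat.le_ceil _) (Nat.cast_le.2 (le_trans (le_max_left _ _) (le_max_right _ _))), ?_⟩
    refine lt_of_lt_of_le (Nat.lt_floor_add_one _) ?_
    exact_mod_cast le_trans (le_max_right _ _) (le_max_right _ _)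
  have hJr : (2 : ℝ) ≤ J := by exact_mod_cast hJ2
  have hJ1 : 1 ≤ J := by omega
  have hK : 2 ≤ J ^ 10 := le_trans hJ2 (Nat.le_self_pow (by norm_num) J)
  have hn : 1 ≤ J ^ 80 := Nat.one_le_pow _ _ hJ1
  have hmn : J ^ 69 ≤ J ^ 80 := Nat.pow_le_pow_right hJ1 (by norm_num)
  have hL : ((J ^ 12 : ℕ) : ℝ) * (C0 / (J : ℝ) ^ 14) ≤ 1 / 2 := by
    push_cast
    have he : (J : ℝ) ^ 12 * (C0 / (J : ℝ) ^ 14) = C0 / (J : ℝ) ^ 2 := by field_simp
    rw [he, div_le_iff₀ (by positivity)]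
    nlinarith
  obtain ⟨N, f, hf, hdeg, hnn, hsq⟩ := exists_function_of_step (J ^ 10) (J ^ 80) (J ^ 69) (J ^ 12)
    (C0 / (J : ℝ) ^ 14) hK hn hmn (by positivity) (hstep J hJ0) hL
  refine ⟨N, f, hf, ?_⟩
  set S := ∑ i, fourierCoeff f {i}
  set D : ℝ := ((J ^ 80 - J ^ 69 : ℕ) : ℝ) ^ (J ^ 12) with hD
  have hDdeg : (fourierDeg f : ℝ) ≤ D := by
    rw [hD]; exact_mod_cast hdeg
  have hgrow : (J : ℝ) * D ≤ ((J ^ 80 : ℕ) : ℝ) ^ (J ^ 12) := by
    have hlt : J ^ 69 < J ^ 80 := Nat.pow_lt_pow_right (by omega) (by norm_num)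
    have hcast : ((J ^ 80 - J ^ 69 : ℕ) : ℝ) = (J : ℝ) ^ 80 * (1 - 1 / (J : ℝ) ^ 11) := by
      rw [Nat.cast_sub hmn]; push_cast; field_simp
    have hexp : (1 - 1 / (J : ℝ) ^ 11) ^ (J ^ 12) ≤ 1 / (J : ℝ) := by
      have h0 : (0 : ℝ) ≤ 1 - 1 / (J : ℝ) ^ 11 := by
        rw [sub_nonneg, div_le_one (by positivity)]
        exact one_le_pow₀ (by linarith)
      calc (1 - 1 / (J : ℝ) ^ 11) ^ (J ^ 12)
          ≤ Real.exp (-(1 / (J : ℝ) ^ 11)) ^ (J ^ 12) :=
            pow_le_pow_left₀ h0 (by linarith [Real.add_one_le_exp (-(1 / (J : ℝ) ^ 11))]) _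
        _ = Real.exp (-(J : ℝ)) := by
            rw [← Real.exp_nat_mul]; congr 1; push_cast; field_simp
        _ ≤ 1 / (J : ℝ) := by
            rw [Real.exp_neg, one_div]
            exact inv_anti₀ (by linarith) (by linarith [Real.add_one_le_exp (J : ℝ)])
    rw [hD, hcast, mul_pow]
    push_cast
    calc (J : ℝ) * (((J : ℝ) ^ 80) ^ (J ^ 12) * (1 - 1 / (J : ℝ) ^ 11) ^ (J ^ 12))
        ≤ (J : ℝ) * (((J : ℝ) ^ 80) ^ (J ^ 12) * (1 / (J : ℝ))) := by
          gcongr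
      _ = ((J : ℝ) ^ 80) ^ (J ^ 12) := by field_simp
  have hDpos : 0 < D := by
    rw [hD]
    have hlt : J ^ 69 < J ^ 80 := Nat.pow_lt_pow_right (by omega) (by norm_num)
    exact pow_pos (by exact_mod_cast Nat.sub_pos_of_lt hlt) _
  have hkey : C ^ 2 * D < S ^ 2 := by
    have h1 : 24 * C ^ 2 * D < (J : ℝ) * D := mul_lt_mul_of_pos_right hJD hDpos
    have h2 : (J : ℝ) * D / 24 ≤ S ^ 2 := le_trans (by linarith) hsq
    linarith
  by_contra hcon
  rw [not_lt] at hcon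
  have hsqrt : 0 ≤ Real.sqrt (fourierDeg f) := Real.sqrt_nonneg _
  have : S ^ 2 ≤ C ^ 2 * D := by
    calc S ^ 2 ≤ (C * Real.sqrt (fourierDeg f)) ^ 2 := by gcongr
      _ = C ^ 2 * (fourierDeg f : ℝ) := by rw [mul_pow, Real.sq_sqrt (Nat.cast_nonneg _)]
      _ ≤ C ^ 2 * D := by gcongr
  linarith

end Vale.Agent.P047
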