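import Vale.Agent.P047.NetAuxCover

/-!
One step of the induction in the net lemma.
-/

namespace Vale.Agent.P047

open Finset

namespace NetAux

variable {K n₀ i j : ℕ}

/-- The remainder of the omitted slice. -/
noncomputable def resid (a0 : Fin K) (r0 z0 : Pt K i → ℝ) (r1 z1 : Fin K → Pt K i → ℝ)
    (w : Pt K (i + 1) → ℝ) (y : Pt K i) : ℝ :=
  ((∑ a, slice w a y) - r0 y - Real.pi * z0 y)
    - ∑ a ∈ univ.erase a0, (slice w a y - r1 a y - Real.pi * z1 a y)

theorem slice_eq (a0 : Fin K) (r0 z0 : Pt K i → ℝ) (r1 z1 : Fin K → Pt K i → ℝ)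
    (w : Pt K (i + 1) → ℝ) (y : Pt K i) :
    slice w a0 y = r0 y - ∑ a ∈ univ.erase a0, r1 a y
      + Real.pi * (z0 y - ∑ a ∈ univ.erase a0, z1 a y) + resid a0 r0 z0 r1 z1 w y := by
  have e : slice w a0 y + ∑ a ∈ univ.erase a0, slice w a y = ∑ a, slice w a y :=
    Finset.add_sum_erase univ (fun a => slice w a y) (mem_univ a0)
  simp only [resid, sum_sub_distrib, ← mul_sum]
  linarith

theorem resid_inW (a0 : Fin K) {r0 z0 : Pt K i → ℝ} {r1 z1 : Fin K → Pt K i → ℝ}
    {w : Pt K (i + 1) → ℝ} (hw : InW K (i + 1) (j + 1) w) (hr0 : InW K i j r0)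
    (hz0 : InW K i j z0) (hr1 : ∀ a, InW K i (j + 1) (r1 a))
    (hz1 : ∀ a, InW K i (j + 1) (z1 a)) :
    InW K i (j + 1) (resid a0 r0 z0 r1 z1 w) := by
  obtain ⟨hsl, hS⟩ := inW_succ_succ_iff.1 hw
  have h0 := inW_succ (inW_sub (inW_sub hS hr0) (inW_smul Real.pi hz0))
  have h1 := inW_sum (univ.erase a0) (fun a => slice w a - r1 a - Real.pi • z1 a)
    fun a _ => inW_sub (inW_sub (hsl a) (hr1 a)) (inW_smul Real.pi (hz1 a))
  convert inW_sub h0 h1 using 1
  funext y
  simp [resid, Finset.sum_apply]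

theorem resid_sq (a0 : Fin K) {r0 z0 : Pt K i → ℝ} {r1 z1 : Fin K → Pt K i → ℝ}
    {w : Pt K (i + 1) → ℝ}
    (h0 : ∑ y, ((∑ a, slice w a y) - r0 y - Real.pi * z0 y) ^ 2
      ≤ 6 * En (fun y => ∑ a, slice w a y))
    (h1 : ∀ a, ∑ y, (slice w a y - r1 a y - Real.pi * z1 a y) ^ 2 ≤ 6 * En (slice w a)) :
    ∑ y, resid a0 r0 z0 r1 z1 w y ^ 2 ≤ 12 * (K : ℝ) ^ 2 * En w := by
  classical
  let F : Fin K → Pt K i → ℝ := fun a y => if a = a0
    then ((∑ b, slice w b y) - r0 y - Real.pi * z0 y)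
    else -(slice w a y - r1 a y - Real.pi * z1 a y)
  have hpt : ∀ y, resid a0 r0 z0 r1 z1 w y ^ 2 ≤ (K : ℝ) * ∑ a, F a y ^ 2 := by
    intro y
    have e : resid a0 r0 z0 r1 z1 w y = ∑ a, F a y := by
      rw [← Finset.add_sum_erase univ (fun a => F a y) (mem_univ a0), resid,
        sub_eq_add_neg _ (∑ a ∈ univ.erase a0, _), ← sum_neg_distrib]
      congr 1
      · simp [F]
      · exact sum_congr rfl fun a ha => by simp [F, (mem_erase.1 ha).1]
    rw [e]
    exact sq_sum_le_card_mul_sum_sq.trans_eq (by simp)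
  refine (sum_le_sum fun y _ => hpt y).trans ?_
  rw [← mul_sum, sum_comm, ← Finset.add_sum_erase univ _ (mem_univ a0)]
  have hE := En_nonneg w
  have hK : (1 : ℝ) ≤ K := by exact_mod_cast a0.pos
  have b0 : ∑ y, F a0 y ^ 2 ≤ 6 * ((K : ℝ) * En w) := by
    simp only [F, if_true]
    exact h0.trans (by linarith [En_sliceSum_le w])
  have b1 : ∑ a ∈ univ.erase a0, ∑ y, F a y ^ 2 ≤ 6 * En w := by
    rw [En_slices, mul_sum]
    refine le_trans (sum_le_sum fun a ha => ?_)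
      (sum_le_sum_of_subset_of_nonneg (erase_subset _ _) fun a _ _ =>
        mul_nonneg (by norm_num) (En_nonneg _))
    simp only [F, if_neg (mem_erase.1 ha).1, neg_sq]
    exact h1 a
  calc (K : ℝ) * (∑ y, F a0 y ^ 2 + ∑ a ∈ univ.erase a0, ∑ y, F a y ^ 2)
      ≤ (K : ℝ) * (6 * ((K : ℝ) * En w) + 6 * En w) := by gcongr
    _ ≤ (K : ℝ) * (12 * (K : ℝ) * En w) := by
        refine mul_le_mul_of_nonneg_left ?_ (by linarith)
        nlinarith
    _ = _ := by ring

theorem glue_intW (a0 : Fin K) {z0 : Pt K i → ℝ} {z1 : Fin K → Pt K i → ℝ}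
    (h0 : IntW K i j z0) (h1 : ∀ a, IntW K i (j + 1) (z1 a)) :
    IntW K (i + 1) (j + 1) (fun x => if x 0 = a0
      then z0 (Fin.tail x) - ∑ b ∈ univ.erase a0, z1 b (Fin.tail x)
      else z1 (x 0) (Fin.tail x)) := by
  classical
  refine ⟨inW_succ_succ_iff.2 ⟨fun a => ?_, ?_⟩, fun x => ?_⟩
  · by_cases ha : a = a0
    · convert inW_sub (inW_succ h0.1) (inW_sum (univ.erase a0) z1 fun b _ => (h1 b).1) using 1
      funext y
      simp [slice, ha, Finset.sum_apply]
    · convert (h1 a).1 using 1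
      funext y
      simp [slice, ha]
  · convert h0.1 using 1
    funext y
    rw [← Finset.add_sum_erase univ _ (mem_univ a0)]
    have e : ∀ b ∈ univ.erase a0, slice (fun x : Pt K (i + 1) => if x 0 = a0
        then z0 (Fin.tail x) - ∑ b ∈ univ.erase a0, z1 b (Fin.tail x)
        else z1 (x 0) (Fin.tail x)) b y = z1 b y := fun b hb => by
      simp [slice, (mem_erase.1 hb).1]
    rw [sum_congr rfl e]
    simp [slice]
  · simp only
    split
    · obtain ⟨k, hk⟩ := h0.2 (Fin.tail x)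
      choose f hf using fun b : Fin K => (h1 b).2 (Fin.tail x)
      exact ⟨k - ∑ b ∈ univ.erase a0, f b, by push_cast; rw [hk]; simp only [hf]⟩
    · exact (h1 _).2 _

theorem sum_weights {α A B S : Type*} [Fintype α] [DecidableEq α] [Fintype A] [Fintype B]
    [Fintype S] (f : A → ℝ) (g : B → ℝ) (h : S → ℝ) :
    ∑ p : (α → A) × B × S, (∏ a, f (p.1 a)) * (g p.2.1 * h p.2.2)
      = (∑ x, f x) ^ Fintype.card α * ((∑ x, g x) * ∑ x, h x) := by
  have e : (∑ x, f x) ^ Fintype.card α = ∑ p : α → A, ∏ a, f (p a) := by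
    rw [← Fintype.prod_sum fun _ x => f x, prod_const, card_univ]
  rw [e, Finset.sum_mul_sum univ univ g h, ← Fintype.sum_prod_type', Finset.sum_mul_sum,
    ← Fintype.sum_prod_type']

theorem count_bound {K : ℕ} (hK : 2 ≤ K) {t A B C : ℝ} (ht : 0 ≤ t) (htK : 4 * (K : ℝ) * t ≤ 1 / 4)
    (hA0 : 0 ≤ A) (hA : A ≤ 1 + t) (hB0 : 0 ≤ B) (hB : B ≤ 1 + t) (hC0 : 0 ≤ C)
    (hC : C ≤ 1 + 2 * t) : A ^ (K - 1) * (B * C) - 1 ≤ 4 * (K : ℝ) * t := by
  have hk : (2 : ℝ) ≤ K := by exact_mod_cast hK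
  have h2 : A ^ (K - 1) * (B * C) ≤ (1 + t) ^ (K - 1) * ((1 + t) * (1 + 2 * t)) :=
    mul_le_mul (pow_le_pow_left₀ hA0 hA _) (mul_le_mul hB hC hC0 (by linarith)) (by positivity)
      (by positivity)
  rw [← mul_assoc ((1 + t) ^ (K - 1)), ← pow_succ, show K - 1 + 1 = K by omega] at h2
  have h1 : (1 + t) ^ K ≤ 1 + 2 * ((K : ℝ) * t) := by
    refine (pow_le_pow_left₀ (by linarith) (by linarith [Real.add_one_le_exp t] :
      1 + t ≤ Real.exp t) K).trans ?_
    rw [← Real.exp_nat_mul]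
    have h := Real.abs_exp_sub_one_le (x := (K : ℝ) * t)
      (by rw [abs_of_nonneg (by positivity)]; linarith)
    rw [abs_of_nonneg (show 0 ≤ (K : ℝ) * t by positivity)] at h
    linarith [(abs_le.1 h).2]
  have h3 := mul_le_mul_of_nonneg_right h1 (show 0 ≤ 1 + 2 * t by linarith)
  nlinarith

theorem sum_strings_le {P : Type*} [Fintype P] {q t : ℝ} (hq : 0 ≤ q)
    (hP : (Fintype.card P : ℝ) * q ≤ t) (ht : t ≤ 1 / 2) (N : ℕ) :
    ∑ p : (Σ l : Fin (N + 1), Fin l.val → P), q ^ (p.1 : ℕ) ≤ 1 + 2 * t := by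
  classical
  rw [Fintype.sum_sigma]
  have e : ∀ l : Fin (N + 1), (∑ _f : Fin l.val → P, q ^ (l : ℕ))
      = ((Fintype.card P : ℝ) * q) ^ (l : ℕ) := by
    intro l
    rw [sum_const, card_univ, Fintype.card_fun, Fintype.card_fin, nsmul_eq_mul, Nat.cast_pow,
      ← mul_pow]
  rw [sum_congr rfl fun l _ => e l]
  exact (geom_le (by positivity) (by linarith) N).trans (by linarith)

/-- The finite index set of one step. -/
abbrev Idx (K i N : ℕ) (ι1 ι0 : Type) (a0 : Fin K) : Type :=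
  ({a : Fin K // a ≠ a0} → Option ι1) × Option ι0 × (Σ l : Fin (N + 1), Fin l.val → Pt K i × Bool)

theorem step (hK : 2 ≤ K) (hn : 1 ≤ n₀) {eps : ℝ} (he : 0 < eps) (he1 : eps ≤ 1)
    (hi : i + 1 ≤ n₀)
    (ih : ∀ j' (s : ℝ), thr K n₀ eps i j' ≤ s → Cover K i j' eps s (tau K n₀ i))
    {s : ℝ} (hs : thr K n₀ eps (i + 1) (j + 1) ≤ s) :
    Cover K (i + 1) (j + 1) eps s (tau K n₀ (i + 1)) := by
  classical
  have hk : (2 : ℝ) ≤ K := by exact_mod_cast hK
  have hl := lam_pos hn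
  have hl4 := lam_le hn
  set t := tau K n₀ i with ht
  have ht0 : 0 < t := tau_pos hK i
  have htK : 4 * (K : ℝ) * t ≤ 1 / 4 := by
    refine (mul_le_mul_of_nonneg_left (tau_le hK hn (show i ≤ n₀ by omega)) (by positivity)).trans ?_
    rw [← div_eq_mul_inv, div_le_div_iff₀ (by positivity) (by norm_num)]
    have : (2 : ℝ) ^ 2 ≤ (K : ℝ) ^ 2 := pow_le_pow_left₀ (by norm_num) hk 2
    nlinarith
  have ht1 : t ≤ 1 / 2 := by nlinarith
  set c1 := (1 - 2 * lam n₀) * ((K : ℝ) / (K - 1)) with hc1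
  set c0 := lam n₀ / (K : ℝ) with hc0
  have hc1nn : 0 ≤ c1 := mul_nonneg (by linarith) (div_nonneg (by linarith) (by linarith))
  have hc0nn : 0 ≤ c0 := by positivity
  obtain ⟨ι1, _, ω1, rep1, code1, zf1, hω1, hsum1, hrep1, hrep1n, hp1, hq1⟩ :=
    exists_rep he he1 (show t < 1 by linarith) (ih (j + 1) _
      ((thr_step_slice hK hn he he1 i (j + 1)).trans (mul_le_mul_of_nonneg_right hs hc1nn)))
  obtain ⟨ι0, _, ω0, rep0, code0, zf0, hω0, hsum0, hrep0, hrep0n, hp0, hq0⟩ :=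
    exists_rep he he1 (show t < 1 by linarith) (ih j _
      ((thr_step_sum hK hn he he1 i j).trans (mul_le_mul_of_nonneg_right hs hc0nn)))
  set et := eta K n₀ i (j + 1) with het
  have hetp : 0 < et := eta_pos hK hn i (j + 1)
  set dd := (eps / 2) ^ 2 / et with hdd
  have hddp : 0 < dd := by positivity
  set c2 := lam n₀ * ((eps / 2) ^ 2 / (12 * (K : ℝ) ^ 2 * et)) with hc2
  have hc2nn : 0 ≤ c2 := by positivity
  set N := ⌊12 * (K : ℝ) ^ 2 * (4 * (K : ℝ) ^ (i + 1)) / dd⌋₊ with hN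
  let gval : (Σ l : Fin (N + 1), Fin l.val → Pt K i × Bool) → Pt K i → ℝ := fun p =>
    ((List.ofFn p.2).map (kstep K i (j + 1) (eps / 2 / et))).sum
  let u : (Pt K (i + 1) → ℝ) → Fin K → Pt K i → ℝ := fun w a0 =>
    resid a0 (rep0 (code0 fun y => ∑ a, slice w a y)) (zf0 fun y => ∑ a, slice w a y)
      (fun a => rep1 (code1 (slice w a))) (fun a => zf1 (slice w a)) w
  have hstr : ∀ w : {w : Pt K (i + 1) → ℝ //
        InW K (i + 1) (j + 1) w ∧ ¬ Good K (i + 1) (j + 1) (eps / 2) w},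
      ∃ a0 : Fin K, (∀ a, En (slice w.1 a) ≤ En (slice w.1 a0)) ∧
        ∃ p : (Σ l : Fin (N + 1), Fin l.val → Pt K i × Bool),
          (p.1.val : ℝ) * dd ≤ 12 * (K : ℝ) ^ 2 * En w.1 ∧
          ∀ y, |u w.1 a0 y - gval p y| ≤ eps / 2 := by
    intro w
    have : Nonempty (Fin K) := ⟨⟨0, by omega⟩⟩
    obtain ⟨a0, ha0⟩ := Finite.exists_max fun a => En (slice w.1 a)
    refine ⟨a0, ha0, ?_⟩
    obtain ⟨hsl, hS⟩ := inW_succ_succ_iff.1 w.2.1
    have hu : InW K i (j + 1) (u w.1 a0) :=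
      resid_inW a0 w.2.1 (hrep0 _) (hp0 _ hS).1.1 (fun a => hrep1 _)
        (fun a => (hp1 _ (hsl a)).1.1)
    have husq : ∑ y, u w.1 a0 y ^ 2 ≤ 12 * (K : ℝ) ^ 2 * En w.1 :=
      resid_sq a0 (hp0 _ hS).2.2.2.1 (fun a => (hp1 _ (hsl a)).2.2.2.1)
    have hlt : ∑ y, u w.1 a0 y ^ 2 < ((N : ℝ) + 1) * dd := by
      refine husq.trans_lt ?_
      have := mul_lt_mul_of_pos_right
        (Nat.lt_floor_add_one (12 * (K : ℝ) ^ 2 * (4 * (K : ℝ) ^ (i + 1)) / dd)) hddp
      rw [div_mul_cancel₀ _ hddp.ne'] at this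
      refine lt_of_le_of_lt ?_ this
      exact mul_le_mul_of_nonneg_left (En_le_card w.1) (by positivity)
    obtain ⟨L, hL1, hL2, hL3⟩ := greedy hK hn i (j + 1) (half_pos he) N _ hu hlt
    refine ⟨⟨⟨L.length, Nat.lt_succ_of_le hL1⟩, L.get⟩, hL2.trans husq, fun y => ?_⟩
    have e : gval ⟨⟨L.length, Nat.lt_succ_of_le hL1⟩, L.get⟩
        = (L.map (kstep K i (j + 1) (eps / 2 / et))).sum := by
      change ((List.ofFn L.get).map _).sum = _
      rw [List.ofFn_get]
    rw [e]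
    exact hL3 y
  choose a0 ha0 str hstrlen hstrb using hstr
  let triv : ∀ a, Idx K i N ι1 ι0 a := fun a => (fun _ => none, none, ⟨0, Fin.elim0⟩)
  let W : ∀ a, Idx K i N ι1 ι0 a → ℝ := fun a q =>
    c1 * ∑ b, (q.1 b).elim 0 ω1 + c0 * q.2.1.elim 0 ω0 + c2 * (q.2.2.1.val : ℝ)
  let idx : {w : Pt K (i + 1) → ℝ //
      InW K (i + 1) (j + 1) w ∧ ¬ Good K (i + 1) (j + 1) (eps / 2) w} →
      Σ a, Idx K i N ι1 ι0 a := fun w =>
    ⟨a0 w, (fun a => code1 (slice w.1 a.1), code0 (fun y => ∑ a, slice w.1 a y), str w)⟩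
  have hnt : ∀ w, (idx w).2 ≠ triv (idx w).1 := by
    intro w htr
    have h1 : ∀ b : {b // b ≠ a0 w}, code1 (slice w.1 b.1) = none :=
      fun b => congrFun (congrArg Prod.fst htr) b
    have h2 : code0 (fun y => ∑ a, slice w.1 a y) = none :=
      congrArg (fun p => p.2.1) htr
    have h3 : str w = ⟨0, Fin.elim0⟩ := congrArg (fun p => p.2.2) htr
    obtain ⟨hsl, hS⟩ := inW_succ_succ_iff.1 w.2.1
    refine w.2.2 ⟨_, glue_intW (a0 w) (hp0 _ hS).1 (fun a => (hp1 _ (hsl a)).1), fun x => ?_⟩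
    obtain ⟨a, y, rfl⟩ : ∃ a y, x = Fin.cons a y := ⟨x 0, Fin.tail x, (Fin.cons_self_tail x).symm⟩
    simp only [Fin.cons_zero, Fin.tail_cons]
    by_cases ha : a = a0 w
    · subst ha
      rw [if_pos rfl]
      have hg : gval (str w) y = 0 := by rw [h3]; simp [gval]
      have hz0 : ∀ b ∈ univ.erase (a0 w), rep1 (code1 (slice w.1 b)) y = 0 := fun b hb => by
        rw [h1 ⟨b, (mem_erase.1 hb).1⟩, hrep1n]; rfl
      have hy : slice w.1 (a0 w) y =
          Real.pi * (zf0 (fun y => ∑ a, slice w.1 a y) y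
            - ∑ b ∈ univ.erase (a0 w), zf1 (slice w.1 b) y) + u w.1 (a0 w) y := by
        refine (slice_eq (a0 w) (rep0 (code0 fun y => ∑ a, slice w.1 a y))
          (zf0 fun y => ∑ a, slice w.1 a y) (fun a => rep1 (code1 (slice w.1 a)))
          (fun a => zf1 (slice w.1 a)) w.1 y).trans ?_
        rw [sum_eq_zero hz0, h2, hrep0n]
        simp only [Pi.zero_apply, sub_zero, zero_add, u, h2, hrep0n]
      have := hstrb w y
      rw [hg, sub_zero] at this
      change |slice w.1 (a0 w) y - _| ≤ _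
      rw [hy, add_sub_cancel_left]
      exact this
    · rw [if_neg ha]
      exact (hp1 _ (hsl a)).2.2.2.2 (h1 ⟨a, ha⟩) y
  refine ⟨{p : Σ a, Idx K i N ι1 ι0 a // p.2 ≠ triv p.1}, inferInstance,
    fun p => W p.1.1 p.1.2, fun w => ⟨idx w, hnt w⟩, fun p => ?_, ?_, fun w => ?_,
    fun w w' heq => ?_⟩
  · refine add_nonneg (add_nonneg (mul_nonneg hc1nn (sum_nonneg fun b _ => ?_))
      (mul_nonneg hc0nn ?_)) (mul_nonneg hc2nn (Nat.cast_nonneg _))
    · cases p.1.2.1 b with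
      | none => exact le_rfl
      | some c => exact hω1 c
    · cases p.1.2.2.1 with
      | none => exact le_rfl
      | some c => exact hω0 c
  · rw [← Finset.sum_subtype
      ((univ : Finset (Σ a, Idx K i N ι1 ι0 a)).filter fun p => p.2 ≠ triv p.1)
      (fun p => by simp only [mem_filter, mem_univ, true_and])
      (fun p => Real.exp (-s * W p.1 p.2)), sum_filter, Fintype.sum_sigma]
    set q := Real.exp (-s * c2) with hq
    have hqK : (2 * (K : ℝ) ^ i) * q ≤ t := thr_step_string hK hn he he1 (by omega) j hs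
    have hone : ∀ a, (∑ p : Idx K i N ι1 ι0 a,
        if p ≠ triv a then Real.exp (-s * W a p) else 0) ≤ 4 * (K : ℝ) * t := by
      intro a
      have e : ∀ p, (if p ≠ triv a then Real.exp (-s * W a p) else 0)
          = Real.exp (-s * W a p) - (if p = triv a then 1 else 0) := by
        intro p
        by_cases hp : p = triv a
        · have h0 : W a (triv a) = 0 := by
            simp only [W, triv, Option.elim_none, sum_const_zero, mul_zero, add_zero,
              Fin.val_zero, Nat.cast_zero]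
          rw [hp, if_pos rfl, h0, mul_zero, Real.exp_zero, sub_self]
          simp only [ne_eq, not_true, if_false]
        · rw [if_pos hp, if_neg hp, sub_zero]
      rw [sum_congr rfl fun p _ => e p, sum_sub_distrib, sum_ite_eq' univ, if_pos (mem_univ _)]
      have hfac : ∀ p : Idx K i N ι1 ι0 a, Real.exp (-s * W a p) =
          (∏ b, Real.exp (-(s * c1) * (p.1 b).elim 0 ω1)) *
            (Real.exp (-(s * c0) * p.2.1.elim 0 ω0) * q ^ (p.2.2.1 : ℕ)) := by
        intro p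
        rw [← Real.exp_sum, hq, ← Real.exp_nat_mul, ← Real.exp_add, ← Real.exp_add]
        congr 1
        simp only [W, ← mul_sum]
        ring
      rw [sum_congr rfl fun p _ => hfac p,
        sum_weights (fun o : Option ι1 => Real.exp (-(s * c1) * o.elim 0 ω1))
          (fun o : Option ι0 => Real.exp (-(s * c0) * o.elim 0 ω0))
          (fun p : (Σ l : Fin (N + 1), Fin l.val → Pt K i × Bool) => q ^ (p.1 : ℕ)),
        show Fintype.card {b : Fin K // b ≠ a} = K - 1 by simp [Fintype.card_subtype_compl]]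
      refine count_bound hK ht0.le htK (sum_nonneg fun _ _ => (Real.exp_pos _).le) ?_
        (sum_nonneg fun _ _ => (Real.exp_pos _).le) ?_
        (sum_nonneg fun _ _ => by positivity) ?_
      · simpa [Fintype.sum_option] using hsum1
      · simpa [Fintype.sum_option] using hsum0
      · refine sum_strings_le (Real.exp_pos _).le ?_ ht1 N
        rw [card_pt]
        exact hqK
    refine (sum_le_card_nsmul univ _ (4 * (K : ℝ) * t) fun a _ => hone a).trans ?_
    rw [card_univ, Fintype.card_fin, nsmul_eq_mul, tau_succ, ← ht]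
    have : (K : ℝ) ^ 2 ≤ (K : ℝ) ^ 3 := pow_le_pow_right₀ (by linarith) (by norm_num)
    nlinarith
  · obtain ⟨hsl, hS⟩ := inW_succ_succ_iff.1 w.2.1
    have e0 : c0 * (code0 fun y => ∑ a, slice w.1 a y).elim 0 ω0 ≤ lam n₀ * En w.1 := by
      refine (mul_le_mul_of_nonneg_left ((hp0 _ hS).2.1.trans (En_sliceSum_le w.1)) hc0nn).trans_eq ?_
      rw [hc0]; field_simp
    have e2 : c2 * ((str w).1.val : ℝ) ≤ lam n₀ * En w.1 := by
      have := hstrlen w
      rw [hc2, mul_assoc]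
      refine mul_le_mul_of_nonneg_left ?_ hl.le
      rw [div_mul_eq_mul_div, div_le_iff₀ (by positivity)]
      rw [hdd, mul_div_assoc', div_le_iff₀ hetp] at this
      linarith
    have e1 : c1 * ∑ a : {a // a ≠ a0 w}, (code1 (slice w.1 a.1)).elim 0 ω1
        ≤ (1 - 2 * lam n₀) * En w.1 := by
      refine (mul_le_mul_of_nonneg_left
        (sum_le_sum fun a _ => (hp1 _ (hsl a.1)).2.1) hc1nn).trans ?_
      rw [← Finset.sum_subtype ((univ : Finset (Fin K)).erase (a0 w))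
        (fun a => by simp only [mem_erase, mem_univ, and_true])
        (fun a => En (slice w.1 a)), hc1, mul_assoc]
      refine mul_le_mul_of_nonneg_left ?_ (by linarith)
      rw [sum_erase_eq_sub (mem_univ _), ← En_slices, div_mul_eq_mul_div, div_le_iff₀ (by linarith)]
      have : En w.1 ≤ (K : ℝ) * En (slice w.1 (a0 w)) := by
        rw [En_slices]
        refine (sum_le_card_nsmul univ _ _ fun a _ => ha0 w a).trans_eq ?_
        rw [card_univ, Fintype.card_fin, nsmul_eq_mul]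
      linarith
    change c1 * _ + c0 * _ + c2 * _ ≤ En w.1
    linarith
  · have key : ∀ (a a' : Fin K) (p : Idx K i N ι1 ι0 a) (p' : Idx K i N ι1 ι0 a'),
        (⟨a, p⟩ : Σ a, Idx K i N ι1 ι0 a) = ⟨a', p'⟩ →
        ∀ (P : ∀ a, Idx K i N ι1 ι0 a → Prop), P a p → P a' p' := by
      intro a a' p p' h P hP
      cases h
      exact hP
    obtain ⟨hsl, hS⟩ := inW_succ_succ_iff.1 w.2.1
    obtain ⟨hsl', hS'⟩ := inW_succ_succ_iff.1 w'.2.1
    obtain ⟨heqc, he0, hg⟩ :
        (∀ a : {a // a ≠ a0 w'}, code1 (slice w.1 a.1) = code1 (slice w'.1 a.1)) ∧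
        code0 (fun y => ∑ a, slice w.1 a y) = code0 (fun y => ∑ a, slice w'.1 a y) ∧
        ∀ y, |u w.1 (a0 w') y - gval (str w') y| ≤ eps / 2 :=
      key _ _ _ _ (Subtype.ext_iff.1 heq)
        (fun a p => (∀ b : {b // b ≠ a}, code1 (slice w.1 b.1) = p.1 b) ∧
        code0 (fun y => ∑ b, slice w.1 b y) = p.2.1 ∧
        ∀ y, |u w.1 a y - gval p.2.2 y| ≤ eps / 2)
        ⟨fun b => rfl, rfl, hstrb w⟩
    refine ⟨_, glue_intW (a0 w') (intW_sub (hp0 _ hS).1 (hp0 _ hS').1)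
      (fun a => intW_sub (hp1 _ (hsl a)).1 (hp1 _ (hsl' a)).1), fun x => ?_⟩
    obtain ⟨a, y, rfl⟩ : ∃ a y, x = Fin.cons a y := ⟨x 0, Fin.tail x, (Fin.cons_self_tail x).symm⟩
    simp only [Fin.cons_zero, Fin.tail_cons, Pi.sub_apply]
    by_cases ha : a = a0 w'
    · subst ha
      rw [if_pos rfl]
      have g1 := abs_le.1 (hg y)
      have g2 := abs_le.1 (hstrb w' y)
      have s1 := slice_eq (a0 w') (rep0 (code0 fun y => ∑ a, slice w.1 a y))
          (zf0 fun y => ∑ a, slice w.1 a y) (fun a => rep1 (code1 (slice w.1 a)))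
          (fun a => zf1 (slice w.1 a)) w.1 y
      have s2 := slice_eq (a0 w') (rep0 (code0 fun y => ∑ a, slice w'.1 a y))
          (zf0 fun y => ∑ a, slice w'.1 a y) (fun a => rep1 (code1 (slice w'.1 a)))
          (fun a => zf1 (slice w'.1 a)) w'.1 y
      have hr : ∑ b ∈ univ.erase (a0 w'), rep1 (code1 (slice w.1 b)) y
          = ∑ b ∈ univ.erase (a0 w'), rep1 (code1 (slice w'.1 b)) y :=
        sum_congr rfl fun b hb => by rw [heqc ⟨b, (mem_erase.1 hb).1⟩]
      have hr0 := congrArg (fun o => rep0 o y) he0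
      try simp only at hr0
      simp only [u] at g1 g2
      change |slice w.1 (a0 w') y - slice w'.1 (a0 w') y - _| ≤ _
      rw [sum_sub_distrib, abs_le]
      constructor <;> linarith [g1.1, g1.2, g2.1, g2.2]
    · rw [if_neg ha]
      exact hq1 _ _ (hsl a) (hsl' a) (heqc ⟨a, ha⟩) y

end NetAux

end Vale.Agent.P047
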