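import Vale.Agent.P047.WBasic
import Vale.Agent.P047.NetAuxStep

/-!
The energy-weighted net lemma for W(n,m).

Internal induction: fix n₀ (= the n of the statement), put λ = 1/(4 n₀), τ(i) = (4K³)^i τ* with
τ* = (4K³)^(-3 n₀), η(i,j) = (2 K n₀)^j (1-1/K)^i (1+λ)^i,
F(i,j) = Λ0 (8 K n₀)^j r^i, r = (1-1/K)(1+5λ), and prove the statement for all i ≤ n₀ and all j.
Facts: w x² ≤ η ∑ w² on W(i,j); kernel element k_x in W with ⟨k_x,w⟩ = w x.
Step (i+1,j+1): omit a0 = argmax En(slice); other slices and the slice sum are either Good(ε/2)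
(representative 0) or coded by IH with a representative r of the same code with En r ≤ 2 En (any
competitor) (possible as En is bounded below by a positive weight on the bad ones).  The remainders
are bounded pointwise by ε and in square sum by 6·En; u = r_s - ∑ r_a lies in W(i,j+1),
∑u² ≤ 12 K² En; greedy approximation of u to sup ε/2 by signed multiples (ε/2)/η of k_x uses a
string of length ≤ ∑u²·η/(ε/2)².  The index is (a0, codes, sum code, string).
-/

namespace Vale.Agent.P047

open Finset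

namespace NetAux

variable {K n₀ : ℕ}

theorem cover_all (hK : 2 ≤ K) (hn : 1 ≤ n₀) {eps : ℝ} (he : 0 < eps) (he1 : eps ≤ 1) :
    ∀ i ≤ n₀, ∀ (j : ℕ) (s : ℝ), thr K n₀ eps i j ≤ s → Cover K i j eps s (tau K n₀ i) := by
  intro i
  induction i with
  | zero =>
    intro _ j s hs
    cases j with
    | zero => exact cover_zero 0 he s _ (tau_pos hK 0).le
    | succ j => exact cover_base hK hn he he1 j hs
  | succ i ih =>
    intro hi j s hs
    cases j with
    | zero => exact cover_zero (i + 1) he s _ (tau_pos hK _).le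
    | succ j => exact step hK hn he he1 hi (fun j' => ih (by omega) j') hs

end NetAux

theorem net_lemma (K n m : ℕ) (hK : 2 ≤ K) (hn : 1 ≤ n) (eps : ℝ) (he : 0 < eps) (he1 : eps ≤ 1)
    (s : ℝ) (hs : FNet K n m eps ≤ s) :
    ∃ (ι : Type) (_ : Fintype ι) (ω : ι → ℝ)
      (code : {w : Pt K n → ℝ // InW K n m w ∧ ¬ Good K n m (eps / 2) w} → ι),
      (∀ i, 0 ≤ ω i) ∧ (∑ i, Real.exp (-s * ω i) ≤ tauNet K n) ∧
      (∀ w, ω (code w) ≤ En w.1) ∧
      ∀ w w', code w = code w' →
        ∃ z, IntW K n m z ∧ ∀ x, |w.1 x - w'.1 x - Real.pi * z x| ≤ eps := by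
  have h := NetAux.cover_all hK hn he he1 n le_rfl m s hs
  have e : NetAux.tau K n n = tauNet K n := by
    have := NetAux.big_base hK
    rw [NetAux.tau, tauNet, show 3 * n = n + 2 * n by omega, pow_add]
    field_simp
  rw [e] at h
  exact h

theorem bad_energy (K n m : ℕ) (hK : 2 ≤ K) (hn : 1 ≤ n) (eps : ℝ) (he : 0 < eps) (he1 : eps ≤ 1)
    (w : Pt K n → ℝ) (hw : InW K n m w) (hbad : ¬ Good K n m (eps / 2) w) :
    1 ≤ FNet K n m eps * En w := by
  obtain ⟨ι, _, ω, code, hω, hsum, hle, -⟩ := net_lemma K n m hK hn eps he he1 _ le_rfl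
  have hF : 0 < FNet K n m eps := NetAux.thr_pos hK hn he he1 n m
  have h1 := (single_le_sum (f := fun i => Real.exp (-FNet K n m eps * ω i))
    (fun i _ => (Real.exp_pos _).le) (mem_univ (code ⟨w, hw, hbad⟩))).trans hsum
  have h2 : tauNet K n ≤ Real.exp (-1) := by
    have hb := NetAux.big_base hK
    rw [Real.exp_neg, tauNet]
    refine inv_anti₀ (Real.exp_pos _) (le_trans ?_ (le_self_pow₀ (by linarith) (by omega)))
    have := Real.exp_one_lt_d9
    linarith
  have h3 := Real.exp_le_exp.1 (h1.trans h2)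
  have h4 := mul_le_mul_of_nonneg_left (hle ⟨w, hw, hbad⟩) hF.le
  simp only at h4
  linarith

end Vale.Agent.P047
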