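import Vale.Agent.P047.WBasic
import Mathlib

/-!
Tools for the net lemma: parameters, the reproducing kernel of W(n,m), its diagonal bound and the
greedy sup-norm approximation.
-/

namespace Vale.Agent.P047

open Finset

namespace NetAux

/-- The small parameter. -/
noncomputable def lam (n₀ : ℕ) : ℝ := 1 / (4 * (n₀ : ℝ))

/-- The bound on the diagonal of the kernel. -/
noncomputable def eta (K n₀ i j : ℕ) : ℝ :=
  (2 * (K : ℝ) * n₀) ^ j * ((1 - 1 / (K : ℝ)) * (1 + lam n₀)) ^ i

variable {K n₀ : ℕ}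

theorem lam_pos (hn : 1 ≤ n₀) : 0 < lam n₀ := by
  have : (0 : ℝ) < n₀ := by exact_mod_cast hn
  unfold lam; positivity

theorem lam_le (hn : 1 ≤ n₀) : lam n₀ ≤ 1 / 4 := by
  have : (1 : ℝ) ≤ n₀ := by exact_mod_cast hn
  exact one_div_le_one_div_of_le (by norm_num) (by linarith)

theorem ratio_facts (hK : 2 ≤ K) : (1 : ℝ) / 2 ≤ 1 - 1 / (K : ℝ) ∧ 1 - 1 / (K : ℝ) ≤ 1 := by
  have h2 : (2 : ℝ) ≤ K := by exact_mod_cast hK
  have := one_div_le_one_div_of_le (by norm_num : (0 : ℝ) < 2) h2
  have : (0 : ℝ) ≤ 1 / (K : ℝ) := by positivity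
  constructor <;> linarith

theorem eta_pos (hK : 2 ≤ K) (hn : 1 ≤ n₀) (i j : ℕ) : 0 < eta K n₀ i j := by
  have h1 := (ratio_facts hK).1
  have h2 := lam_pos hn
  have : (0 : ℝ) < K := by exact_mod_cast (show 0 < K by omega)
  have : (0 : ℝ) < n₀ := by exact_mod_cast hn
  have : (0 : ℝ) < (1 - 1 / (K : ℝ)) * (1 + lam n₀) := mul_pos (by linarith) (by linarith)
  unfold eta; positivity

theorem sq_le_of_sum_zero {f : Fin K → ℝ} (h : ∑ b, f b = 0) (a : Fin K) :
    f a ^ 2 ≤ (1 - 1 / (K : ℝ)) * ∑ b, f b ^ 2 := by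
  have hK : 1 ≤ K := a.pos
  have hs := sum_mul_sq_le_sq_mul_sq (univ.erase a) (fun _ => (1 : ℝ)) f
  have h1 : ∑ b ∈ univ.erase a, f b = - f a := by
    rw [sum_erase_eq_sub (mem_univ a), h, zero_sub]
  simp only [one_mul, h1, one_pow, sum_const, card_erase_of_mem (mem_univ a), card_univ,
    Fintype.card_fin, nsmul_eq_mul, mul_one, neg_sq, sum_erase_eq_sub (mem_univ a)] at hs
  have hKp : (0 : ℝ) < K := by exact_mod_cast hK
  rw [show (1 - 1 / (K : ℝ)) = ((K : ℝ) - 1) / K by field_simp, div_mul_eq_mul_div,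
    le_div_iff₀ hKp]
  linarith

theorem inW_succ_succ_iff {n m : ℕ} {w : Pt K (n + 1) → ℝ} :
    InW K (n + 1) (m + 1) w ↔
      (∀ a : Fin K, InW K n (m + 1) (slice w a)) ∧ InW K n m (fun y => ∑ a, slice w a y) := by
  rw [InW]

/-- `w x ^ 2 ≤ η ∑ w ^ 2` on W(i,j). -/
theorem apply_sq_le (hK : 2 ≤ K) (hn : 1 ≤ n₀) : ∀ (i j : ℕ) (w : Pt K i → ℝ), InW K i j w →
    ∀ x, w x ^ 2 ≤ eta K n₀ i j * ∑ y, w y ^ 2 := by
  intro i
  induction i with
  | zero =>
    intro j w _ x
    have hk : (2 : ℝ) ≤ K := by exact_mod_cast hK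
    have hm : (1 : ℝ) ≤ n₀ := by exact_mod_cast hn
    calc w x ^ 2 ≤ 1 * ∑ y, w y ^ 2 := by
          rw [one_mul]; exact single_le_sum (fun y _ => sq_nonneg (w y)) (mem_univ x)
      _ ≤ _ := by
          refine mul_le_mul_of_nonneg_right ?_ (sum_nonneg fun y _ => sq_nonneg _)
          simp only [eta, pow_zero, mul_one]
          exact one_le_pow₀ (by nlinarith)
  | succ i ih =>
    intro j w hw x
    match j with
    | 0 =>
      have : w = 0 := by simpa [InW] using hw
      subst this; simp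
    | j + 1 =>
      obtain ⟨hsl, hsum⟩ := inW_succ_succ_iff.1 hw
      obtain ⟨a, y, rfl⟩ : ∃ a y, x = Fin.cons a y := ⟨x 0, Fin.tail x, (Fin.cons_self_tail x).symm⟩
      have hKp : (0 : ℝ) < K := by exact_mod_cast (show 0 < K by omega)
      set S : Pt K i → ℝ := fun z => ∑ b, slice w b z with hS
      set d : Fin K → Pt K i → ℝ := fun b z => slice w b z - S z / K with hd
      have hd0 : ∀ z, ∑ b, d b z = 0 := by
        intro z
        simp only [hd, sum_sub_distrib, sum_const, card_univ, Fintype.card_fin, nsmul_eq_mul]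
        field_simp
        simp [hS]
      have hdW : ∀ b, InW K i (j + 1) (d b) := by
        intro b
        have he : d b = slice w b - (1 / (K : ℝ)) • S := by
          funext z; simp [hd]; ring
        rw [he]
        exact inW_sub (hsl b) (inW_succ (inW_smul _ hsum))
      have hsplit : ∑ x, w x ^ 2 = (∑ b, ∑ z, d b z ^ 2) + (∑ z, S z ^ 2) / K := by
        rw [sum_pt_succ, sum_comm, sum_comm (f := fun b z => d b z ^ 2), sum_div, ← sum_add_distrib]
        refine sum_congr rfl fun z _ => ?_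
        have : ∀ b, w (Fin.cons b z) ^ 2 = d b z ^ 2 + 2 * (S z / K) * d b z + (S z / K) ^ 2 := by
          intro b; simp only [hd, slice]; ring
        rw [sum_congr rfl fun b _ => this b, sum_add_distrib, sum_add_distrib, ← mul_sum, hd0]
        simp
        field_simp
      set A := ∑ b, ∑ z, d b z ^ 2 with hA
      set B := ∑ z, S z ^ 2 with hB
      set e1 := eta K n₀ i (j + 1) with he1
      set e0 := eta K n₀ i j with he0
      have h1 : d a y ^ 2 ≤ (1 - 1 / (K : ℝ)) * (e1 * A) := by
        refine (sq_le_of_sum_zero (hd0 y) a).trans ?_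
        refine mul_le_mul_of_nonneg_left ?_ (by linarith [(ratio_facts hK).1])
        rw [hA, mul_sum]
        exact sum_le_sum fun b _ => ih (j + 1) (d b) (hdW b) y
      have h2 : S y ^ 2 ≤ e0 * B := ih j S hsum y
      have hl := lam_pos hn
      have hw' : w (Fin.cons a y) = d a y + S y / K := by simp [hd, slice]
      have hyoung : (d a y + S y / K) ^ 2 ≤
          (1 + lam n₀) * d a y ^ 2 + (1 + 1 / lam n₀) * (S y / K) ^ 2 := by
        have h := two_mul_le_add_sq (Real.sqrt (lam n₀) * d a y) (S y / K / Real.sqrt (lam n₀))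
        have hs : Real.sqrt (lam n₀) ≠ 0 := by positivity
        rw [mul_pow, div_pow _ (Real.sqrt (lam n₀)), Real.sq_sqrt hl.le] at h
        have : 2 * (Real.sqrt (lam n₀) * d a y) * (S y / K / Real.sqrt (lam n₀))
            = 2 * d a y * (S y / K) := by field_simp
        rw [this] at h
        linear_combination h
      rw [hw', hsplit]
      refine hyoung.trans ?_
      rw [mul_add]
      have hfac : eta K n₀ (i + 1) (j + 1) = e1 * ((1 - 1 / (K : ℝ)) * (1 + lam n₀)) := by
        rw [he1, eta, eta, pow_succ _ i]; ring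
      refine add_le_add ?_ ?_
      · rw [hfac]
        exact (mul_le_mul_of_nonneg_left h1 (by linarith)).trans_eq (by ring)
      · refine (mul_le_mul_of_nonneg_left
          (show (S y / K) ^ 2 ≤ e0 * B / (K : ℝ) ^ 2 by rw [div_pow]; gcongr) (by positivity)).trans ?_
        have hB0 : 0 ≤ B := sum_nonneg fun z _ => sq_nonneg _
        have he0p : 0 < e0 := eta_pos hK hn i j
        have hfac' : eta K n₀ (i + 1) (j + 1)
            = e0 * (2 * ((K : ℝ) - 1) * ((n₀ : ℝ) + 1 / 4)) := by
          have hm : (0 : ℝ) < n₀ := by exact_mod_cast hn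
          rw [he0, eta, eta, pow_succ _ j, pow_succ _ i, lam]
          field_simp
        rw [hfac', show (1 + 1 / lam n₀) = 1 + 4 * (n₀ : ℝ) by rw [lam, one_div_one_div]]
        have h2K : (2 : ℝ) ≤ K := by exact_mod_cast hK
        calc (1 + 4 * (n₀ : ℝ)) * (e0 * B / (K : ℝ) ^ 2)
            = (e0 * B / K) * ((1 + 4 * (n₀ : ℝ)) / K) := by field_simp
          _ ≤ (e0 * B / K) * (2 * ((K : ℝ) - 1) * ((n₀ : ℝ) + 1 / 4)) := by
              refine mul_le_mul_of_nonneg_left ?_ (by positivity)
              rw [div_le_iff₀ hKp]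
              have : (2 : ℝ) * 1 ≤ K * ((K : ℝ) - 1) :=
                mul_le_mul h2K (by linarith) (by norm_num) (by linarith)
              nlinarith
          _ = _ := by ring

/-- The reproducing kernel. -/
theorem exists_kernel (n m : ℕ) (x : Pt K n) :
    ∃ k : Pt K n → ℝ, InW K n m k ∧ ∀ w, InW K n m w → ∑ y, k y * w y = w x := by
  classical
  let W' : Submodule ℝ (EuclideanSpace ℝ (Pt K n)) :=
    (WSub K n m).comap (WithLp.linearEquiv 2 ℝ (Pt K n → ℝ)).toLinearMap
  let k : EuclideanSpace ℝ (Pt K n) := W'.starProjection (EuclideanSpace.single x 1)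
  refine ⟨fun y => k y, ?_, fun w hw => ?_⟩
  · exact (W'.starProjection_apply_mem (EuclideanSpace.single x 1) : k ∈ W')
  · let w' : EuclideanSpace ℝ (Pt K n) := WithLp.toLp 2 w
    have hw' : w' ∈ W' := hw
    have h : inner ℝ k w' = inner ℝ (EuclideanSpace.single x (1 : ℝ)) w' := by
      rw [Submodule.inner_starProjection_left_eq_right, Submodule.starProjection_eq_self_iff.2 hw']
    rw [PiLp.inner_apply, EuclideanSpace.inner_single_left] at h
    simpa [w', mul_comm] using h

/-- The fixed choice of the kernel. -/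
noncomputable def ker (K n m : ℕ) (x : Pt K n) : Pt K n → ℝ :=
  (exists_kernel (K := K) n m x).choose

theorem ker_inW (n m : ℕ) (x : Pt K n) : InW K n m (ker K n m x) :=
  (exists_kernel (K := K) n m x).choose_spec.1

theorem ker_dot {n m : ℕ} (x : Pt K n) {w : Pt K n → ℝ} (hw : InW K n m w) :
    ∑ y, ker K n m x y * w y = w x :=
  (exists_kernel (K := K) n m x).choose_spec.2 w hw

theorem ker_diag (hK : 2 ≤ K) (hn : 1 ≤ n₀) (i j : ℕ) (x : Pt K i) :
    ∑ y, ker K i j x y ^ 2 ≤ eta K n₀ i j := by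
  have h0 : ∑ y, ker K i j x y ^ 2 = ker K i j x x :=
    (sum_congr rfl fun y _ => sq _).trans (ker_dot x (ker_inW i j x))
  have h := apply_sq_le hK hn i j _ (ker_inW i j x) x
  rw [← h0, sq] at h
  have hnn : 0 ≤ ∑ y, ker K i j x y ^ 2 := sum_nonneg fun y _ => sq_nonneg _
  rcases hnn.eq_or_lt with h' | h'
  · rw [← h']; exact (eta_pos hK hn i j).le
  · exact le_of_mul_le_mul_right h h'

/-- A signed multiple of a kernel element. -/
noncomputable def kstep (K i j : ℕ) (c : ℝ) (p : Pt K i × Bool) : Pt K i → ℝ :=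
  (if p.2 then c else -c) • ker K i j p.1

theorem kstep_inW (i j : ℕ) (c : ℝ) (p : Pt K i × Bool) : InW K i j (kstep K i j c p) :=
  inW_smul _ (ker_inW i j p.1)

/-- Greedy approximation in sup norm by few signed kernel steps. -/
theorem greedy (hK : 2 ≤ K) (hn : 1 ≤ n₀) (i j : ℕ) {δ : ℝ} (hδ : 0 < δ) :
    ∀ (N : ℕ) (u : Pt K i → ℝ), InW K i j u →
      ∑ x, u x ^ 2 < (N + 1) * (δ ^ 2 / eta K n₀ i j) →
      ∃ L : List (Pt K i × Bool), L.length ≤ N ∧
        (L.length : ℝ) * (δ ^ 2 / eta K n₀ i j) ≤ ∑ x, u x ^ 2 ∧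
        ∀ x, |u x - (L.map (kstep K i j (δ / eta K n₀ i j))).sum x| ≤ δ := by
  have he := eta_pos hK hn i j
  intro N
  induction N with
  | zero =>
    intro u hu hlt
    refine ⟨[], le_rfl, by simpa using sum_nonneg fun x _ => sq_nonneg (u x), fun x => ?_⟩
    simp only [List.map_nil, List.sum_nil, Pi.zero_apply, sub_zero]
    simp only [Nat.cast_zero, zero_add, one_mul] at hlt
    have h1 := apply_sq_le hK hn i j u hu x
    refine abs_le_of_sq_le_sq (h1.trans ((mul_le_mul_of_nonneg_left hlt.le he.le).trans_eq ?_)) hδ.le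
    field_simp
  | succ N ih =>
    intro u hu hlt
    by_cases hall : ∀ x, |u x| ≤ δ
    · exact ⟨[], Nat.zero_le _, by simpa using sum_nonneg fun x _ => sq_nonneg (u x),
        fun x => by simpa using hall x⟩
    push Not at hall
    obtain ⟨x, hx⟩ := hall
    set c := δ / eta K n₀ i j with hc
    set p : Pt K i × Bool := (x, decide (0 ≤ u x)) with hp
    set u' := u - kstep K i j c p with hu'
    have hdec : ∑ y, u' y ^ 2 ≤ ∑ y, u y ^ 2 - δ ^ 2 / eta K n₀ i j := by
      set t : ℝ := if p.2 then c else -c with ht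
      have hexp : ∑ y, u' y ^ 2
          = ∑ y, u y ^ 2 - 2 * t * u x + t ^ 2 * ∑ y, ker K i j x y ^ 2 := by
        rw [← ker_dot x hu, mul_sum, mul_sum, ← sum_sub_distrib, ← sum_add_distrib]
        refine sum_congr rfl fun y _ => ?_
        simp only [hu', kstep, Pi.sub_apply, Pi.smul_apply, smul_eq_mul, ← ht, hp]
        ring
      have htu : c * δ ≤ t * u x := by
        have hc0 : 0 < c := div_pos hδ he
        rw [ht, hp]
        by_cases h0 : 0 ≤ u x
        · simp only [h0, decide_true, if_true]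
          rw [abs_of_nonneg h0] at hx
          gcongr
        · simp only [h0, decide_false, Bool.false_eq_true, if_false]
          rw [abs_of_neg (not_le.1 h0)] at hx
          calc c * δ ≤ c * (-u x) := by gcongr
            _ = -c * u x := by ring
      have ht2 : t ^ 2 = c ^ 2 := by rw [ht]; split <;> ring
      rw [hexp, ht2]
      have h2 := mul_le_mul_of_nonneg_left (ker_diag (n₀ := n₀) hK hn i j x) (sq_nonneg c)
      have e1 : c * δ = δ ^ 2 / eta K n₀ i j := by rw [hc]; ring
      have e2 : c ^ 2 * eta K n₀ i j = δ ^ 2 / eta K n₀ i j := by rw [hc]; field_simp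
      linarith
    have hlt' : ∑ y, u' y ^ 2 < (N + 1) * (δ ^ 2 / eta K n₀ i j) := by
      push_cast at hlt ⊢; linarith
    obtain ⟨L, hL1, hL2, hL3⟩ := ih u' (inW_sub hu (kstep_inW i j c p)) hlt'
    refine ⟨p :: L, by simp only [List.length_cons]; omega, ?_, fun y => ?_⟩
    · simp only [List.length_cons, Nat.cast_add, Nat.cast_one]
      linarith
    · have := hL3 y
      simp only [hu', Pi.sub_apply, sub_sub] at this
      simpa only [List.map_cons, List.sum_cons, Pi.add_apply] using this

theorem listSum_inW {n m : ℕ} (L : List (Pt K n → ℝ)) (h : ∀ v ∈ L, InW K n m v) :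
    InW K n m L.sum := by
  induction L with
  | nil => exact inW_zero
  | cons v L ih =>
    rw [List.sum_cons]
    exact inW_add (h v (by simp)) (ih fun w hw => h w (by simp [hw]))

end NetAux

end Vale.Agent.P047
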