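import Vale.Agent.P047.WBasic
import Vale.Agent.P047.NetAuxBasic

/-!
Parameters, base case and representatives for the net lemma.
-/

namespace Vale.Agent.P047

open Finset

namespace NetAux

variable {K n₀ : ℕ}

/-- Bound on the partition sums along the induction. -/
noncomputable def tau (K n₀ i : ℕ) : ℝ :=
  (4 * (K : ℝ) ^ 3) ^ i * ((4 * (K : ℝ) ^ 3) ^ (3 * n₀))⁻¹

/-- Threshold along the induction. -/
noncomputable def thr (K n₀ : ℕ) (eps : ℝ) (i j : ℕ) : ℝ :=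
  400 * (K : ℝ) ^ 2 * n₀ * (40 * n₀ * K + Real.log (1 / eps)) / eps ^ 2 * (8 * (K : ℝ) * n₀) ^ j
    * ((1 - 1 / (K : ℝ)) * (1 + 5 / (4 * (n₀ : ℝ)))) ^ i

/-- A weighted code of the members of W(i,j) that are not good. -/
def Cover (K i j : ℕ) (eps s τ : ℝ) : Prop :=
  ∃ (ι : Type) (_ : Fintype ι) (ω : ι → ℝ)
    (code : {w : Pt K i → ℝ // InW K i j w ∧ ¬ Good K i j (eps / 2) w} → ι),
    (∀ c, 0 ≤ ω c) ∧ (∑ c, Real.exp (-s * ω c) ≤ τ) ∧
    (∀ w, ω (code w) ≤ En w.1) ∧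
    ∀ w w', code w = code w' →
      ∃ z, IntW K i j z ∧ ∀ x, |w.1 x - w'.1 x - Real.pi * z x| ≤ eps

theorem big_base (hK : 2 ≤ K) : (32 : ℝ) ≤ 4 * (K : ℝ) ^ 3 := by
  have h2 : (2 : ℝ) ≤ K := by exact_mod_cast hK
  have : (2 : ℝ) ^ 3 ≤ (K : ℝ) ^ 3 := pow_le_pow_left₀ (by norm_num) h2 3
  linarith

theorem tau_pos (hK : 2 ≤ K) (i : ℕ) : 0 < tau K n₀ i := by
  have := big_base hK
  unfold tau; positivity

theorem tau_succ (i : ℕ) : tau K n₀ (i + 1) = 4 * (K : ℝ) ^ 3 * tau K n₀ i := by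
  unfold tau; rw [pow_succ]; ring

theorem tau_le (hK : 2 ≤ K) (hn : 1 ≤ n₀) {i : ℕ} (hi : i ≤ n₀) :
    tau K n₀ i ≤ (4 * (K : ℝ) ^ 3)⁻¹ := by
  have hb := big_base hK
  have h : (4 * (K : ℝ) ^ 3) ^ (i + 1) ≤ (4 * (K : ℝ) ^ 3) ^ (3 * n₀) :=
    pow_le_pow_right₀ (by linarith) (by omega)
  rw [pow_succ] at h
  rw [tau, ← div_eq_mul_inv, div_le_iff₀ (by positivity), ← div_eq_inv_mul,
    le_div_iff₀ (by positivity)]
  exact h

theorem log_base_le (hK : 2 ≤ K) : Real.log (4 * (K : ℝ) ^ 3) ≤ 5 * K := by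
  have hk : (2 : ℝ) ≤ K := by exact_mod_cast hK
  rw [Real.log_mul (by norm_num) (by positivity), Real.log_pow]
  have h1 := Real.log_le_sub_one_of_pos (show (0 : ℝ) < 4 by norm_num)
  have h2 := Real.log_le_sub_one_of_pos (show (0 : ℝ) < K by linarith)
  push_cast
  linarith

theorem log_eps_nonneg {eps : ℝ} (he : 0 < eps) (he1 : eps ≤ 1) : 0 ≤ Real.log (1 / eps) :=
  Real.log_nonneg ((one_le_div he).2 he1)

theorem thr_pos (hK : 2 ≤ K) (hn : 1 ≤ n₀) {eps : ℝ} (he : 0 < eps) (he1 : eps ≤ 1) (i j : ℕ) :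
    0 < thr K n₀ eps i j := by
  have h1 := (ratio_facts hK).1
  have h2 := log_eps_nonneg he he1
  have : (0 : ℝ) < K := by exact_mod_cast (show 0 < K by omega)
  have : (0 : ℝ) < n₀ := by exact_mod_cast hn
  have : (0 : ℝ) < 1 - 1 / (K : ℝ) := by linarith
  unfold thr; positivity

theorem thr_step_slice (hK : 2 ≤ K) (hn : 1 ≤ n₀) {eps : ℝ} (he : 0 < eps) (he1 : eps ≤ 1)
    (i j : ℕ) :
    thr K n₀ eps i j ≤ thr K n₀ eps (i + 1) j * ((1 - 2 * lam n₀) * ((K : ℝ) / (K - 1))) := by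
  have h0 := (thr_pos hK hn he he1 i j).le
  have hk : (2 : ℝ) ≤ K := by exact_mod_cast hK
  have hk1 : (K : ℝ) - 1 ≠ 0 := by linarith
  have hk0 : (K : ℝ) ≠ 0 := by linarith
  have hl := lam_le hn
  have hl0 := lam_pos hn
  have e : thr K n₀ eps (i + 1) j * ((1 - 2 * lam n₀) * ((K : ℝ) / (K - 1)))
      = thr K n₀ eps i j * ((1 + 5 * lam n₀) * (1 - 2 * lam n₀)) := by
    rw [thr, thr, pow_succ _ i, show 1 + 5 / (4 * (n₀ : ℝ)) = 1 + 5 * lam n₀ by rw [lam]; ring]
    field_simp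
  rw [e]
  refine le_mul_of_one_le_right h0 ?_
  nlinarith

theorem thr_step_sum (hK : 2 ≤ K) (hn : 1 ≤ n₀) {eps : ℝ} (he : 0 < eps) (he1 : eps ≤ 1)
    (i j : ℕ) :
    thr K n₀ eps i j ≤ thr K n₀ eps (i + 1) (j + 1) * (lam n₀ / K) := by
  have h0 := (thr_pos hK hn he he1 i j).le
  have hk0 : (K : ℝ) ≠ 0 := by exact_mod_cast (show K ≠ 0 by omega)
  have hn0 : (n₀ : ℝ) ≠ 0 := by exact_mod_cast (show n₀ ≠ 0 by omega)
  have e : thr K n₀ eps (i + 1) (j + 1) * (lam n₀ / K)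
      = thr K n₀ eps i j * (2 * ((1 - 1 / (K : ℝ)) * (1 + 5 / (4 * (n₀ : ℝ))))) := by
    rw [thr, thr, pow_succ _ i, pow_succ _ j, lam]
    field_simp
    ring
  rw [e]
  refine le_mul_of_one_le_right h0 ?_
  have h1 := (ratio_facts hK).1
  have h2 : (0 : ℝ) ≤ 5 / (4 * (n₀ : ℝ)) := by positivity
  nlinarith

theorem card_pt (i : ℕ) : (Fintype.card (Pt K i × Bool) : ℝ) = 2 * (K : ℝ) ^ i := by
  simp [mul_comm]

theorem thr_step_string (hK : 2 ≤ K) (hn : 1 ≤ n₀) {eps : ℝ} (he : 0 < eps) (he1 : eps ≤ 1)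
    {i : ℕ} (hi : i ≤ n₀) (j : ℕ) {s : ℝ} (hs : thr K n₀ eps (i + 1) (j + 1) ≤ s) :
    2 * (K : ℝ) ^ i * Real.exp (-s * (lam n₀ * ((eps / 2) ^ 2 /
      (12 * (K : ℝ) ^ 2 * eta K n₀ i (j + 1))))) ≤ tau K n₀ i := by
  have hk : (2 : ℝ) ≤ K := by exact_mod_cast hK
  have hm : (1 : ℝ) ≤ n₀ := by exact_mod_cast hn
  have heta := eta_pos hK hn i (j + 1)
  have hl := lam_pos hn
  have hL := log_eps_nonneg he he1
  set r := (1 - 1 / (K : ℝ)) * (1 + 5 / (4 * (n₀ : ℝ))) with hr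
  set q := (1 - 1 / (K : ℝ)) * (1 + lam n₀) with hq
  have hrf := (ratio_facts hK).1
  have hq0 : 0 < q := mul_pos (by linarith) (by linarith)
  have hqr : q ≤ r := by
    refine mul_le_mul_of_nonneg_left ?_ (by linarith)
    rw [lam]
    have : 0 ≤ 1 / (4 * (n₀ : ℝ)) := by positivity
    rw [show 5 / (4 * (n₀ : ℝ)) = 5 * (1 / (4 * (n₀ : ℝ))) by ring]
    linarith
  have hr2 : 1 / 2 ≤ r := by
    have : (0 : ℝ) ≤ 5 / (4 * (n₀ : ℝ)) := by positivity
    nlinarith
  have hkey : 160 * (n₀ : ℝ) * K ≤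
      s * (lam n₀ * ((eps / 2) ^ 2 / (12 * (K : ℝ) ^ 2 * eta K n₀ i (j + 1)))) := by
    refine le_trans ?_ (mul_le_mul_of_nonneg_right hs (by positivity))
    have e : thr K n₀ eps (i + 1) (j + 1) *
        (lam n₀ * ((eps / 2) ^ 2 / (12 * (K : ℝ) ^ 2 * eta K n₀ i (j + 1))))
        = (400 / 192) * (40 * n₀ * K + Real.log (1 / eps)) * (4 ^ (j + 1) * ((r / q) ^ i * r)) := by
      have e8 : (8 * (K : ℝ) * n₀) ^ (j + 1) = 4 ^ (j + 1) * (2 * (K : ℝ) * n₀) ^ (j + 1) := by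
        rw [← mul_pow]; ring
      rw [thr, eta, ← hr, ← hq, div_pow r q, pow_succ r i, e8, lam]
      field_simp
      ring
    rw [e]
    have h4 : (4 : ℝ) ≤ 4 ^ (j + 1) := le_self_pow₀ (by norm_num) (by omega)
    have h1 : 1 ≤ (r / q) ^ i := one_le_pow₀ ((one_le_div hq0).2 hqr)
    have h2 : 2 ≤ (4 : ℝ) ^ (j + 1) * ((r / q) ^ i * r) := by
      calc (2 : ℝ) = 4 * (1 * (1 / 2)) := by norm_num
        _ ≤ _ := by gcongr
    refine le_trans ?_ (mul_le_mul_of_nonneg_left h2 (by positivity))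
    nlinarith
  have hb := big_base hK
  have hcard : 2 * (K : ℝ) ^ i ≤ (4 * (K : ℝ) ^ 3) ^ n₀ := by
    calc 2 * (K : ℝ) ^ i ≤ 2 * (K : ℝ) ^ n₀ := by gcongr <;> linarith
      _ ≤ (4 : ℝ) ^ n₀ * ((K : ℝ) ^ 3) ^ n₀ := by
          refine mul_le_mul ?_ ?_ (by positivity) (by positivity)
          · exact le_trans (by norm_num) (le_self_pow₀ (by norm_num) (by omega : n₀ ≠ 0))
          · exact pow_le_pow_left₀ (by linarith) (le_self_pow₀ (by linarith) (by norm_num)) n₀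
      _ = _ := (mul_pow _ _ _).symm
  calc 2 * (K : ℝ) ^ i * Real.exp (-s * (lam n₀ * ((eps / 2) ^ 2 /
        (12 * (K : ℝ) ^ 2 * eta K n₀ i (j + 1)))))
      ≤ (4 * (K : ℝ) ^ 3) ^ n₀ * ((4 * (K : ℝ) ^ 3) ^ (4 * n₀))⁻¹ := by
        refine mul_le_mul hcard ?_ (Real.exp_pos _).le (by positivity)
        rw [← Real.exp_log (show (0 : ℝ) < ((4 * (K : ℝ) ^ 3) ^ (4 * n₀))⁻¹ by positivity),
          Real.log_inv, Real.log_pow]
        refine Real.exp_le_exp.2 ?_
        have := mul_le_mul_of_nonneg_left (log_base_le hK) (show (0 : ℝ) ≤ 4 * n₀ by positivity)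
        push_cast
        nlinarith
    _ = ((4 * (K : ℝ) ^ 3) ^ (3 * n₀))⁻¹ := by
        rw [show 4 * n₀ = n₀ + 3 * n₀ by omega, pow_add]
        field_simp
    _ ≤ tau K n₀ i := le_mul_of_one_le_left (by positivity) (one_le_pow₀ (by linarith))

theorem En_nonneg {α : Type*} [Fintype α] (w : α → ℝ) : 0 ≤ En w :=
  sum_nonneg fun _ _ => sq_nonneg _

theorem dpi_zero : dpi 0 = 0 := by simp [dpi]

theorem En_slices {i : ℕ} (w : Pt K (i + 1) → ℝ) : En w = ∑ a, En (slice w a) := by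
  simp only [En, sum_pt_succ, slice]

theorem dpi_sum_le {α : Type*} (s : Finset α) (f : α → ℝ) :
    dpi (∑ a ∈ s, f a) ≤ ∑ a ∈ s, dpi (f a) := by
  classical
  induction s using Finset.induction_on with
  | empty => simp [dpi_zero]
  | insert a s ha ih =>
    rw [sum_insert ha, sum_insert ha]
    exact (dpi_add_le _ _).trans (by linarith)

theorem En_sliceSum_le {i : ℕ} (w : Pt K (i + 1) → ℝ) :
    En (fun y => ∑ a, slice w a y) ≤ K * En w := by
  rw [En_slices]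
  simp only [En]
  rw [sum_comm, mul_sum]
  refine sum_le_sum fun y _ => ?_
  refine (pow_le_pow_left₀ (dpi_nonneg _) (dpi_sum_le univ _) 2).trans ?_
  refine sq_sum_le_card_mul_sum_sq.trans_eq ?_
  simp

theorem En_le_card {i : ℕ} (w : Pt K i → ℝ) : En w ≤ 4 * (K : ℝ) ^ i := by
  refine (sum_le_card_nsmul univ _ (4 : ℝ) fun x _ => ?_).trans_eq ?_
  · have := dpi_le_half_pi (w x)
    have := Real.pi_le_four
    have := dpi_nonneg (w x)
    nlinarith
  · simp [mul_comm]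

theorem good_zero (i j : ℕ) {eps : ℝ} (he : 0 < eps) :
    Good K i j (eps / 2) (0 : Pt K i → ℝ) :=
  ⟨0, intW_zero, fun x => by simp; linarith⟩

theorem cover_zero (i : ℕ) {eps : ℝ} (he : 0 < eps) (s τ : ℝ) (hτ : 0 ≤ τ) :
    Cover K i 0 eps s τ := by
  refine ⟨PEmpty, inferInstance, fun c => c.elim, fun w => ?_, fun c => c.elim, by simpa using hτ,
    fun w => ?_, fun w => ?_⟩
  all_goals
    exfalso
    have h0 : w.1 = 0 := by
      have := w.2.1
      cases i <;> simpa [InW] using this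
    exact w.2.2 (h0 ▸ good_zero i 0 he)

theorem inW_zero_succ {j : ℕ} (w : Pt K 0 → ℝ) : InW K 0 (j + 1) w := by simp [InW]

theorem cover_base (hK : 2 ≤ K) (hn : 1 ≤ n₀) {eps : ℝ} (he : 0 < eps) (he1 : eps ≤ 1) (j : ℕ)
    {s : ℝ} (hs : thr K n₀ eps 0 (j + 1) ≤ s) : Cover K 0 (j + 1) eps s (tau K n₀ 0) := by
  classical
  set N := ⌊Real.pi / eps⌋₊ with hN
  let x0 : Pt K 0 := default
  have hpi := Real.pi_pos
  let v : (Pt K 0 → ℝ) → ℝ := fun w =>
    w x0 - Real.pi * (round (w x0 / Real.pi) : ℝ) + Real.pi / 2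
  have hv : ∀ w, 0 ≤ v w ∧ v w ≤ Real.pi := fun w => by
    have h := abs_le.1 (show |w x0 - Real.pi * (round (w x0 / Real.pi) : ℝ)| ≤ Real.pi / 2 from
      dpi_le_half_pi (w x0))
    constructor <;> (simp only [v]; linarith [h.1, h.2])
  have hk : ∀ w, ⌊v w / eps⌋₊ < N + 1 := fun w =>
    Nat.lt_succ_of_le (Nat.floor_le_floor (div_le_div_of_nonneg_right (hv w).2 he.le))
  refine ⟨Fin (N + 1), inferInstance, fun _ => eps ^ 2 / 4, fun w => ⟨_, hk w.1⟩,
    fun _ => by positivity, ?_, fun w => ?_, fun w w' h => ?_⟩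
  · rw [sum_const, card_univ, Fintype.card_fin, nsmul_eq_mul]
    have hN5 : ((N + 1 : ℕ) : ℝ) ≤ 5 / eps := by
      push_cast
      have h1 : (N : ℝ) ≤ Real.pi / eps := Nat.floor_le (by positivity)
      have h2 : Real.pi / eps ≤ 4 / eps := by gcongr; exact Real.pi_le_four
      have h3 : 1 ≤ 1 / eps := (one_le_div he).2 he1
      rw [show 5 / eps = 4 / eps + 1 / eps by ring]
      linarith
    refine (mul_le_mul_of_nonneg_right hN5 (Real.exp_pos _).le).trans ?_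
    have hb := big_base hK
    rw [← Real.exp_log (show (0 : ℝ) < 5 / eps by positivity), ← Real.exp_add,
      ← Real.exp_log (tau_pos (n₀ := n₀) hK 0)]
    refine Real.exp_le_exp.2 ?_
    rw [tau, pow_zero, one_mul, Real.log_inv, Real.log_pow,
      show 5 / eps = 5 * (1 / eps) by ring, Real.log_mul (by norm_num) (by positivity)]
    have h5 := Real.log_le_sub_one_of_pos (show (0 : ℝ) < 5 by norm_num)
    have hlb := mul_le_mul_of_nonneg_left (log_base_le hK)
      (show (0 : ℝ) ≤ 3 * (n₀ : ℝ) by positivity)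
    have hm : (1 : ℝ) ≤ n₀ := by exact_mod_cast hn
    have hkR : (2 : ℝ) ≤ K := by exact_mod_cast hK
    have hL := log_eps_nonneg he he1
    have hlow : 40 * (n₀ : ℝ) * K + Real.log (1 / eps) ≤ s * (eps ^ 2 / 4) := by
      refine le_trans ?_ (mul_le_mul_of_nonneg_right hs (by positivity))
      have e : thr K n₀ eps 0 (j + 1) * (eps ^ 2 / 4)
          = (100 * (K : ℝ) ^ 2 * n₀ * (8 * (K : ℝ) * n₀) ^ (j + 1)) *
            (40 * n₀ * K + Real.log (1 / eps)) := by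
        rw [thr, pow_zero]; field_simp; ring
      rw [e]
      refine le_mul_of_one_le_left (by positivity) (one_le_mul_of_one_le_of_one_le ?_ ?_)
      · nlinarith
      · exact one_le_pow₀ (by nlinarith)
    push_cast
    nlinarith
  · have hne : eps / 2 < dpi (w.1 x0) := by
      by_contra hle
      push Not at hle
      refine w.2.2 ⟨fun _ => (round (w.1 x0 / Real.pi) : ℝ),
        ⟨inW_zero_succ _, fun _ => ⟨_, rfl⟩⟩, fun x => ?_⟩
      rw [Subsingleton.elim x x0]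
      exact hle
    calc eps ^ 2 / 4 = (eps / 2) ^ 2 := by ring
      _ ≤ dpi (w.1 x0) ^ 2 := pow_le_pow_left₀ (by positivity) hne.le 2
      _ ≤ En w.1 := single_le_sum (f := fun x => dpi (w.1 x) ^ 2) (fun x _ => sq_nonneg _)
            (mem_univ x0)
  · refine ⟨fun _ => ((round (w.1 x0 / Real.pi) - round (w'.1 x0 / Real.pi) : ℤ) : ℝ),
      ⟨inW_zero_succ _, fun _ => ⟨_, rfl⟩⟩, fun x => ?_⟩
    rw [Subsingleton.elim x x0]
    have h' : ⌊v w.1 / eps⌋₊ = ⌊v w'.1 / eps⌋₊ := congrArg Fin.val h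
    have a1 := Nat.floor_le (show 0 ≤ v w.1 / eps from div_nonneg (hv _).1 he.le)
    have a2 := Nat.lt_floor_add_one (v w.1 / eps)
    have b1 := Nat.floor_le (show 0 ≤ v w'.1 / eps from div_nonneg (hv _).1 he.le)
    have b2 := Nat.lt_floor_add_one (v w'.1 / eps)
    rw [h'] at a1 a2
    have c1 : |v w.1 / eps - v w'.1 / eps| ≤ 1 := by
      rw [abs_le]; constructor <;> linarith
    rw [← sub_div, abs_div, abs_of_pos he, div_le_one he] at c1
    refine le_of_eq_of_le (congrArg abs ?_) c1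
    simp only [v]; push_cast; ring

theorem pi_lattice_eq {k : ℤ} (h : |Real.pi * (k : ℝ)| ≤ 3) : k = 0 := by
  by_contra hne
  have h1 : (1 : ℝ) ≤ |(k : ℝ)| := by exact_mod_cast Int.one_le_abs hne
  rw [abs_mul, abs_of_pos Real.pi_pos] at h
  have := Real.pi_gt_three
  nlinarith

/-- Representatives: every vector of W(i,j) gets an optional code and a lattice part. -/
theorem exists_rep {i j : ℕ} {eps s τ : ℝ} (he : 0 < eps) (he1 : eps ≤ 1) (hτ : τ < 1)
    (h : Cover K i j eps s τ) :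
    ∃ (ι : Type) (_ : Fintype ι) (ω : ι → ℝ) (rep : Option ι → Pt K i → ℝ)
      (code : (Pt K i → ℝ) → Option ι) (zf : (Pt K i → ℝ) → Pt K i → ℝ),
      (∀ c, 0 ≤ ω c) ∧ (∑ c, Real.exp (-s * ω c) ≤ τ) ∧ (∀ o, InW K i j (rep o)) ∧
      rep none = 0 ∧
      (∀ v, InW K i j v → IntW K i j (zf v) ∧ (code v).elim 0 ω ≤ En v ∧
        (∀ x, |v x - rep (code v) x - Real.pi * zf v x| ≤ eps) ∧
        ∑ x, (v x - rep (code v) x - Real.pi * zf v x) ^ 2 ≤ 6 * En v ∧
        (code v = none → ∀ x, |v x - Real.pi * zf v x| ≤ eps / 2)) ∧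
      ∀ v v', InW K i j v → InW K i j v' → code v = code v' →
        ∀ x, |v x - v' x - Real.pi * (zf v x - zf v' x)| ≤ eps := by
  classical
  obtain ⟨ι, inst, ω, cd, hω, hsum, hle, hsame⟩ := h
  have hωpos : ∀ c, 0 < ω c := by
    intro c
    rcases (hω c).eq_or_lt with h0 | h0
    · exfalso
      have h1 := single_le_sum (f := fun c => Real.exp (-s * ω c))
        (fun c _ => (Real.exp_pos _).le) (mem_univ c)
      simp only [← h0, mul_zero, Real.exp_zero] at h1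
      linarith
    · exact h0
  have hr : ∀ c, ∃ r : Pt K i → ℝ, InW K i j r ∧
      ∀ b, cd b = c → (∃ rb, rb.1 = r ∧ cd rb = c) ∧ En r ≤ 2 * En b.1 := by
    intro c
    by_cases hex : ∃ b, cd b = c
    · obtain ⟨b0, hb0⟩ := hex
      let S : Set ℝ := (fun b => En b.1) '' {b | cd b = c}
      have hSne : S.Nonempty := ⟨_, b0, hb0, rfl⟩
      have hSlb : ω c ≤ sInf S := le_csInf hSne (by rintro _ ⟨b, hb, rfl⟩; exact hb ▸ hle b)
      obtain ⟨_, ⟨r, hr, rfl⟩, hlt⟩ :=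
        exists_lt_of_csInf_lt hSne (show sInf S < 2 * sInf S by linarith [hωpos c])
      refine ⟨r.1, r.2.1, fun b hb => ⟨⟨r, rfl, hr⟩, hlt.le.trans ?_⟩⟩
      have hbd : BddBelow S := ⟨ω c, by rintro _ ⟨b, hb, rfl⟩; exact hb ▸ hle b⟩
      linarith [csInf_le hbd ⟨b, hb, rfl⟩]
    · exact ⟨0, inW_zero, fun b hb => (hex ⟨b, hb⟩).elim⟩
  choose r hrW hr using hr
  let rep : Option ι → Pt K i → ℝ := fun o => o.elim 0 r
  let code : (Pt K i → ℝ) → Option ι := fun v =>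
    if h : InW K i j v ∧ ¬ Good K i j (eps / 2) v then some (cd ⟨v, h⟩) else none
  have hz : ∀ v, InW K i j v → ∃ z, IntW K i j z ∧ (code v).elim 0 ω ≤ En v ∧
        (∀ x, |v x - rep (code v) x - Real.pi * z x| ≤ eps) ∧
        ∑ x, (v x - rep (code v) x - Real.pi * z x) ^ 2 ≤ 6 * En v ∧
        (code v = none → ∀ x, |v x - Real.pi * z x| ≤ eps / 2) := by
    intro v hv
    have h3 := Real.pi_gt_three
    by_cases hb : InW K i j v ∧ ¬ Good K i j (eps / 2) v
    · have hc : code v = some (cd ⟨v, hb⟩) := dif_pos hb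
      obtain ⟨⟨rb, hrb, hrbc⟩, hEn⟩ := hr _ ⟨v, hb⟩ rfl
      obtain ⟨z, hz, hzb⟩ := hsame ⟨v, hb⟩ rb hrbc.symm
      rw [hrb] at hzb
      refine ⟨z, hz, ?_, ?_, ?_, fun hn => ?_⟩
      · rw [hc]; exact hle ⟨v, hb⟩
      · rw [hc]; exact hzb
      · rw [hc]
        simp only [rep, Option.elim_some]
        refine (sum_le_sum fun x _ => ?_).trans (show ∑ x, 2 * (dpi (v x) ^ 2 +
          dpi (r (cd ⟨v, hb⟩) x) ^ 2) ≤ 6 * En v by
            rw [← mul_sum, sum_add_distrib]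
            simp only [En] at hEn ⊢
            linarith)
        obtain ⟨k, hk⟩ := hz.2 x
        have h1 : |v x - r (cd ⟨v, hb⟩) x - Real.pi * z x| ≤ Real.pi / 2 := by
          have := hzb x
          simp only at this ⊢
          linarith
        rw [← sq_abs, ← dpi_of_abs_le h1]
        refine le_trans ?_ (add_sq_le (a := dpi (v x)) (b := dpi (r (cd ⟨v, hb⟩) x)))
        refine pow_le_pow_left₀ (dpi_nonneg _) ?_ 2
        rw [hk, show v x - r (cd ⟨v, hb⟩) x - Real.pi * (k : ℝ)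
            = (v x + -r (cd ⟨v, hb⟩) x) + Real.pi * ((-k : ℤ) : ℝ) by push_cast; ring, dpi_add_int]
        exact (dpi_add_le _ _).trans (by rw [dpi_neg])
      · rw [hc] at hn; exact absurd hn (by simp)
    · have hc : code v = none := dif_neg hb
      obtain ⟨z, hz, hzb⟩ : Good K i j (eps / 2) v := not_not.1 fun hg => hb ⟨hv, hg⟩
      refine ⟨z, hz, ?_, fun x => ?_, ?_, fun _ => hzb⟩
      · rw [hc]; exact En_nonneg v
      · rw [hc]; simp only [rep, Option.elim_none, Pi.zero_apply, sub_zero]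
        linarith [hzb x]
      · rw [hc]
        simp only [rep, Option.elim_none, Pi.zero_apply, sub_zero, En, mul_sum]
        refine sum_le_sum fun x _ => ?_
        obtain ⟨k, hk⟩ := hz.2 x
        have h1 : |v x - Real.pi * z x| ≤ Real.pi / 2 := by linarith [hzb x]
        rw [← sq_abs, ← dpi_of_abs_le h1, hk,
          show v x - Real.pi * (k : ℝ) = v x + Real.pi * ((-k : ℤ) : ℝ) by push_cast; ring,
          dpi_add_int]
        linarith [sq_nonneg (dpi (v x))]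
  let zf : (Pt K i → ℝ) → Pt K i → ℝ := fun v =>
    if h : InW K i j v then (hz v h).choose else 0
  refine ⟨ι, inst, ω, rep, code, zf, hω, hsum, fun o => ?_, rfl, fun v hv => ?_,
    fun v v' hv hv' hcode x => ?_⟩
  · cases o with
    | none => exact inW_zero
    | some c => exact hrW c
  · simp only [zf, dif_pos hv]
    exact (hz v hv).choose_spec
  · have hzf : ∀ u, InW K i j u → IntW K i j (zf u) ∧
        (∀ x, |u x - rep (code u) x - Real.pi * zf u x| ≤ eps) ∧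
        (code u = none → ∀ x, |u x - Real.pi * zf u x| ≤ eps / 2) := by
      intro u hu
      simp only [zf, dif_pos hu]
      exact ⟨(hz u hu).choose_spec.1, (hz u hu).choose_spec.2.2.1,
        (hz u hu).choose_spec.2.2.2.2⟩
    obtain ⟨i1, a1, b1⟩ := hzf v hv
    obtain ⟨i2, a2, b2⟩ := hzf v' hv'
    by_cases hb : InW K i j v ∧ ¬ Good K i j (eps / 2) v
    · have hc : code v = some (cd ⟨v, hb⟩) := dif_pos hb
      by_cases hb' : InW K i j v' ∧ ¬ Good K i j (eps / 2) v'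
      · have hc' : code v' = some (cd ⟨v', hb'⟩) := dif_pos hb'
        rw [hc, hc', Option.some.injEq] at hcode
        obtain ⟨z, hz, hzb⟩ := hsame ⟨v, hb⟩ ⟨v', hb'⟩ hcode
        obtain ⟨k, hk⟩ := hz.2 x
        obtain ⟨k1, hk1⟩ := i1.2 x
        obtain ⟨k2, hk2⟩ := i2.2 x
        have d1 := abs_le.1 (a1 x)
        have d2 := abs_le.1 (a2 x)
        have d3 := abs_le.1 (hzb x)
        rw [hc, hk1] at d1
        rw [hc', ← hcode, hk2] at d2
        simp only [hk] at d3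
        have h0 : k - (k1 - k2) = 0 := pi_lattice_eq (by
          push_cast; rw [abs_le]; constructor <;> linarith [d1.1, d1.2, d2.1, d2.2, d3.1, d3.2])
        rw [hk1, hk2]
        have : (k : ℝ) = (k1 : ℝ) - k2 := by exact_mod_cast sub_eq_zero.1 h0
        have hx := hzb x
        rw [hk, this] at hx
        exact hx
      · rw [hc, show code v' = none from dif_neg hb'] at hcode
        exact absurd hcode (by simp)
    · have hc : code v = none := dif_neg hb
      have e1 := abs_le.1 (b1 hc x)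
      have e2 := abs_le.1 (b2 (hcode ▸ hc) x)
      rw [abs_le]
      constructor <;> linarith [e1.1, e1.2, e2.1, e2.2]

theorem geom_le {q : ℝ} (h0 : 0 ≤ q) (h1 : q ≤ 1 / 2) (N : ℕ) :
    ∑ l : Fin (N + 1), q ^ (l : ℕ) ≤ 1 + 2 * q := by
  rw [Fin.sum_univ_eq_sum_range (fun l => q ^ l)]
  induction N with
  | zero => simpa using h0
  | succ N ih =>
    rw [sum_range_succ']
    simp only [pow_succ, ← sum_mul, pow_zero]
    nlinarith

end NetAux

end Vale.Agent.P047
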