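import Vale.Agent.P047.WBasic
import Mathlib.LinearAlgebra.Dual.Lemmas
import Mathlib.Algebra.Order.Chebyshev
import Mathlib.Algebra.BigOperators.Field
import Mathlib.Tactic.Linarith
import Mathlib.Tactic.FieldSimp

/-!
Point evaluations on W(i,j): the sup norm against the square norm, and the reproducing kernel.
-/

namespace Vale.Agent.P047

open Finset

/-- The bound for the squared norm of evaluation at a point of W(i,j). -/
noncomputable def netEta (K n₀ i j : ℕ) : ℝ :=
  (2 * (K : ℝ) * n₀) ^ j * ((1 - 1 / (K : ℝ)) * (1 + 1 / (4 * (n₀ : ℝ)))) ^ i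

theorem netEta_pos {K n₀ : ℕ} (hK : 2 ≤ K) (hn : 1 ≤ n₀) (i j : ℕ) : 0 < netEta K n₀ i j := by
  have hK' : (2 : ℝ) ≤ K := by exact_mod_cast hK
  have hn' : (1 : ℝ) ≤ n₀ := by exact_mod_cast hn
  refine mul_pos (pow_pos (by positivity) j) (pow_pos (mul_pos ?_ (by positivity)) i)
  rw [sub_pos, div_lt_one (by linarith)]
  linarith

/-- A zero-sum vector: each square is at most (1 - 1/K) times the sum of the squares. -/
theorem netEta_sq_le_of_sum_zero {K : ℕ} (hK : 1 ≤ K) (d : Fin K → ℝ) (hd : ∑ b, d b = 0)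
    (a : Fin K) : d a ^ 2 ≤ (1 - 1 / (K : ℝ)) * ∑ b, d b ^ 2 := by
  have h1 := Finset.add_sum_erase univ d (mem_univ a)
  have h2 := Finset.add_sum_erase univ (fun b => d b ^ 2) (mem_univ a)
  have hcard : ((univ.erase a).card : ℝ) = (K : ℝ) - 1 := by
    rw [card_erase_of_mem (mem_univ a), card_univ, Fintype.card_fin, Nat.cast_sub hK, Nat.cast_one]
  have h3 := sq_sum_le_card_mul_sum_sq (s := univ.erase a) (f := d)
  rw [hcard, show ∑ b ∈ univ.erase a, d b = -d a by linarith, neg_sq] at h3
  have hK0 : (0 : ℝ) < K := by exact_mod_cast hK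
  rw [one_sub_div hK0.ne', div_mul_eq_mul_div, le_div_iff₀ hK0, ← h2]
  nlinarith [h3]

theorem sq_le_netEta_mul {K n₀ : ℕ} (hK : 2 ≤ K) (hn : 1 ≤ n₀) {i j : ℕ} {w : Pt K i → ℝ}
    (hw : InW K i j w) (x : Pt K i) : w x ^ 2 ≤ netEta K n₀ i j * ∑ y, w y ^ 2 := by
  have hK' : (2 : ℝ) ≤ K := by exact_mod_cast hK
  have hn' : (1 : ℝ) ≤ n₀ := by exact_mod_cast hn
  have hzero : ∀ {i : ℕ} {w : Pt K i → ℝ}, InW K i 0 w → ∀ x, w x = 0 := by
    intro i w hw x
    have : w = 0 := by
      cases i <;> exact hw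
    rw [this]; rfl
  induction i generalizing j with
  | zero =>
    cases j with
    | zero => rw [hzero hw x]; simp [netEta]; positivity
    | succ j =>
      have h1 : w x ^ 2 ≤ ∑ y, w y ^ 2 :=
        single_le_sum (f := fun y => w y ^ 2) (fun y _ => sq_nonneg _) (mem_univ x)
      refine h1.trans (le_mul_of_one_le_left (sum_nonneg fun y _ => sq_nonneg _) ?_)
      simp only [netEta, pow_zero, mul_one]
      exact one_le_pow₀ (by nlinarith)
  | succ i ih =>
    cases j with
    | zero =>
      rw [hzero hw x]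
      simpa using mul_nonneg (netEta_pos hK hn (i + 1) 0).le (sum_nonneg fun y _ => sq_nonneg (w y))
    | succ j =>
      obtain ⟨hsl, hS⟩ := hw
      set S : Pt K i → ℝ := fun y => ∑ a, slice w a y with hSdef
      set d : Fin K → Pt K i → ℝ := fun a => slice w a - (1 / (K : ℝ)) • S with hd
      have hdW : ∀ a, InW K i (j + 1) (d a) := fun a => inW_sub (hsl a) (inW_smul _ (inW_succ hS))
      have hd0 : ∀ y, ∑ a, d a y = 0 := fun y => by
        simp only [hd, Pi.sub_apply, Pi.smul_apply, smul_eq_mul, sum_sub_distrib, sum_const,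
          card_univ, Fintype.card_fin, nsmul_eq_mul]
        rw [hSdef]
        field_simp
        ring
      set a := x 0 with ha
      set y := Fin.tail x with hy
      have hx : w x = d a y + S y / K := by
        simp only [hd, Pi.sub_apply, Pi.smul_apply, smul_eq_mul, slice, ha, hy, Fin.cons_self_tail]
        ring
      set e1 := netEta K n₀ i (j + 1) with he1
      set e0 := netEta K n₀ i j with he0
      set D := ∑ b, ∑ z, d b z ^ 2 with hD
      set SS := ∑ z, S z ^ 2 with hSS
      have hp : d a y ^ 2 ≤ (1 - 1 / (K : ℝ)) * e1 * D := by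
        refine (netEta_sq_le_of_sum_zero (by omega) (fun b => d b y) (hd0 y) a).trans ?_
        rw [mul_assoc, hD, mul_sum univ _ e1]
        refine mul_le_mul_of_nonneg_left (sum_le_sum fun b _ => ih (hdW b) y) ?_
        rw [sub_nonneg, div_le_one (by linarith)]; linarith
      have hq : (S y / K) ^ 2 ≤ e0 * SS / (K : ℝ) ^ 2 := by
        rw [div_pow]
        exact div_le_div_of_nonneg_right (ih hS y) (sq_nonneg _)
      have htot : ∑ z, w z ^ 2 = D + SS / K := by
        rw [sum_pt_succ, hD, hSS, sum_comm (f := fun b z => d b z ^ 2),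
          sum_comm (f := fun b z => w (Fin.cons b z) ^ 2), Finset.sum_div, ← sum_add_distrib]
        refine sum_congr rfl fun z _ => ?_
        simp only [hd, Pi.sub_apply, Pi.smul_apply, smul_eq_mul]
        have e : ∀ b, (slice w b z - 1 / (K : ℝ) * S z) ^ 2 =
            w (Fin.cons b z) ^ 2 - 2 * (S z / K) * slice w b z + (S z / K) ^ 2 := fun b => by
          simp only [slice]; ring
        simp only [e, sum_add_distrib, sum_sub_distrib, ← mul_sum, sum_const, card_univ,
          Fintype.card_fin, nsmul_eq_mul]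
        rw [show ∑ b, slice w b z = S z from rfl]
        field_simp
        ring
      set l : ℝ := 1 / (4 * (n₀ : ℝ)) with hl
      have hlpos : 0 < l := by rw [hl]; positivity
      have hsq : w x ^ 2 ≤ (1 + l) * d a y ^ 2 + (1 + 1 / l) * (S y / K) ^ 2 := by
        have h5 : 0 ≤ (l * d a y - S y / K) ^ 2 / l := div_nonneg (sq_nonneg _) hlpos.le
        have h6 : (1 + l) * d a y ^ 2 + (1 + 1 / l) * (S y / K) ^ 2 - (d a y + S y / K) ^ 2 =
            (l * d a y - S y / K) ^ 2 / l := by field_simp; ring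
        rw [hx]
        linarith
      have hA : netEta K n₀ (i + 1) (j + 1) = (1 + l) * (1 - 1 / (K : ℝ)) * e1 := by
        simp only [he1, netEta, hl]; ring
      have hB : (1 + 1 / l) * e0 / (K : ℝ) ≤ netEta K n₀ (i + 1) (j + 1) := by
        have h7 : netEta K n₀ (i + 1) (j + 1) =
            2 * K * n₀ * ((1 + l) * (1 - 1 / (K : ℝ))) * e0 := by
          simp only [he0, netEta, hl]; ring
        rw [h7, mul_div_right_comm]
        refine mul_le_mul_of_nonneg_right ?_ (netEta_pos hK hn i j).le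
        rw [div_le_iff₀ (by linarith)]
        have e : 2 * K * n₀ * ((1 + l) * (1 - 1 / (K : ℝ))) * K =
            ((K : ℝ) - 1) * K * (2 * n₀ + 1 / 2) := by
          rw [hl]; field_simp; ring
        have e' : 1 + 1 / l = 1 + 4 * (n₀ : ℝ) := by rw [hl]; field_simp
        rw [e, e']
        nlinarith [mul_le_mul_of_nonneg_right (show (2 : ℝ) ≤ ((K : ℝ) - 1) * K by nlinarith)
          (show (0 : ℝ) ≤ 2 * n₀ + 1 / 2 by linarith)]
      have hSS0 : 0 ≤ SS := sum_nonneg fun z _ => sq_nonneg _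
      calc w x ^ 2 ≤ (1 + l) * d a y ^ 2 + (1 + 1 / l) * (S y / K) ^ 2 := hsq
        _ ≤ (1 + l) * ((1 - 1 / (K : ℝ)) * e1 * D) + (1 + 1 / l) * (e0 * SS / (K : ℝ) ^ 2) :=
          add_le_add (mul_le_mul_of_nonneg_left hp (by linarith))
            (mul_le_mul_of_nonneg_left hq (by positivity))
        _ = netEta K n₀ (i + 1) (j + 1) * D + (1 + 1 / l) * e0 / K * (SS / K) := by
          rw [hA]; field_simp
        _ ≤ netEta K n₀ (i + 1) (j + 1) * D + netEta K n₀ (i + 1) (j + 1) * (SS / K) :=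
          add_le_add le_rfl (mul_le_mul_of_nonneg_right hB (div_nonneg hSS0 (by linarith)))
        _ = netEta K n₀ (i + 1) (j + 1) * ∑ z, w z ^ 2 := by rw [htot]; ring

/-- The reproducing kernel of W(i,j) at a point. -/
theorem exists_netKernel {K n₀ : ℕ} (hK : 2 ≤ K) (hn : 1 ≤ n₀) (i j : ℕ) (x : Pt K i) :
    ∃ k, InW K i j k ∧ (∀ w, InW K i j w → ∑ y, k y * w y = w x) ∧
      ∑ y, k y ^ 2 ≤ netEta K n₀ i j := by
  let B : WSub K i j →ₗ[ℝ] Module.Dual ℝ (WSub K i j) :=
    LinearMap.mk₂ ℝ (fun k w => ∑ y, k.1 y * w.1 y)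
      (fun a b c => by simp [add_mul, sum_add_distrib])
      (fun r a c => by simp [mul_sum, mul_assoc])
      (fun a b c => by simp [mul_add, sum_add_distrib])
      (fun r a c => by simp [mul_sum, mul_left_comm])
  have hinj : Function.Injective B := by
    rw [← LinearMap.ker_eq_bot, Submodule.eq_bot_iff]
    intro k hk
    have h0 : ∑ y, k.1 y * k.1 y = 0 := LinearMap.congr_fun hk k
    rw [sum_eq_zero_iff_of_nonneg fun y _ => mul_self_nonneg _] at h0
    exact Subtype.ext (funext fun y => mul_self_eq_zero.1 (h0 y (mem_univ y)))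
  have hsur : Function.Surjective B :=
    (LinearMap.injective_iff_surjective_of_finrank_eq_finrank Subspace.dual_finrank_eq.symm).1 hinj
  obtain ⟨k, hk⟩ := hsur ((LinearMap.proj x).comp (WSub K i j).subtype)
  refine ⟨k.1, k.2, fun w hw => LinearMap.congr_fun hk ⟨w, hw⟩, ?_⟩
  have h1 : ∑ y, k.1 y ^ 2 = k.1 x := by
    simp only [pow_two]
    exact LinearMap.congr_fun hk k
  have h2 := sq_le_netEta_mul hK hn k.2 x (n₀ := n₀)
  rw [← h1, pow_two] at h2
  have h0 : 0 ≤ ∑ y, k.1 y ^ 2 := sum_nonneg fun y _ => sq_nonneg _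
  rcases h0.eq_or_lt with h | h
  · rw [← h]; exact (netEta_pos hK hn i j).le
  · exact le_of_mul_le_mul_right h2 h

end Vale.Agent.P047
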