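import Mathlib

/-!
The midpoint Prékopa–Leindler inequality, in the squared form
`f x * g y ≤ h ((x + y) / 2) ^ 2` implies `(∫ f) * (∫ g) ≤ (∫ h) ^ 2`.
-/

namespace Vale.Agent.P047

open MeasureTheory Set ENNReal

/-- One-dimensional Brunn–Minkowski for midpoints of compact sets. -/
theorem bm_midpoint_compact {K L C : Set ℝ} (hK : IsCompact K) (hKne : K.Nonempty)
    (hL : IsCompact L) (hLne : L.Nonempty) (h : ∀ x ∈ K, ∀ y ∈ L, (x + y) / 2 ∈ C) :
    volume K + volume L ≤ 2 * volume C := by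
  obtain ⟨a, haK, ha⟩ := hK.exists_isGreatest hKne
  obtain ⟨b, hbL, hb⟩ := hL.exists_isLeast hLne
  set P : Set ℝ := (fun z => (2 : ℝ) * z) ⁻¹' ((fun w => w + -b) ⁻¹' K) with hP
  set Q : Set ℝ := (fun z => (2 : ℝ) * z) ⁻¹' ((fun w => w + -a) ⁻¹' L) with hQ
  have hPm : MeasurableSet P := (hK.measurableSet.preimage (by fun_prop)).preimage (by fun_prop)
  have hQm : MeasurableSet Q := (hL.measurableSet.preimage (by fun_prop)).preimage (by fun_prop)
  have hsub : P ∪ Q ⊆ C := by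
    rintro z (hz | hz)
    · have := h _ hz _ hbL
      ring_nf at this
      exact this
    · have := h _ haK _ hz
      ring_nf at this
      exact this
  have hinter : volume (P ∩ Q) = 0 := by
    refine measure_mono_null (fun z hz => ?_) (Real.volume_singleton (a := (a + b) / 2))
    have h1 := ha hz.1
    have h2 := hb hz.2
    simp only [mem_singleton_iff]
    linarith
  have hvol : ∀ (S : Set ℝ) (c : ℝ),
      2 * volume ((fun z => (2 : ℝ) * z) ⁻¹' ((fun w => w + c) ⁻¹' S)) = volume S := by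
    intro S c
    rw [Real.volume_preimage_mul_left two_ne_zero, measure_preimage_add_right, ← mul_assoc]
    rw [abs_of_pos (by norm_num), ENNReal.ofReal_inv_of_pos two_pos, ENNReal.ofReal_ofNat,
      ENNReal.mul_inv_cancel two_ne_zero ofNat_ne_top, one_mul]
  calc volume K + volume L = 2 * volume P + 2 * volume Q := by rw [hvol, hvol]
    _ = 2 * volume (P ∪ Q) := by
        rw [← mul_add, ← measure_union_add_inter P hQm, hinter, add_zero]
    _ ≤ 2 * volume C := by gcongr

/-- One-dimensional Brunn–Minkowski for midpoints of measurable sets. -/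
theorem bm_midpoint {A B C : Set ℝ} (hA : MeasurableSet A) (hAne : A.Nonempty)
    (hB : MeasurableSet B) (hBne : B.Nonempty) (h : ∀ x ∈ A, ∀ y ∈ B, (x + y) / 2 ∈ C) :
    volume A + volume B ≤ 2 * volume C := by
  obtain ⟨a, ha⟩ := hAne
  obtain ⟨b, hb⟩ := hBne
  rw [hA.measure_eq_iSup_isCompact volume, hB.measure_eq_iSup_isCompact volume]
  have key : ∀ K, K ⊆ A → IsCompact K → ∀ L, L ⊆ B → IsCompact L →
      volume K + volume L ≤ 2 * volume C := fun K hKA hK L hLB hL =>
    (add_le_add (measure_mono (subset_insert a K)) (measure_mono (subset_insert b L))).trans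
      (bm_midpoint_compact (hK.insert a) (insert_nonempty a K) (hL.insert b) (insert_nonempty b L)
        fun x hx y hy => h x (insert_subset ha hKA hx) y (insert_subset hb hLB hy))
  have pick : ∀ (S K : Set ℝ), ∃ K', K' ⊆ S ∧ IsCompact K' ∧
      (⨆ (_ : K ⊆ S) (_ : IsCompact K), volume K) ≤ volume K' := by
    intro S K
    by_cases hc : K ⊆ S ∧ IsCompact K
    · exact ⟨K, hc.1, hc.2, iSup₂_le fun _ _ => le_rfl⟩
    · exact ⟨∅, empty_subset S, isCompact_empty, iSup₂_le fun p q => absurd ⟨p, q⟩ hc⟩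
  refine ENNReal.iSup_add_iSup_le fun K L => ?_
  obtain ⟨K', hKA, hK, hK'⟩ := pick A K
  obtain ⟨L', hLB, hL, hL'⟩ := pick B L
  exact (add_le_add hK' hL').trans (key K' hKA hK L' hLB hL)

theorem four_mul_le_add_sq (x y : ℝ≥0∞) : 4 * (x * y) ≤ (x + y) ^ 2 := by
  rcases eq_or_ne x ⊤ with rfl | hx
  · simp
  rcases eq_or_ne y ⊤ with rfl | hy
  · simp
  lift x to NNReal using hx
  lift y to NNReal using hy
  norm_cast
  rw [← NNReal.coe_le_coe]
  push_cast
  nlinarith [sq_nonneg ((x : ℝ) - y)]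

/-- The bounded, normalised case. -/
theorem pl_normalised {F G H : ℝ → ℝ} (hF : Measurable F) (hG : Measurable G) (hH : Measurable H)
    (hF0 : ∀ x, 0 ≤ F x) (hG0 : ∀ x, 0 ≤ G x) (hH0 : ∀ x, 0 ≤ H x)
    (hF1 : ∀ x, F x ≤ 1) (hG1 : ∀ x, G x ≤ 1)
    (hFs : ∀ t < 1, ∃ x, t < F x) (hGs : ∀ t < 1, ∃ x, t < G x)
    (h : ∀ x y, F x * G y ≤ H ((x + y) / 2) ^ 2) :
    (∫⁻ x, ENNReal.ofReal (F x)) * (∫⁻ x, ENNReal.ofReal (G x)) ≤
      (∫⁻ x, ENNReal.ofReal (H x)) ^ 2 := by
  have hsum : (∫⁻ x, ENNReal.ofReal (F x)) + (∫⁻ x, ENNReal.ofReal (G x)) ≤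
      2 * ∫⁻ x, ENNReal.ofReal (H x) := by
    rw [lintegral_eq_lintegral_meas_lt volume (.of_forall hF0) hF.aemeasurable,
      lintegral_eq_lintegral_meas_lt volume (.of_forall hG0) hG.aemeasurable,
      lintegral_eq_lintegral_meas_lt volume (.of_forall hH0) hH.aemeasurable,
      ← lintegral_const_mul' _ _ ofNat_ne_top]
    refine (le_lintegral_add _ _).trans ?_
    refine lintegral_mono_ae ((ae_restrict_mem measurableSet_Ioi).mono fun t ht => ?_)
    have ht : 0 < t := ht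
    rcases lt_or_ge t 1 with ht1 | ht1
    · refine bm_midpoint (hF measurableSet_Ioi) (hFs t ht1) (hG measurableSet_Ioi) (hGs t ht1)
        fun x hx y hy => ?_
      have hx : t < F x := hx
      have hy : t < G y := hy
      show t < H ((x + y) / 2)
      nlinarith [h x y, mul_lt_mul'' hx hy ht.le ht.le, hH0 ((x + y) / 2)]
    · have e1 : {x | t < F x} = ∅ := eq_empty_of_forall_notMem fun x hx =>
        absurd (lt_of_lt_of_le hx (hF1 x)) (not_lt.2 ht1)
      have e2 : {x | t < G x} = ∅ := eq_empty_of_forall_notMem fun x hx =>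
        absurd (lt_of_lt_of_le hx (hG1 x)) (not_lt.2 ht1)
      simp [e1, e2]
  refine (ENNReal.mul_le_mul_iff_right (by norm_num) (by norm_num : (4 : ℝ≥0∞) ≠ ⊤)).1
    ((four_mul_le_add_sq _ _).trans ?_)
  calc _ ≤ (2 * ∫⁻ x, ENNReal.ofReal (H x)) ^ 2 := pow_le_pow_left₀ zero_le hsum 2
    _ = _ := by rw [mul_pow]; norm_num

/-- Bounded case. -/
theorem pl_bounded {f g h : ℝ → ℝ≥0∞} (hf : Measurable f) (hg : Measurable g) (hh : Measurable h)
    (hfb : ⨆ x, f x ≠ ⊤) (hgb : ⨆ x, g x ≠ ⊤) (H : ∀ x y, f x * g y ≤ h ((x + y) / 2) ^ 2) :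
    (∫⁻ x, f x) * (∫⁻ x, g x) ≤ (∫⁻ x, h x) ^ 2 := by
  set a := ⨆ x, f x with ha
  set b := ⨆ x, g x with hb
  rcases eq_or_ne a 0 with ha0 | ha0
  · have : ∀ x, f x = 0 := fun x => le_antisymm ((le_iSup f x).trans ha0.le) zero_le
    simp [this]
  rcases eq_or_ne b 0 with hb0 | hb0
  · have : ∀ x, g x = 0 := fun x => le_antisymm ((le_iSup g x).trans hb0.le) zero_le
    simp [this]
  set c : ℝ≥0∞ := ENNReal.ofReal (Real.sqrt (a.toReal * b.toReal)) with hc
  have ha' : 0 < a.toReal := ENNReal.toReal_pos ha0 hfb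
  have hb' : 0 < b.toReal := ENNReal.toReal_pos hb0 hgb
  have hcsq : c ^ 2 = a * b := by
    rw [hc, ← ENNReal.ofReal_pow (Real.sqrt_nonneg _), Real.sq_sqrt (by positivity),
      ENNReal.ofReal_mul ha'.le, ENNReal.ofReal_toReal hfb, ENNReal.ofReal_toReal hgb]
  have hc0 : c ≠ 0 := by
    rw [hc, Ne, ENNReal.ofReal_eq_zero, not_le]; positivity
  have hct : c ≠ ⊤ := ENNReal.ofReal_ne_top
  have fF : ∀ x, f x / a ≤ 1 := fun x =>
    ENNReal.div_le_of_le_mul (by rw [one_mul]; exact le_iSup f x)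
  have gG : ∀ x, g x / b ≤ 1 := fun x =>
    ENNReal.div_le_of_le_mul (by rw [one_mul]; exact le_iSup g x)
  have key := pl_normalised (F := fun x => (f x / a).toReal) (G := fun x => (g x / b).toReal)
    (H := fun x => (min (h x / c) 1).toReal) (by fun_prop) (by fun_prop) (by fun_prop)
    (fun _ => toReal_nonneg) (fun _ => toReal_nonneg) (fun _ => toReal_nonneg)
    (fun x => toReal_le_of_le_ofReal zero_le_one (by simpa using fF x))
    (fun x => toReal_le_of_le_ofReal zero_le_one (by simpa using gG x)) ?_ ?_ ?_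
  rotate_left
  · intro t ht
    have h1 : ENNReal.ofReal t < 1 := ENNReal.ofReal_lt_one.2 ht
    obtain ⟨x, hx⟩ : ∃ x, ENNReal.ofReal t < f x / a := by
      by_contra hcon
      push Not at hcon
      have : a ≤ ENNReal.ofReal t * a := iSup_le fun x =>
        (ENNReal.div_le_iff ha0 hfb).1 (hcon x)
      have h2 := ENNReal.mul_lt_mul_left ha0 hfb h1
      rw [one_mul] at h2
      exact (lt_irrefl _) (this.trans_lt h2)
    exact ⟨x, lt_of_le_of_lt (le_max_left t 0) (by simpa [ENNReal.toReal_ofReal'] using (ENNReal.toReal_lt_toReal ofReal_ne_top ((fF x).trans_lt one_lt_top).ne).2 hx)⟩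
  · intro t ht
    have h1 : ENNReal.ofReal t < 1 := ENNReal.ofReal_lt_one.2 ht
    obtain ⟨x, hx⟩ : ∃ x, ENNReal.ofReal t < g x / b := by
      by_contra hcon
      push Not at hcon
      have : b ≤ ENNReal.ofReal t * b := iSup_le fun x =>
        (ENNReal.div_le_iff hb0 hgb).1 (hcon x)
      have h2 := ENNReal.mul_lt_mul_left hb0 hgb h1
      rw [one_mul] at h2
      exact (lt_irrefl _) (this.trans_lt h2)
    exact ⟨x, lt_of_le_of_lt (le_max_left t 0) (by simpa [ENNReal.toReal_ofReal'] using (ENNReal.toReal_lt_toReal ofReal_ne_top ((gG x).trans_lt one_lt_top).ne).2 hx)⟩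
  · intro x y
    have hz : min (h ((x + y) / 2) / c) 1 ≠ ⊤ := ne_top_of_le_ne_top one_ne_top (min_le_right _ _)
    rw [← toReal_mul, ← toReal_pow]
    refine toReal_mono (pow_ne_top hz) ?_
    rcases min_cases (h ((x + y) / 2) / c) 1 with ⟨e, _⟩ | ⟨e, _⟩ <;> rw [e]
    · rw [div_eq_mul_inv, div_eq_mul_inv, div_eq_mul_inv, mul_pow, ← ENNReal.inv_pow, hcsq,
        ENNReal.mul_inv (.inl ha0) (.inl hfb)]
      calc f x * a⁻¹ * (g y * b⁻¹) = f x * g y * (a⁻¹ * b⁻¹) := by ring
        _ ≤ _ := mul_le_mul' (H x y) le_rfl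
    · rw [one_pow]; exact mul_le_one' (fF x) (gG y)
  · have eF : (∫⁻ x, f x) = a * ∫⁻ x, ENNReal.ofReal (f x / a).toReal := by
      rw [← lintegral_const_mul' _ _ hfb]
      refine lintegral_congr fun x => ?_
      rw [ofReal_toReal ((fF x).trans_lt one_lt_top).ne, ENNReal.mul_div_cancel ha0 hfb]
    have eG : (∫⁻ x, g x) = b * ∫⁻ x, ENNReal.ofReal (g x / b).toReal := by
      rw [← lintegral_const_mul' _ _ hgb]
      refine lintegral_congr fun x => ?_
      rw [ofReal_toReal ((gG x).trans_lt one_lt_top).ne, ENNReal.mul_div_cancel hb0 hgb]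
    have eH : c * ∫⁻ x, ENNReal.ofReal (min (h x / c) 1).toReal ≤ ∫⁻ x, h x := by
      rw [← lintegral_const_mul' _ _ hct]
      refine lintegral_mono fun x => ?_
      calc c * ENNReal.ofReal (min (h x / c) 1).toReal ≤ c * (h x / c) :=
            mul_le_mul' le_rfl (ofReal_toReal_le.trans (min_le_left _ _))
        _ = h x := ENNReal.mul_div_cancel hc0 hct
    rw [eF, eG, mul_mul_mul_comm, ← hcsq]
    refine (mul_le_mul' le_rfl key).trans ?_
    rw [← mul_pow]
    exact pow_le_pow_left₀ zero_le eH 2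

/-- The midpoint Prékopa–Leindler inequality on the line. -/
theorem pl_midpoint_one {f g h : ℝ → ℝ≥0∞} (hf : Measurable f) (hg : Measurable g)
    (hh : Measurable h) (H : ∀ x y, f x * g y ≤ h ((x + y) / 2) ^ 2) :
    (∫⁻ x, f x) * (∫⁻ x, g x) ≤ (∫⁻ x, h x) ^ 2 := by
  have trunc : ∀ (u : ℝ → ℝ≥0∞), Measurable u →
      (∫⁻ x, u x) = ⨆ N : ℕ, ∫⁻ x, min (u x) N := by
    intro u hu
    rw [← lintegral_iSup (fun N => hu.min measurable_const)
      fun i j hij x => min_le_min le_rfl (Nat.cast_le.2 hij)]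
    refine lintegral_congr fun x => ?_
    rw [← inf_iSup_eq, iSup_natCast, inf_top_eq]
  rw [trunc f hf, trunc g hg, ENNReal.iSup_mul]
  refine iSup_le fun i => ?_
  rw [ENNReal.mul_iSup]
  refine iSup_le fun j => ?_
  exact pl_bounded (hf.min measurable_const) (hg.min measurable_const) hh
    (ne_top_of_le_ne_top (natCast_ne_top i) (iSup_le fun x => min_le_right _ _))
    (ne_top_of_le_ne_top (natCast_ne_top j) (iSup_le fun x => min_le_right _ _))
    fun x y => (mul_le_mul' (min_le_left _ _) (min_le_left _ _)).trans (H x y)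

/-- The midpoint Prékopa–Leindler inequality on `ℝⁿ`. -/
theorem pl_midpoint : ∀ {n : ℕ} {f g h : (Fin n → ℝ) → ℝ≥0∞}, Measurable f → Measurable g →
    Measurable h → (∀ x y, f x * g y ≤ h ((2 : ℝ)⁻¹ • (x + y)) ^ 2) →
    (∫⁻ x, f x) * (∫⁻ x, g x) ≤ (∫⁻ x, h x) ^ 2 := by
  intro n
  induction n with
  | zero =>
    intro f g h _ _ _ H
    have hd : ∀ (u : (Fin 0 → ℝ) → ℝ≥0∞) (z : Fin 0 → ℝ), (∫⁻ x, u x) = u z := by
      intro u z
      have hu : u = fun _ => u z := funext fun x => by rw [Subsingleton.elim x z]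
      rw [hu, lintegral_const]
      simp [volume_pi]
    have h0 := H Fin.elim0 Fin.elim0
    rwa [Subsingleton.elim ((2 : ℝ)⁻¹ • ((Fin.elim0 : Fin 0 → ℝ) + Fin.elim0)) Fin.elim0,
      ← hd f, ← hd g, ← hd h] at h0
  | succ n ih =>
    intro f g h hf hg hh H
    have e := (volume_preserving_piFinSuccAbove (fun _ : Fin (n + 1) => ℝ) 0).symm
    have hsplit : ∀ (u : (Fin (n + 1) → ℝ) → ℝ≥0∞), Measurable u →
        (∫⁻ z, u z) = ∫⁻ x : ℝ, ∫⁻ v : Fin n → ℝ, u (Fin.cons x v) := by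
      intro u hu
      rw [← e.lintegral_comp hu]
      rw [show (fun p => u ((MeasurableEquiv.piFinSuccAbove (fun _ : Fin (n + 1) => ℝ) 0).symm p)) =
          fun p : ℝ × (Fin n → ℝ) => u (Fin.cons p.1 p.2) from funext fun p => by
        simp [MeasurableEquiv.piFinSuccAbove_symm_apply]; rfl]
      exact lintegral_prod (fun p : ℝ × (Fin n → ℝ) => u (Fin.cons p.1 p.2))
        (by fun_prop : Measurable fun p : ℝ × (Fin n → ℝ) => u (Fin.cons p.1 p.2)).aemeasurable
    have hm : ∀ (u : (Fin (n + 1) → ℝ) → ℝ≥0∞), Measurable u →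
        Measurable fun x : ℝ => ∫⁻ v : Fin n → ℝ, u (Fin.cons x v) := fun u hu =>
      Measurable.lintegral_prod_right' (f := fun p : ℝ × (Fin n → ℝ) => u (Fin.cons p.1 p.2))
        (by fun_prop)
    rw [hsplit f hf, hsplit g hg, hsplit h hh]
    refine pl_midpoint_one (hm f hf) (hm g hg) (hm h hh) fun x y => ?_
    refine ih (by fun_prop) (by fun_prop) (by fun_prop) fun v w => ?_
    refine (H _ _).trans_eq ?_
    congr 2
    funext i
    refine Fin.cases ?_ ?_ i
    · simp; ring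
    · intro j; simp; ring

end Vale.Agent.P047
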