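import Vale.Agent.P047.Cell
import Vale.Agent.P047.Net
import Mathlib.Analysis.SpecialFunctions.Integrals.Basic
import Mathlib.Analysis.Real.Pi.Bounds
import Mathlib.MeasureTheory.Group.Integral

/-!
Balanced signings by positivity of a cube integral.

Proof notes.  Variables V = {a // a ≠ 0} × Info; fields w_a = wext of the coordinates, w_0 = 0;
t_u = w_(pa u)(px u) - w_(pb u)(px u), with integer matrix and all column sums even (parity).
The number of balanced signings times π^|V| equals 2^|U| times the integral of ∏cos t over the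
cube.  The set where all |w_a x| ≤ 1/8 is inside the cube and has positive integral (Main); it is
exactly the good part of the cube.  A bad θ: among radii ρ_k = (1/8) 4^k/4^(L+1) some k<L has
inf En on ball ρ_(k+1) at least 1/M times that on ball ρ_k; take u within ρ_k of θ with En at most
twice the inf, code its components by net_lemma at ε = ρ_k; with r the representative, θ is within
2ρ_k of r + πz and all points of ball(r, 2ρ_k) have En ≥ (sum of weights)/(2M).  Periodicity and
cell_bound bound the piece by exp(-lam·(sum of weights)/(32 M)) · Main.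
-/

namespace Vale.Agent.P047

open Finset MeasureTheory

noncomputable section

section Signed

variable {K n m : ℕ} [NeZero K]

/-- The nonzero letters. -/
abbrev SgLt (K : ℕ) [NeZero K] := {a : Fin K // a ≠ 0}

/-- The variables of the cube integral. -/
abbrev SgVar (K n m : ℕ) [NeZero K] := SgLt K × {x : Pt K n // x ∈ Info K n m}

/-- Extension by zero of the variables of one letter. -/
def sgExt (c : SgVar K n m → ℝ) (a : Fin K) : Pt K n → ℝ :=
  fun x => if h : a ≠ 0 ∧ x ∈ Info K n m then c (⟨a, h.1⟩, ⟨x, h.2⟩) else 0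

private theorem sgWext_zero : wext K n m (0 : Pt K n → ℝ) = 0 := by
  have h := wext_smul (K := K) (n := n) (m := m) 0 (0 : Pt K n → ℝ)
  simpa using h

/-- The field of a letter, as a linear function of the variables. -/
def sgFld (a : Fin K) : (SgVar K n m → ℝ) →ₗ[ℝ] (Pt K n → ℝ) where
  toFun c := wext K n m (sgExt c a)
  map_add' c c' := by
    rw [← wext_add]; congr 1; funext x
    simp only [sgExt, Pi.add_apply]; split_ifs <;> simp
  map_smul' r c := by
    rw [RingHom.id_apply, ← wext_smul]; congr 1; funext x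
    simp only [sgExt, Pi.smul_apply]; split_ifs <;> simp

private theorem sgFld_inW (c : SgVar K n m → ℝ) (a : Fin K) : InW K n m (sgFld a c) :=
  wext_inW _

private theorem sgFld_zero (c : SgVar K n m → ℝ) : sgFld (0 : Fin K) c = 0 := by
  show wext K n m (sgExt c 0) = 0
  have e : sgExt c (0 : Fin K) = 0 := by funext x; simp [sgExt]
  rw [e, sgWext_zero]

private theorem sgFld_info (c : SgVar K n m → ℝ) (v : SgVar K n m) :
    sgFld v.1.1 c v.2.1 = c v := by
  show wext K n m (sgExt c v.1.1) v.2.1 = c v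
  rw [wext_eq_on_info _ v.2.2, sgExt, dif_pos ⟨v.1.2, v.2.2⟩]

private theorem sgFld_isInt {c : SgVar K n m → ℝ} (hc : IsInt c) (a : Fin K) :
    IsInt (sgFld a c) := by
  refine wext_isInt fun x => ?_
  unfold sgExt
  split_ifs with h
  · exact hc _
  · exact ⟨0, by simp⟩

/-- The fields of one letter given by a prescribed function. -/
def sgOne (a : Fin K) (w : Pt K n → ℝ) : SgVar K n m → ℝ :=
  fun v => if v.1.1 = a then w v.2.1 else 0

private theorem sgFld_one {a : Fin K} (ha : a ≠ 0) {w : Pt K n → ℝ} (hw : InW K n m w)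
    (b : Fin K) : sgFld b (sgOne (m := m) a w) = if b = a then w else 0 := by
  show wext K n m (sgExt (sgOne a w) b) = _
  split_ifs with h
  · subst h
    conv_rhs => rw [← wext_of_inW hw]
    refine wext_congr fun x hx => ?_
    simp [sgExt, sgOne, ha, hx]
  · have e : sgExt (sgOne (m := m) a w) b = 0 := by
      funext x; simp [sgExt, sgOne, h]
    rw [e, sgWext_zero]

/-- The total energy of the fields. -/
def sgEtot (c : SgVar K n m → ℝ) : ℝ := ∑ a : SgLt K, En (sgFld a.1 c)

/-- All fields are within r of each other. -/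
def sgNear (r : ℝ) (c c' : SgVar K n m → ℝ) : Prop :=
  ∀ (a : SgLt K) y, |sgFld a.1 c y - sgFld a.1 c' y| ≤ r

/-- The fields, as one linear map. -/
def sgB (K n m : ℕ) [NeZero K] : (SgVar K n m → ℝ) →ₗ[ℝ] (SgLt K × Pt K n → ℝ) :=
  LinearMap.pi fun y => (LinearMap.proj y.2).comp (sgFld y.1.1)

private theorem sgB_apply (c : SgVar K n m → ℝ) (y : SgLt K × Pt K n) :
    sgB K n m c y = sgFld y.1.1 c y.2 := rfl

/-- The box of small fields. -/
def sgBox (K n m : ℕ) [NeZero K] (r : ℝ) : Set (SgVar K n m → ℝ) :=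
  {c | ∀ y, |sgB K n m c y| ≤ r}

private theorem sgBox_coord {r : ℝ} {c : SgVar K n m → ℝ} (h : c ∈ sgBox K n m r)
    (v : SgVar K n m) : |c v| ≤ r := by
  have := h (v.1, v.2.1)
  rwa [sgB_apply, sgFld_info] at this

private theorem sgB_continuous (y : SgLt K × Pt K n) :
    Continuous fun c => sgB K n m c y :=
  ((LinearMap.proj y).comp (sgB K n m)).continuous_of_finiteDimensional

private theorem sgBox_isCompact (r : ℝ) : IsCompact (sgBox K n m r) := by
  have h : sgBox K n m r ⊆ Set.univ.pi fun _ => Set.Icc (-r) r := fun c hc v _ =>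
    abs_le.1 (sgBox_coord hc v)
  refine (isCompact_univ_pi fun _ => isCompact_Icc).of_isClosed_subset ?_ h
  simp only [sgBox, Set.ofPred_forall]
  exact isClosed_iInter fun y => isClosed_le (sgB_continuous y).abs continuous_const

variable {U : Type} [Fintype U] (px : U → Pt K n) (pa pb : U → Fin K)

/-- The phases. -/
def sgT (m : ℕ) : (SgVar K n m → ℝ) →ₗ[ℝ] (U → ℝ) :=
  LinearMap.pi fun u => (LinearMap.proj (px u)).comp (sgFld (pa u) - sgFld (pb u))

omit [Fintype U] in
private theorem sgT_apply (c : SgVar K n m → ℝ) (u : U) :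
    sgT px pa pb m c u = sgFld (pa u) c (px u) - sgFld (pb u) c (px u) := rfl

omit [Fintype U] in
private theorem sgT_le {r : ℝ} (hr : 0 ≤ r) {c : SgVar K n m → ℝ} (h : c ∈ sgBox K n m r)
    (u : U) : |sgT px pa pb m c u| ≤ 2 * r := by
  have hb : ∀ a : Fin K, |sgFld a c (px u)| ≤ r := by
    intro a
    by_cases ha : a = 0
    · subst ha; rw [sgFld_zero]; simpa using hr
    · exact h (⟨a, ha⟩, px u)
  rw [sgT_apply]
  linarith [abs_sub (sgFld (pa u) c (px u)) (sgFld (pb u) c (px u)), hb (pa u), hb (pb u)]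

/-- The product of the cosines. -/
def sgCos (m : ℕ) (c : SgVar K n m → ℝ) : ℝ := ∏ u, Real.cos (sgT px pa pb m c u)

private theorem sgCos_continuous : Continuous (sgCos px pa pb m) :=
  continuous_finsetProd _ fun u _ => Real.continuous_cos.comp
    ((LinearMap.proj u).comp (sgT px pa pb m)).continuous_of_finiteDimensional

private theorem sgCos_pos {r : ℝ} (hr : 0 ≤ r) (hr' : r ≤ 1 / 8) {c : SgVar K n m → ℝ}
    (h : c ∈ sgBox K n m r) : 0 < sgCos px pa pb m c := by
  refine prod_pos fun u _ => Real.cos_pos_of_mem_Ioo ?_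
  have h1 := abs_le.1 (sgT_le px pa pb hr h u)
  have h2 := Real.pi_gt_three
  exact ⟨by linarith [h1.1], by linarith [h1.2]⟩

/-- The cube. -/
def sgCube (K n m : ℕ) [NeZero K] : Set (SgVar K n m → ℝ) :=
  Set.univ.pi fun _ => Set.Ico (-(Real.pi / 2)) (Real.pi / 2)

private theorem sgCube_measurable : MeasurableSet (sgCube K n m) :=
  MeasurableSet.univ_pi fun _ => measurableSet_Ico

private theorem sgCube_integrableOn {f : (SgVar K n m → ℝ) → ℝ} (hf : Continuous f) :
    IntegrableOn f (sgCube K n m) :=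
  (hf.continuousOn.integrableOn_compact (isCompact_univ_pi fun _ => isCompact_Icc)).mono_set
    (Set.pi_mono fun _ _ => Set.Ico_subset_Icc_self)

/-- A signing from a Boolean. -/
def sgSign (b : Bool) : ℝ := if b then 1 else -1

omit [Fintype U] in
private theorem sgT_expand (c : SgVar K n m → ℝ) (u : U) :
    sgT px pa pb m c u = ∑ v, c v * sgT px pa pb m (Pi.single v 1) u := by
  conv_lhs => rw [LinearMap.pi_apply_eq_sum_univ (sgT px pa pb m) c]
  simp [Finset.sum_apply]
  congr! with v _
  simp [Pi.single_apply, eq_comm]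

omit [Fintype U] in
private theorem sgT_isInt {c : SgVar K n m → ℝ} (hc : IsInt c) (u : U) :
    ∃ k : ℤ, sgT px pa pb m c u = k := by
  obtain ⟨i, hi⟩ := sgFld_isInt hc (pa u) (px u)
  obtain ⟨j, hj⟩ := sgFld_isInt hc (pb u) (px u)
  exact ⟨i - j, by rw [sgT_apply, hi, hj]; push_cast; ring⟩

private theorem sgCos_periodic (c : SgVar K n m → ℝ) {z : SgVar K n m → ℝ} (hz : IsInt z) :
    |sgCos px pa pb m (c + Real.pi • z)| = |sgCos px pa pb m c| := by
  simp only [sgCos, abs_prod]
  refine prod_congr rfl fun u _ => ?_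
  obtain ⟨k, hk⟩ := sgT_isInt px pa pb hz u
  rw [map_add, map_smul, Pi.add_apply, Pi.smul_apply, hk, smul_eq_mul, mul_comm Real.pi,
    Real.cos_add_int_mul_pi]
  simp [abs_mul]

private theorem sgOneDim (j : ℤ) :
    ∫ x in Set.Ico (-(Real.pi / 2)) (Real.pi / 2), Complex.exp ((2 * j * Complex.I) * x) =
      if j = 0 then (Real.pi : ℂ) else 0 := by
  have hpi := Real.pi_pos
  rw [setIntegral_congr_set Ico_ae_eq_Ioc, ← intervalIntegral.integral_of_le (by linarith)]
  split_ifs with h
  · subst h; simp
  · have hc : (2 * (j : ℂ) * Complex.I) ≠ 0 := by simp [h]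
    rw [integral_exp_mul_complex hc]
    have e : (2 * (j : ℂ) * Complex.I) * ((Real.pi / 2 : ℝ) : ℂ) =
        (2 * (j : ℂ) * Complex.I) * ((-(Real.pi / 2) : ℝ) : ℂ) +
          (j : ℂ) * (2 * Real.pi * Complex.I) := by push_cast; ring
    rw [e, Complex.exp_add, Complex.exp_int_mul_two_pi_mul_I, mul_one, sub_self, zero_div]

/-- A balanced signing kills every column of the phases. -/
def SgBalanced (m : ℕ) (f : U → Bool) : Prop :=
  ∀ v : SgVar K n m, ∑ u, sgSign (f u) * sgT px pa pb m (Pi.single v 1) u = 0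

private theorem sgColumn_even
    (hpar : ∀ a z, IntW K n m z → ∃ k : ℤ, (∑ u, if pa u = a then z (px u) else 0)
        + (∑ u, if pb u = a then z (px u) else 0) = 2 * (k : ℝ))
    (f : U → Bool) (v : SgVar K n m) :
    ∃ j : ℤ, ∑ u, sgSign (f u) * sgT px pa pb m (Pi.single v 1) u = 2 * (j : ℝ) := by
  classical
  have hw : ∀ b : Fin K, sgFld b (Pi.single v 1 : SgVar K n m → ℝ) =
      if b = v.1.1 then wext K n m (Pi.single v.2.1 1) else 0 := by
    intro b
    have e : (Pi.single v 1 : SgVar K n m → ℝ) =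
        sgOne v.1.1 (wext K n m (Pi.single v.2.1 1)) := by
      funext w
      simp only [sgOne, wext_eq_on_info _ w.2.2, Pi.single_apply]
      obtain ⟨⟨a, ha⟩, ⟨x, hx⟩⟩ := v
      obtain ⟨⟨b, hb⟩, ⟨y, hy⟩⟩ := w
      by_cases h1 : b = a <;> by_cases h2 : y = x <;> simp [h1, h2]
    rw [e, sgFld_one v.1.2 (wext_inW _)]
  set z : Pt K n → ℝ := wext K n m (Pi.single v.2.1 1) with hz
  have hzi : IntW K n m z := ⟨wext_inW _, wext_isInt fun x => by
    by_cases h : x = v.2.1
    · exact ⟨1, by simp [h]⟩
    · exact ⟨0, by simp [h]⟩⟩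
  obtain ⟨k, hk⟩ := hpar v.1.1 z hzi
  choose iz hiz using hzi.2
  refine ⟨k - (∑ u, ((if pb u = v.1.1 then iz (px u) else 0) +
    (if f u then 0 else (if pa u = v.1.1 then iz (px u) else 0) -
      (if pb u = v.1.1 then iz (px u) else 0)))), ?_⟩
  push_cast
  rw [mul_sub, ← hk, mul_sum, ← sum_add_distrib, ← sum_sub_distrib]
  refine sum_congr rfl fun u _ => ?_
  rw [sgT_apply, hw, hw]
  by_cases h1 : pa u = v.1.1 <;> by_cases h2 : pb u = v.1.1 <;> cases f u <;>
    simp [h1, h2, sgSign, ← hiz] <;> ring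

private theorem sgCount
    (hpar : ∀ a z, IntW K n m z → ∃ k : ℤ, (∑ u, if pa u = a then z (px u) else 0)
        + (∑ u, if pb u = a then z (px u) else 0) = 2 * (k : ℝ))
    (hno : ∀ f : U → Bool, ¬ SgBalanced px pa pb m f) :
    ∫ c in sgCube K n m, sgCos px pa pb m c = 0 := by
  classical
  choose j hj using sgColumn_even px pa pb hpar
  have expand : ∀ c : SgVar K n m → ℝ, ((sgCos px pa pb m c : ℝ) : ℂ) =
      ((2 : ℂ)⁻¹) ^ Fintype.card U *
        ∑ f : U → Bool, ∏ v, Complex.exp ((2 * j f v * Complex.I) * c v) := by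
    intro c
    have h1 : ∀ u, ((Real.cos (sgT px pa pb m c u) : ℝ) : ℂ) =
        (2 : ℂ)⁻¹ * ∑ b : Bool,
          Complex.exp (((sgSign b * sgT px pa pb m c u : ℝ) : ℂ) * Complex.I) := by
      intro u
      rw [Complex.ofReal_cos, Complex.cos]
      simp [sgSign]; ring
    simp only [sgCos, Complex.ofReal_prod, h1, prod_mul_distrib, prod_const, card_univ,
      Fintype.prod_sum]
    congr 1
    refine sum_congr rfl fun f _ => ?_
    rw [← Complex.exp_sum, ← Complex.exp_sum]
    congr 1
    have : ∀ v, (2 * (j f v : ℂ)) =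
        ((∑ u, sgSign (f u) * sgT px pa pb m (Pi.single v 1) u : ℝ) : ℂ) := fun v => by
      rw [hj f v]; push_cast; rfl
    simp only [this, sgT_expand px pa pb c, Complex.ofReal_mul, Complex.ofReal_sum, mul_sum,
      sum_mul]
    rw [sum_comm]
    exact sum_congr rfl fun v _ => sum_congr rfl fun u _ => by ring
  have hint : ∀ f : U → Bool, ∫ c in sgCube K n m,
      ∏ v, Complex.exp ((2 * j f v * Complex.I) * c v) = 0 := by
    intro f
    obtain ⟨v, hv⟩ := not_forall.1 (hno f)
    have hj0 : j f v ≠ 0 := fun h => hv (by rw [hj f v, h]; simp)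
    rw [← integral_indicator sgCube_measurable]
    have e : (sgCube K n m).indicator
        (fun c => ∏ v, Complex.exp ((2 * j f v * Complex.I) * c v)) =
        fun c => ∏ v, (Set.Ico (-(Real.pi / 2)) (Real.pi / 2)).indicator
          (fun x : ℝ => Complex.exp ((2 * j f v * Complex.I) * x)) (c v) := by
      funext c
      by_cases h : c ∈ sgCube K n m
      · rw [Set.indicator_of_mem h]
        exact prod_congr rfl fun v _ =>
          (Set.indicator_of_mem (h v trivial) fun x : ℝ =>
            Complex.exp ((2 * j f v * Complex.I) * x)).symm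
      · rw [Set.indicator_of_notMem h]
        obtain ⟨w, hw⟩ : ∃ w, c w ∉ Set.Ico (-(Real.pi / 2)) (Real.pi / 2) := by
          by_contra hh; push Not at hh; exact h fun w _ => hh w
        exact (prod_eq_zero (mem_univ w) (Set.indicator_of_notMem hw _)).symm
    rw [e, integral_fintype_prod_volume_eq_prod]
    refine prod_eq_zero (mem_univ v) ?_
    rw [integral_indicator measurableSet_Ico, sgOneDim, if_neg hj0]
  have hC : ∫ c in sgCube K n m, ((sgCos px pa pb m c : ℝ) : ℂ) = 0 := by
    simp only [expand]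
    rw [integral_const_mul, integral_finsetSum]
    · simp [hint]
    · intro f _
      refine (Continuous.continuousOn ?_).integrableOn_compact
        (isCompact_univ_pi fun _ => isCompact_Icc) |>.mono_set
        (Set.pi_mono fun _ _ => Set.Ico_subset_Icc_self)
      fun_prop
  exact_mod_cast (integral_complex_ofReal.symm.trans hC)

private theorem sgNull_of_balanced {f : U → Bool}
    (hf : SgBalanced px pa pb m f) (a : Fin K) :
    Null K n m (fun x => ∑ u, if px u = x then
      sgSign (f u) * ((if pa u = a then 1 else 0) - (if pb u = a then 1 else 0)) else 0) := by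
  classical
  intro w hw
  have red : ∀ a : Fin K, ∑ x, (∑ u, if px u = x then
      sgSign (f u) * ((if pa u = a then 1 else 0) - (if pb u = a then 1 else 0)) else 0) * w x =
      ∑ u, sgSign (f u) * ((if pa u = a then w (px u) else 0) -
        (if pb u = a then w (px u) else 0)) := by
    intro a
    simp only [sum_mul]
    rw [sum_comm]
    refine sum_congr rfl fun u _ => ?_
    simp only [ite_mul, zero_mul, sum_ite_eq, mem_univ, if_true]
    split_ifs <;> ring
  have nz : ∀ a : Fin K, a ≠ 0 → ∑ u, sgSign (f u) * ((if pa u = a then w (px u) else 0) -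
      (if pb u = a then w (px u) else 0)) = 0 := by
    intro a ha
    have e : ∀ u, (if pa u = a then w (px u) else 0) - (if pb u = a then w (px u) else 0) =
        sgT px pa pb m (sgOne a w) u := by
      intro u
      rw [sgT_apply, sgFld_one ha hw, sgFld_one ha hw]
      by_cases h1 : pa u = a <;> by_cases h2 : pb u = a <;> simp [h1, h2]
    simp only [e, sgT_expand px pa pb (sgOne a w), mul_sum]
    rw [sum_comm]
    refine sum_eq_zero fun v _ => ?_
    calc ∑ u, sgSign (f u) * (sgOne a w v * sgT px pa pb m (Pi.single v 1) u)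
        = sgOne a w v * ∑ u, sgSign (f u) * sgT px pa pb m (Pi.single v 1) u := by
          rw [mul_sum]; exact sum_congr rfl fun u _ => by ring
      _ = 0 := by rw [hf v, mul_zero]
  rw [red]
  by_cases ha : a = 0
  · subst ha
    have tot : ∑ a : Fin K, ∑ u, sgSign (f u) * ((if pa u = a then w (px u) else 0) -
        (if pb u = a then w (px u) else 0)) = 0 := by
      rw [sum_comm]
      refine sum_eq_zero fun u _ => ?_
      simp [← mul_sum, sum_sub_distrib]
    rwa [sum_eq_single 0 (fun b _ hb => nz b hb) (by simp)] at tot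
  · exact nz a ha

private theorem sgMain_pos : 0 < ∫ c in sgBox K n m (1 / 8), sgCos px pa pb m c := by
  have hK := sgBox_isCompact (K := K) (n := n) (m := m) (1 / 8)
  have hopen : IsOpen {c : SgVar K n m → ℝ | ∀ y, |sgB K n m c y| < 1 / 8} := by
    simp only [Set.ofPred_forall]
    exact isOpen_iInter_of_finite fun y => isOpen_lt (sgB_continuous y).abs continuous_const
  have hsub : {c : SgVar K n m → ℝ | ∀ y, |sgB K n m c y| < 1 / 8} ⊆ sgBox K n m (1 / 8) :=
    fun c hc y => (hc y).le
  refine (setIntegral_pos_iff_support_of_nonneg_ae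
    ((ae_restrict_mem hK.measurableSet).mono fun c hc =>
      (sgCos_pos px pa pb (by norm_num) le_rfl hc).le)
    ((sgCos_continuous px pa pb).continuousOn.integrableOn_compact hK)).2 ?_
  refine lt_of_lt_of_le (hopen.measure_pos volume ⟨0, fun y => by norm_num [map_zero]⟩)
    (measure_mono fun c hc => ⟨?_, hsub hc⟩)
  exact (sgCos_pos px pa pb (by norm_num) le_rfl (hsub hc)).ne'

/-- Periodicity: the part of the cube near the translates of a point costs one cell. -/
private theorem sgTranslate {R : ℝ} (c0 : SgVar K n m → ℝ) :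
    ∃ S : Set (SgVar K n m → ℝ), MeasurableSet S ∧
      (∀ c ∈ sgCube K n m, ∀ z, IsInt z → c - Real.pi • z - c0 ∈ sgBox K n m R → c ∈ S) ∧
      ∫ c, (sgCube K n m ∩ S).indicator (fun c => |sgCos px pa pb m c|) c ≤
        ∫ c in sgBox K n m R, |sgCos px pa pb m (c0 + c)| := by
  classical
  obtain ⟨N, hN⟩ : ∃ N : ℕ, (∑ v, |c0 v|) + |R| + 2 ≤ N := exists_nat_ge _
  let Z : Finset (SgVar K n m → ℤ) := Fintype.piFinset fun _ => Finset.Icc (-(N : ℤ)) N
  let zr : (SgVar K n m → ℤ) → SgVar K n m → ℝ := fun z v => z v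
  let F : (SgVar K n m → ℝ) → ℝ := fun c => |sgCos px pa pb m c|
  let Cell : Set (SgVar K n m → ℝ) := (fun c => c - c0) ⁻¹' sgBox K n m R
  have hF : Continuous F := (sgCos_continuous px pa pb).abs
  have hcell : IsCompact Cell :=
    (Homeomorph.subRight c0).isCompact_preimage.2 (sgBox_isCompact R)
  refine ⟨⋃ z ∈ Z, (fun c => c - Real.pi • zr z) ⁻¹' Cell, ?_, ?_, ?_⟩
  · exact Finset.measurableSet_biUnion _ fun z _ =>
      (hcell.isClosed.preimage (by fun_prop)).measurableSet
  · intro c hc z hz hmem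
    choose iz hiz using hz
    refine Set.mem_iUnion₂.2 ⟨iz, ?_, ?_⟩
    · refine Fintype.mem_piFinset.2 fun v => ?_
      have h1 := sgBox_coord hmem v
      simp only [Pi.sub_apply, Pi.smul_apply, smul_eq_mul, hiz] at h1
      have h2 : |c v| ≤ 2 := by
        have := hc v trivial
        rw [abs_le]; constructor <;> linarith [this.1, this.2, Real.pi_le_four]
      have h3 : |c0 v| ≤ ∑ v, |c0 v| :=
        single_le_sum (fun i _ => abs_nonneg (c0 i)) (mem_univ v)
      have h4 : |Real.pi * (iz v : ℝ)| ≤ N := by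
        have h5 := abs_sub (c v - c0 v) (c v - Real.pi * (iz v : ℝ) - c0 v)
        rw [show c v - c0 v - (c v - Real.pi * (iz v : ℝ) - c0 v) = Real.pi * (iz v : ℝ) by ring]
          at h5
        linarith [abs_sub (c v) (c0 v), le_abs_self R]
      rw [abs_mul, abs_of_pos Real.pi_pos] at h4
      have h6 : |(iz v : ℝ)| ≤ N := le_trans (by nlinarith [Real.pi_gt_three, abs_nonneg (iz v : ℝ)]) h4
      rw [Finset.mem_Icc, ← abs_le]
      exact_mod_cast h6
    · have : zr iz = z := funext fun v => (hiz v).symm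
      simpa [Cell, this] using hmem
  · have hint : ∀ z, Integrable fun c =>
        (sgCube K n m ∩ (fun c => c - Real.pi • zr z) ⁻¹' Cell).indicator F c := fun z =>
      ((sgCube_integrableOn hF).mono_set Set.inter_subset_left).integrable_indicator
        (sgCube_measurable.inter (hcell.isClosed.preimage (by fun_prop)).measurableSet)
    let G : (SgVar K n m → ℤ) → (SgVar K n m → ℝ) → ℝ := fun z c =>
      (sgCube K n m ∩ (fun c => c - Real.pi • zr z) ⁻¹' Cell).indicator F (c + Real.pi • zr z)
    have hper : ∀ z c, G z c = Cell.indicator F c *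
        (sgCube K n m).indicator (fun _ => (1 : ℝ)) (c + Real.pi • zr z) := by
      intro z c
      have e : F (c + Real.pi • zr z) = F c :=
        sgCos_periodic px pa pb c (z := zr z) fun v => ⟨z v, rfl⟩
      by_cases h1 : c + Real.pi • zr z ∈ sgCube K n m <;> by_cases h2 : c ∈ Cell <;>
        simp [G, h1, h2, e]
    have hone : ∀ c, ∑ z ∈ Z, (sgCube K n m).indicator (fun _ => (1 : ℝ)) (c + Real.pi • zr z)
        ≤ 1 := by
      intro c
      have : (Z.filter fun z => c + Real.pi • zr z ∈ sgCube K n m).card ≤ 1 := by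
        refine Finset.card_le_one.2 fun z hz z' hz' => funext fun v => ?_
        have h1 := (Finset.mem_filter.1 hz).2 v trivial
        have h2 := (Finset.mem_filter.1 hz').2 v trivial
        simp only [Pi.add_apply, Pi.smul_apply, smul_eq_mul, zr, Set.mem_Ico] at h1 h2
        by_contra hne
        rcases lt_or_gt_of_ne hne with hlt | hlt
        · have : (z v : ℝ) + 1 ≤ z' v := by exact_mod_cast Int.add_one_le_iff.2 hlt
          nlinarith [Real.pi_pos]
        · have : (z' v : ℝ) + 1 ≤ z v := by exact_mod_cast Int.add_one_le_iff.2 hlt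
          nlinarith [Real.pi_pos]
      simp only [Set.indicator_apply, sum_boole]
      exact_mod_cast this
    calc ∫ c, (sgCube K n m ∩ ⋃ z ∈ Z, (fun c => c - Real.pi • zr z) ⁻¹' Cell).indicator F c
        ≤ ∫ c, ∑ z ∈ Z, (sgCube K n m ∩ (fun c => c - Real.pi • zr z) ⁻¹' Cell).indicator F c := by
          refine integral_mono_of_nonneg (Filter.Eventually.of_forall fun c =>
            Set.indicator_nonneg (fun _ _ => abs_nonneg _) _)
            (integrable_finsetSum _ fun z _ => hint z) (Filter.Eventually.of_forall fun c => ?_)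
          by_cases h : c ∈ sgCube K n m ∩ ⋃ z ∈ Z, (fun c => c - Real.pi • zr z) ⁻¹' Cell
          · obtain ⟨h1, h2⟩ := h
            obtain ⟨z, hz, h3⟩ := Set.mem_iUnion₂.1 h2
            rw [Set.indicator_of_mem (s := sgCube K n m ∩ _) ⟨h1, h2⟩]
            refine le_trans (le_of_eq ?_) (single_le_sum (s := Z)
              (f := fun z => (sgCube K n m ∩ (fun c => c - Real.pi • zr z) ⁻¹' Cell).indicator F c)
              (fun i _ => Set.indicator_nonneg (fun _ _ => abs_nonneg _) _) hz)
            exact (Set.indicator_of_mem (s := sgCube K n m ∩ _) ⟨h1, h3⟩ F).symm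
          · rw [Set.indicator_of_notMem h]
            exact sum_nonneg fun i _ => Set.indicator_nonneg (fun _ _ => abs_nonneg _) _
      _ = ∫ c, ∑ z ∈ Z, G z c := by
          rw [integral_finsetSum _ fun z _ => hint z,
            integral_finsetSum _ fun z _ => (hint z).comp_add_right (Real.pi • zr z)]
          exact sum_congr rfl fun z _ => (integral_add_right_eq_self
            (fun c => (sgCube K n m ∩ (fun c => c - Real.pi • zr z) ⁻¹' Cell).indicator F c)
            (Real.pi • zr z)).symm
      _ ≤ ∫ c, Cell.indicator F c := by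
          refine integral_mono (integrable_finsetSum _ fun z _ => (hint z).comp_add_right _)
            ((hF.continuousOn.integrableOn_compact hcell).integrable_indicator
              hcell.measurableSet) fun c => ?_
          simp only [hper, ← mul_sum]
          exact mul_le_of_le_one_right (Set.indicator_nonneg (fun _ _ => abs_nonneg _) _) (hone c)
      _ = ∫ c in sgBox K n m R, |sgCos px pa pb m (c0 + c)| := by
          rw [← integral_indicator (sgBox_isCompact R).measurableSet,
            ← integral_add_left_eq_self (Cell.indicator F) c0]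
          refine integral_congr_ae (Filter.Eventually.of_forall fun c => ?_)
          simp [Cell, F, Set.indicator_apply]

private theorem sgEn_planted (P : Fin K → Finset (Pt K n))
    (hP : ∀ a, a ≠ 0 → ∀ x ∈ P a, ∃ u, px u = x ∧ pa u = a ∧ pb u = 0)
    (c : SgVar K n m → ℝ) :
    ∑ a : SgLt K, ∑ x ∈ P a.1, dpi (sgFld a.1 c x) ^ 2 ≤
      ∑ u, dpi (sgT px pa pb m c u) ^ 2 := by
  classical
  choose uu h1 h2 h3 using fun (a : SgLt K) (x : {x // x ∈ P a.1}) => hP a.1 a.2 x.1 x.2
  have hval : ∀ a x, sgT px pa pb m c (uu a x) = sgFld a.1 c x.1 := fun a x => by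
    rw [sgT_apply, h1, h2, h3, sgFld_zero]; simp
  calc ∑ a : SgLt K, ∑ x ∈ P a.1, dpi (sgFld a.1 c x) ^ 2
      = ∑ p : (a : SgLt K) × {x // x ∈ P a.1}, dpi (sgFld p.1.1 c p.2.1) ^ 2 := by
        rw [Fintype.sum_sigma]
        exact sum_congr rfl fun a _ => (sum_attach _ fun x => dpi (sgFld a.1 c x) ^ 2).symm
    _ = ∑ u ∈ univ.image (fun p : (a : SgLt K) × {x // x ∈ P a.1} => uu p.1 p.2),
          dpi (sgT px pa pb m c u) ^ 2 := by
        rw [sum_image]
        · simp [hval]
        · rintro ⟨a, x⟩ _ ⟨b, y⟩ _ h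
          have hab : a = b := Subtype.ext (by rw [← h2 a x, ← h2 b y]; exact congrArg pa h)
          subst hab
          have hxy : x = y := Subtype.ext (by rw [← h1 a x, ← h1 a y]; exact congrArg px h)
          subst hxy
          rfl
    _ ≤ _ := sum_le_sum_of_subset_of_nonneg (subset_univ _) fun u _ _ => sq_nonneg _

private theorem sgCell_bound (P : Fin K → Finset (Pt K n)) {lam t0 M G : ℝ}
    (hlam : 0 < lam) (ht0 : 0 ≤ t0) (hM : 1 ≤ M) (hG : 0 < G)
    (hsamp : ∀ a, a ≠ 0 → ∀ w, InW K n m w →
      lam * (En w - t0) ≤ ∑ x ∈ P a, dpi (w x) ^ 2)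
    (h2 : 2 * (K : ℝ) * t0 * G ≤ 1)
    (hP : ∀ a, a ≠ 0 → ∀ x ∈ P a, ∃ u, px u = x ∧ pa u = a ∧ pb u = 0)
    {rho : ℝ} (hrho : 0 < rho) (hrho' : rho ≤ 1 / 128) (c0 : SgVar K n m → ℝ) {om : ℝ}
    (hball : ∀ w ∈ sgBox K n m (2 * rho),
      om ≤ M * sgEtot (c0 + w) ∧ 1 ≤ G * sgEtot (c0 + w)) :
    ∫ c in sgBox K n m (2 * rho), |sgCos px pa pb m (c0 + c)| ≤
      Real.exp (-(lam / (16 * M)) * om) * ∫ c in sgBox K n m (1 / 8), sgCos px pa pb m c := by
  obtain ⟨w, hw, hb⟩ := cell_bound (sgT px pa pb m) (sgB K n m)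
    (fun v => ⟨(v.1, v.2.1), fun c => sgFld_info c v⟩)
    (fun r c hr h u => sgT_le px pa pb hr h u) (2 * rho) (by positivity) (by linarith) c0
  obtain ⟨ho, hg⟩ := hball w hw
  set Es := ∑ u, dpi (sgT px pa pb m (c0 + w) u) ^ 2
  have hE : lam / 2 * sgEtot (c0 + w) ≤ Es := by
    refine le_trans ?_ (sgEn_planted px pa pb P hP (c0 + w))
    calc lam / 2 * sgEtot (c0 + w) ≤ lam * (sgEtot (c0 + w) - K * t0) := by
          have h5 : 2 * (K : ℝ) * t0 ≤ sgEtot (c0 + w) := by nlinarith
          nlinarith
      _ ≤ ∑ a : SgLt K, lam * (En (sgFld a.1 (c0 + w)) - t0) := by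
          rw [← mul_sum, sum_sub_distrib, sum_const, nsmul_eq_mul, sgEtot]
          refine mul_le_mul_of_nonneg_left (sub_le_sub_left ?_ _) hlam.le
          refine mul_le_mul_of_nonneg_right ?_ ht0
          rw [card_univ]
          exact_mod_cast (Fintype.card_subtype_le _).trans (Fintype.card_fin K).le
      _ ≤ _ := sum_le_sum fun a _ => hsamp a.1 a.2 _ (sgFld_inW _ _)
  have hexp : Real.exp (-(1 / 8) * Es) ≤ Real.exp (-(lam / (16 * M)) * om) := by
    refine Real.exp_le_exp.2 ?_
    have h6 : lam / (16 * M) * om ≤ 1 / 8 * Es := by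
      calc lam / (16 * M) * om ≤ lam / (16 * M) * (M * sgEtot (c0 + w)) :=
            mul_le_mul_of_nonneg_left ho (by positivity)
        _ = 1 / 8 * (lam / 2 * sgEtot (c0 + w)) := by field_simp; ring
        _ ≤ _ := by linarith
    linarith
  have hbox : IsCompact (sgBox K n m (1 / 8)) := sgBox_isCompact _
  have hle : ∫ c in sgBox K n m (2 * (2 * rho)), sgCos px pa pb m c ≤
      ∫ c in sgBox K n m (1 / 8), sgCos px pa pb m c :=
    setIntegral_mono_set ((sgCos_continuous px pa pb).continuousOn.integrableOn_compact hbox)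
      ((ae_restrict_mem hbox.measurableSet).mono fun c hc =>
        (sgCos_pos px pa pb (by norm_num) le_rfl hc).le)
      (LE.le.eventuallyLE (fun c hc y => (hc y).trans (by linarith)))
  have h0 : 0 ≤ ∫ c in sgBox K n m (2 * (2 * rho)), sgCos px pa pb m c :=
    setIntegral_nonneg (sgBox_isCompact _).measurableSet fun c hc =>
      (sgCos_pos px pa pb (by linarith) (by linarith) hc).le
  refine le_trans (le_of_eq ?_) (hb.trans (mul_le_mul hexp hle h0 (Real.exp_pos _).le))
  simp [sgBox, sgCos, abs_prod]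

end Signed

private theorem sgFNet_pos {K n m : ℕ} (hK : 2 ≤ K) (hn : 1 ≤ n) {eps : ℝ} (he : 0 < eps)
    (he1 : eps ≤ 1) : 0 < FNet K n m eps := by
  have hK' : (2 : ℝ) ≤ K := by exact_mod_cast hK
  have hn' : (1 : ℝ) ≤ n := by exact_mod_cast hn
  have h1 : 0 < 1 - 1 / (K : ℝ) := by
    rw [sub_pos, div_lt_one (by linarith)]; linarith
  have h2 : 0 ≤ Real.log (1 / eps) := Real.log_nonneg (by rw [le_div_iff₀ he]; linarith)
  unfold FNet
  positivity

private theorem sgFNet_anti {K n m : ℕ} (hK : 2 ≤ K) {e e' : ℝ}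
    (he : 0 < e) (hee : e ≤ e') (he' : e' ≤ 1) : FNet K n m e' ≤ FNet K n m e := by
  have hK' : (2 : ℝ) ≤ K := by exact_mod_cast hK
  have h1 : 0 ≤ 1 - 1 / (K : ℝ) := by
    rw [sub_nonneg, div_le_one (by linarith)]; linarith
  have h2 : 0 ≤ Real.log (1 / e') :=
    Real.log_nonneg (by rw [le_div_iff₀ (lt_of_lt_of_le he hee)]; linarith)
  have h3 : Real.log (1 / e') ≤ Real.log (1 / e) :=
    Real.log_le_log (one_div_pos.2 (lt_of_lt_of_le he hee)) (one_div_le_one_div_of_le he hee)
  have h4 : 0 ≤ 40 * (n : ℝ) * K + Real.log (1 / e) := by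
    have : 0 ≤ 40 * (n : ℝ) * K := by positivity
    linarith
  unfold FNet
  gcongr

private theorem sgPow_le {t : ℝ} (ht : 0 ≤ t) : ∀ N : ℕ, 2 * (N : ℝ) * t ≤ 1 →
    (1 + t) ^ N ≤ 1 + 2 * N * t
  | 0, _ => by simp
  | N + 1, h => by
    push_cast at h ⊢
    have hN : 2 * (N : ℝ) * t ≤ 1 := by nlinarith
    calc (1 + t) ^ (N + 1) = (1 + t) ^ N * (1 + t) := pow_succ _ _
      _ ≤ (1 + 2 * N * t) * (1 + t) := by
          gcongr; exact sgPow_le ht N hN
      _ ≤ 1 + 2 * ((N : ℝ) + 1) * t := by nlinarith [mul_le_mul_of_nonneg_right hN ht]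

/-- The radii. -/
def sgRho (L k : ℕ) : ℝ := 1 / 8 * 4 ^ k / 4 ^ (L + 1)

private theorem sgRho_facts {L k : ℕ} (hk : k < L) :
    0 < sgRho L k ∧ sgRho L k ≤ 1 / 128 ∧ 4 * sgRho L k = sgRho L (k + 1) ∧
      sgRho L (k + 1) ≤ 1 / 32 ∧ 1 / (8 * 4 ^ (L + 1)) ≤ sgRho L k := by
  unfold sgRho
  have h1 : (4 : ℝ) ^ (k + 1) ≤ 4 ^ L := pow_le_pow_right₀ (by norm_num) hk
  have h2 : (1 : ℝ) ≤ 4 ^ k := one_le_pow₀ (by norm_num)
  have hp : (0 : ℝ) < 4 ^ (L + 1) := by positivity
  refine ⟨by positivity, ?_, by ring, ?_, ?_⟩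
  · rw [div_le_iff₀ hp, pow_succ (4 : ℝ) L]; rw [pow_succ] at h1; linarith
  · rw [div_le_iff₀ hp, pow_succ (4 : ℝ) L]; linarith
  · rw [le_div_iff₀ hp]
    calc 1 / (8 * (4 : ℝ) ^ (L + 1)) * 4 ^ (L + 1) = 1 / 8 := by field_simp
      _ ≤ _ := by linarith

theorem exists_signing (K n m L : ℕ) [NeZero K] (hK : 2 ≤ K) (hn : 1 ≤ n)
    (P : Fin K → Finset (Pt K n)) (lam t0 M : ℝ) (hlam : 0 < lam) (ht0 : 0 ≤ t0) (hM : 1 ≤ M)
    (hsamp : ∀ a, a ≠ 0 → ∀ w, InW K n m w →
      lam * (En w - t0) ≤ ∑ x ∈ P a, dpi (w x) ^ 2)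
    (h1 : FNet K n m (1 / (8 * 4 ^ (L + 1))) ≤ lam / (32 * M))
    (h2 : 2 * (K : ℝ) * t0 * FNet K n m (1 / 8) ≤ 1)
    (h3 : 3 * (K : ℝ) * (K : ℝ) ^ n * FNet K n m (1 / 8) < M ^ L)
    (h4 : 4 * (K : ℝ) * L * tauNet K n < 1) :
    HasSigning K n m P := by
  classical
  intro U _ px pa pb _ hpar hP
  suffices hpos : 0 < ∫ c in sgCube K n m, sgCos px pa pb m c by
    by_contra hno
    refine hpos.ne' (sgCount px pa pb hpar fun f hf => hno ?_)
    exact ⟨fun u => sgSign (f u), fun u => by cases h : f u <;> simp [sgSign, h],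
      fun a => sgNull_of_balanced px pa pb hf a⟩
  -- notation
  let G := FNet K n m (1 / 8)
  have hG : 0 < G := sgFNet_pos hK hn (by norm_num) (by norm_num)
  let F : (SgVar K n m → ℝ) → ℝ := fun c => |sgCos px pa pb m c|
  let Bx := sgBox K n m (1 / 8)
  let Main := ∫ c in Bx, sgCos px pa pb m c
  have hMain : 0 < Main := sgMain_pos px pa pb
  have hsub : Bx ⊆ sgCube K n m := fun c hc v _ => by
    have := abs_le.1 (sgBox_coord hc v)
    have := Real.pi_gt_three
    exact ⟨by linarith, by linarith⟩
  have hBm : MeasurableSet Bx := (sgBox_isCompact _).measurableSet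
  -- the net at each scale
  let rho : Fin L → ℝ := fun k => sgRho L k.1
  let s : ℝ := lam / (32 * M)
  have hnet : ∀ k : Fin L, ∃ (ι : Type) (_ : Fintype ι) (ω : ι → ℝ)
      (code : {w : Pt K n → ℝ // InW K n m w ∧ ¬ Good K n m (rho k / 2) w} → ι),
      (∀ i, 0 ≤ ω i) ∧ (∑ i, Real.exp (-s * ω i) ≤ tauNet K n) ∧
      (∀ w, ω (code w) ≤ En w.1) ∧
      ∀ w w', code w = code w' →
        ∃ z, IntW K n m z ∧ ∀ x, |w.1 x - w'.1 x - Real.pi * z x| ≤ rho k := fun k => by
    obtain ⟨f1, f2, -, -, f5⟩ := sgRho_facts k.2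
    exact net_lemma K n m hK hn (rho k) f1 (le_trans f2 (by norm_num)) s
      ((sgFNet_anti hK (by positivity) f5 (le_trans f2 (by norm_num))).trans h1)
  choose ι hι ω code hω0 hωsum hωen hωnear using hnet
  let cd : ∀ k : Fin L, (SgVar K n m → ℝ) → SgLt K → Option (ι k) := fun k c a =>
    if h : Good K n m (rho k / 2) (sgFld a.1 c) then none
    else some (code k ⟨sgFld a.1 c, sgFld_inW c a.1, h⟩)
  let wgt : ∀ k : Fin L, (SgLt K → Option (ι k)) → ℝ := fun k o =>
    ∑ a, (o a).elim 0 (ω k)
  have hEn0 : ∀ w : Pt K n → ℝ, 0 ≤ En w := fun w => sum_nonneg fun x _ => sq_nonneg _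
  have hwgt : ∀ k c, wgt k (cd k c) ≤ sgEtot c := by
    intro k c
    refine sum_le_sum fun a _ => ?_
    simp only [cd]
    split_ifs with h
    · exact hEn0 _
    · exact hωen k _
  -- points of the cube with all fields good are in the box
  have hbad : ∀ c ∈ sgCube K n m \ Bx, ∃ a : SgLt K, ¬ Good K n m (1 / 8) (sgFld a.1 c) := by
    intro c hc
    by_contra hh
    push Not at hh
    refine hc.2 fun y => ?_
    obtain ⟨z, hz, hzc⟩ := hh y.1
    have hz0 : z = 0 := by
      refine inW_eq_zero_of_info hz.1 fun x hx => ?_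
      obtain ⟨i, hi⟩ := hz.2 x
      have h5 := hzc x
      have h6 : sgFld y.1.1 c x = c (y.1, ⟨x, hx⟩) := sgFld_info c (y.1, ⟨x, hx⟩)
      rw [h6, hi] at h5
      have h7 := hc.1 (y.1, ⟨x, hx⟩) trivial
      have h8 := abs_le.1 h5
      have hpi := Real.pi_gt_three
      have : (-1 : ℝ) < i ∧ (i : ℝ) < 1 := by
        constructor <;> nlinarith [h7.1, h7.2, h8.1, h8.2]
      have : i = 0 := by
        have a1 : (-1 : ℤ) < i := by exact_mod_cast this.1
        have a2 : i < 1 := by exact_mod_cast this.2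
        omega
      rw [hi, this]; simp
    have := hzc y.2
    simpa [hz0, sgB_apply] using this
  -- energy lower bound near a bad point
  have hlow : ∀ c ∈ sgCube K n m \ Bx, ∀ p, sgNear (1 / 32) p c → 1 ≤ G * sgEtot p := by
    intro c hc p hp
    obtain ⟨a, ha⟩ := hbad c hc
    have h5 : ¬ Good K n m (1 / 8 / 2) (sgFld a.1 p) := by
      rintro ⟨z, hz, hzp⟩
      refine ha ⟨z, hz, fun x => ?_⟩
      have := abs_le.1 (hzp x)
      have := abs_le.1 (hp a x)
      rw [abs_le]; constructor <;> linarith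
    refine (bad_energy K n m hK hn (1 / 8) (by norm_num) (by norm_num) _ (sgFld_inW _ _) h5).trans ?_
    exact mul_le_mul_of_nonneg_left (single_le_sum (f := fun a : SgLt K => En (sgFld a.1 p))
      (fun b _ => hEn0 _) (mem_univ a)) hG.le
  have hnear0 : ∀ (r : ℝ) (c : SgVar K n m → ℝ), 0 ≤ r → sgNear r c c := fun r c hr a y => by
    simpa using hr
  -- the scale
  have hscale : ∀ c ∈ sgCube K n m \ Bx, ∃ k : Fin L, ∃ c', sgNear (rho k) c' c ∧
      ∀ p, sgNear (sgRho L (k.1 + 1)) p c → sgEtot c' ≤ M * sgEtot p := by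
    intro c hc
    by_contra hh
    push Not at hh
    have chain : ∀ i ≤ L, ∃ p, sgNear (sgRho L i) p c ∧ M ^ i * sgEtot p ≤ sgEtot c := by
      intro i
      induction i with
      | zero =>
        exact fun _ => ⟨c, hnear0 _ c (by unfold sgRho; positivity), by simp⟩
      | succ i ih =>
        intro hi
        obtain ⟨p, hp, hpe⟩ := ih (by omega)
        obtain ⟨q, hq, hqe⟩ := hh ⟨i, by omega⟩ p hp
        refine ⟨q, hq, le_trans ?_ hpe⟩
        rw [pow_succ, mul_assoc]
        exact mul_le_mul_of_nonneg_left hqe.le (by positivity)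
    obtain ⟨p, hp, hpe⟩ := chain L le_rfl
    have hL : sgRho L L = 1 / 32 := by
      unfold sgRho; rw [pow_succ]; field_simp; ring
    rw [hL] at hp
    have h5 := hlow c hc p hp
    have h6 : sgEtot c ≤ 3 * (K : ℝ) * (K : ℝ) ^ n := by
      have h7 : ∀ w : Pt K n → ℝ, En w ≤ 3 * (K : ℝ) ^ n := by
        intro w
        refine (sum_le_sum (g := fun _ => (3 : ℝ)) fun x _ => ?_).trans (le_of_eq ?_)
        · have d0 := dpi_nonneg (w x)
          have d1 := dpi_le_half_pi (w x)
          have p1 := Real.pi_lt_d2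
          nlinarith
        · simp [mul_comm]
      refine (sum_le_sum fun a _ => h7 _).trans ?_
      rw [sum_const, nsmul_eq_mul, card_univ]
      calc (Fintype.card (SgLt K) : ℝ) * (3 * (K : ℝ) ^ n) ≤ (K : ℝ) * (3 * (K : ℝ) ^ n) := by
            refine mul_le_mul_of_nonneg_right ?_ (by positivity)
            exact_mod_cast (Fintype.card_subtype_le _).trans (Fintype.card_fin K).le
        _ = _ := by ring
    have h8 : M ^ L ≤ G * sgEtot c :=
      calc M ^ L = M ^ L * 1 := (mul_one _).symm
        _ ≤ M ^ L * (G * sgEtot p) := mul_le_mul_of_nonneg_left h5 (by positivity)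
        _ = G * (M ^ L * sgEtot p) := by ring
        _ ≤ _ := mul_le_mul_of_nonneg_left hpe hG.le
    have h9 := mul_le_mul_of_nonneg_left h6 hG.le
    linarith
  choose kk cc hcc hmin using hscale
  -- a code which occurs costs one cell
  have hcell : ∀ (k : Fin L) (o : SgLt K → Option (ι k)), ∃ S : Set (SgVar K n m → ℝ),
      MeasurableSet S ∧
      (∀ c ∈ sgCube K n m \ Bx, ∀ c', sgNear (rho k) c' c → cd k c' = o →
        (∀ p, sgNear (sgRho L (k.1 + 1)) p c → sgEtot c' ≤ M * sgEtot p) → c ∈ S) ∧
      ∫ c, (sgCube K n m ∩ S).indicator F c ≤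
        if o = fun _ => none then 0 else Real.exp (-s * wgt k o) * Main := by
    intro k o
    by_cases ho : o = fun _ => none
    · refine ⟨∅, MeasurableSet.empty, fun c hc c' hn' hcd _ => ?_, by simp [ho]⟩
      obtain ⟨a, ha⟩ := hbad c hc
      exfalso
      have h5 : cd k c' a = none := by rw [hcd, ho]
      simp only [cd] at h5
      split_ifs at h5 with hg
      obtain ⟨z, hz, hzc⟩ := hg
      refine ha ⟨z, hz, fun x => ?_⟩
      have := abs_le.1 (hzc x)
      have := abs_le.1 (hn' a x)
      have := (sgRho_facts k.2).2.1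
      rw [abs_le]; constructor <;> simp only [rho] at * <;> linarith
    rw [if_neg ho]
    by_cases hex : ∃ c ∈ sgCube K n m \ Bx, ∃ c', sgNear (rho k) c' c ∧ cd k c' = o ∧
        ∀ p, sgNear (sgRho L (k.1 + 1)) p c → sgEtot c' ≤ M * sgEtot p
    swap
    · refine ⟨∅, MeasurableSet.empty, fun c hc c' h5 h6 h7 => (hex ⟨c, hc, c', h5, h6, h7⟩).elim,
        ?_⟩
      simp only [Set.inter_empty, Set.indicator_empty, integral_zero]
      positivity
    obtain ⟨th, hth, c0, hn0, hcd0, hmin0⟩ := hex
    obtain ⟨S, hSm, hScov, hSint⟩ := sgTranslate px pa pb (R := 2 * rho k) c0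
    obtain ⟨f1, f2, f3, f4, -⟩ := sgRho_facts k.2
    refine ⟨S, hSm, fun c hc c' hn' hcd _ => ?_, hSint.trans ?_⟩
    · have hz : ∀ a : SgLt K, ∃ z, IntW K n m z ∧
          ∀ x, |sgFld a.1 c' x - sgFld a.1 c0 x - Real.pi * z x| ≤ rho k := by
        intro a
        have h5 : cd k c' a = cd k c0 a := by rw [hcd, hcd0]
        simp only [cd] at h5
        split_ifs at h5 with g1 g2
        · obtain ⟨z1, hz1, e1⟩ := g1
          obtain ⟨z2, hz2, e2⟩ := g2
          refine ⟨z1 - z2, intW_sub hz1 hz2, fun x => ?_⟩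
          have := abs_le.1 (e1 x)
          have := abs_le.1 (e2 x)
          rw [Pi.sub_apply, abs_le]; constructor <;> linarith
        · exact hωnear k _ _ (Option.some.inj h5)
      choose z hzW hzle using hz
      let zc : SgVar K n m → ℝ := fun v => z v.1 v.2.1
      refine hScov c hc.1 zc (fun v => (hzW v.1).2 v.2.1) fun y => ?_
      have e : sgFld y.1.1 zc = z y.1 := by
        show wext K n m (sgExt zc y.1.1) = _
        rw [← wext_of_inW (hzW y.1).1]
        refine wext_congr fun x hx => ?_
        simp [sgExt, zc, y.1.2, hx]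
      rw [sgB_apply, map_sub, map_sub, map_smul, e]
      simp only [Pi.sub_apply, Pi.smul_apply, smul_eq_mul]
      have := abs_le.1 (hzle y.1 y.2)
      have := abs_le.1 (hn' y.1 y.2)
      rw [abs_le]; constructor <;> linarith
    · refine (sgCell_bound px pa pb P hlam ht0 hM hG hsamp h2 hP f1 f2 c0
        (om := sgEtot c0) fun w hw => ?_).trans ?_
      · have hp : sgNear (sgRho L (k.1 + 1)) (c0 + w) th := fun a y => by
          have := abs_le.1 (hn0 a y)
          have hwy : |sgB K n m w (a, y)| ≤ 2 * rho k := hw (a, y)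
          rw [sgB_apply] at hwy
          have := abs_le.1 hwy
          rw [map_add, Pi.add_apply, abs_le]
          constructor <;> simp only [rho] at * <;> linarith
        exact ⟨hmin0 _ hp, hlow th hth _ fun a y => (hp a y).trans f4⟩
      · refine mul_le_mul_of_nonneg_right (Real.exp_le_exp.2 ?_) hMain.le
        have h5 := hwgt k c0
        rw [hcd0] at h5
        have hw0 : 0 ≤ wgt k o := sum_nonneg fun a _ => by
          cases o a with
          | none => simp
          | some i => exact hω0 k i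
        have hs : lam / (16 * M) = 2 * s := by simp only [s]; field_simp; ring
        have hs0 : 0 ≤ s := by simp only [s]; positivity
        rw [hs]
        nlinarith
  choose S hSm hScov hSint using hcell
  -- the bad part is smaller than the good part
  have htau : ∀ k : Fin L, ∑ o : SgLt K → Option (ι k),
      (if o = fun _ => none then 0 else Real.exp (-s * wgt k o) * Main) ≤
        2 * (K : ℝ) * tauNet K n * Main := by
    intro k
    have htau0 : 0 ≤ tauNet K n := by unfold tauNet; positivity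
    have hrw : ∀ o : SgLt K → Option (ι k),
        (if o = fun _ => none then 0 else Real.exp (-s * wgt k o) * Main) =
        Real.exp (-s * wgt k o) * Main - if o = fun _ => none then Main else 0 := by
      intro o
      split_ifs with h
      · subst h; simp [wgt]
      · simp
    simp only [hrw, sum_sub_distrib, sum_ite_eq', mem_univ, if_true, ← sum_mul]
    have hprod : ∑ o : SgLt K → Option (ι k), Real.exp (-s * wgt k o) =
        (1 + ∑ i, Real.exp (-s * ω k i)) ^ Fintype.card (SgLt K) := by
      have e := (Fintype.prod_sum fun (_ : SgLt K) (q : Option (ι k)) =>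
        Real.exp (-s * q.elim 0 (ω k))).symm
      simp only [prod_const, card_univ, Fintype.sum_option, Option.elim_none, mul_zero,
        Real.exp_zero, Option.elim_some] at e
      rw [← e]
      exact sum_congr rfl fun o _ => by rw [← Real.exp_sum, ← mul_sum]
    rw [hprod]
    have hc : (Fintype.card (SgLt K) : ℝ) ≤ K := by
      exact_mod_cast (Fintype.card_subtype_le _).trans (Fintype.card_fin K).le
    have hL1 : (1 : ℝ) ≤ L := by exact_mod_cast (Nat.lt_of_le_of_lt (Nat.zero_le _) k.2)
    have hsmall : 2 * (K : ℝ) * tauNet K n ≤ 1 := by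
      nlinarith [mul_nonneg (mul_nonneg (show (0 : ℝ) ≤ 4 * K by positivity) htau0)
        (sub_nonneg.2 hL1)]
    have h6 : (1 + ∑ i, Real.exp (-s * ω k i)) ^ Fintype.card (SgLt K) ≤
        1 + 2 * (K : ℝ) * tauNet K n :=
      calc _ ≤ (1 + tauNet K n) ^ Fintype.card (SgLt K) := by
            gcongr; exact hωsum k
        _ ≤ (1 + tauNet K n) ^ K := pow_le_pow_right₀ (by linarith)
            ((Fintype.card_subtype_le _).trans (Fintype.card_fin K).le)
        _ ≤ _ := sgPow_le htau0 K hsmall
    nlinarith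
  have hFc : Continuous F := (sgCos_continuous px pa pb).abs
  have hiS : ∀ k o, Integrable fun c => (sgCube K n m ∩ S k o).indicator F c := fun k o =>
    ((sgCube_integrableOn hFc).mono_set Set.inter_subset_left).integrable_indicator
      (sgCube_measurable.inter (hSm k o))
  have hbadle : ∫ c in sgCube K n m \ Bx, F c < Main := by
    calc ∫ c in sgCube K n m \ Bx, F c
        = ∫ c, (sgCube K n m \ Bx).indicator F c :=
          (integral_indicator (sgCube_measurable.diff hBm)).symm
      _ ≤ ∫ c, ∑ k : Fin L, ∑ o : SgLt K → Option (ι k),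
            (sgCube K n m ∩ S k o).indicator F c := by
          refine integral_mono_of_nonneg (Filter.Eventually.of_forall fun c =>
            Set.indicator_nonneg (fun _ _ => abs_nonneg _) _)
            (integrable_finsetSum _ fun k _ => integrable_finsetSum _ fun o _ => hiS k o)
            (Filter.Eventually.of_forall fun c => ?_)
          have hnn : ∀ (A : Set (SgVar K n m → ℝ)), 0 ≤ A.indicator F c :=
            fun A => Set.indicator_nonneg (fun _ _ => abs_nonneg _) _
          by_cases hc : c ∈ sgCube K n m \ Bx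
          · have hm' := hScov (kk c hc) (cd (kk c hc) (cc c hc)) c hc (cc c hc) (hcc c hc) rfl
              (hmin c hc)
            rw [Set.indicator_of_mem hc]
            refine le_trans ?_ (single_le_sum (f := fun k : Fin L =>
              ∑ o : SgLt K → Option (ι k), (sgCube K n m ∩ S k o).indicator F c)
              (fun k _ => sum_nonneg fun o _ => hnn _) (mem_univ (kk c hc)))
            refine le_trans (le_of_eq ?_) (single_le_sum
              (f := fun o => (sgCube K n m ∩ S (kk c hc) o).indicator F c)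
              (fun o _ => hnn _) (mem_univ (cd (kk c hc) (cc c hc))))
            exact (Set.indicator_of_mem (s := sgCube K n m ∩ _) ⟨hc.1, hm'⟩ F).symm
          · rw [Set.indicator_of_notMem hc]
            exact sum_nonneg fun k _ => sum_nonneg fun o _ => hnn _
      _ = ∑ k : Fin L, ∑ o : SgLt K → Option (ι k),
            ∫ c, (sgCube K n m ∩ S k o).indicator F c := by
          rw [integral_finsetSum _ fun k _ => integrable_finsetSum _ fun o _ => hiS k o]
          exact sum_congr rfl fun k _ => integral_finsetSum _ fun o _ => hiS k o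
      _ ≤ ∑ _k : Fin L, 2 * (K : ℝ) * tauNet K n * Main :=
          sum_le_sum fun k _ => (sum_le_sum fun o _ => hSint k o).trans (htau k)
      _ < Main := by
          rw [sum_const, card_univ, Fintype.card_fin, nsmul_eq_mul]
          have : 0 ≤ (K : ℝ) * L * tauNet K n := by unfold tauNet; positivity
          nlinarith
  have hsplit : ∫ c in sgCube K n m, sgCos px pa pb m c =
      Main + ∫ c in sgCube K n m \ Bx, sgCos px pa pb m c := by
    have hi := sgCube_integrableOn (K := K) (n := n) (m := m) (sgCos_continuous px pa pb)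
    conv_lhs => rw [← Set.union_sdiff_cancel hsub]
    exact setIntegral_union Set.disjoint_sdiff_right (sgCube_measurable.diff hBm)
      (hi.mono_set hsub) (hi.mono_set Set.sdiff_subset)
  have habs : -∫ c in sgCube K n m \ Bx, F c ≤ ∫ c in sgCube K n m \ Bx, sgCos px pa pb m c := by
    rw [← integral_neg]
    exact setIntegral_mono ((sgCube_integrableOn hFc).mono_set Set.sdiff_subset).neg
      ((sgCube_integrableOn (sgCos_continuous px pa pb)).mono_set Set.sdiff_subset)
      fun c => neg_abs_le _
  linarith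

end

end Vale.Agent.P047
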